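import Vale.Agent.P224.PO.LawO
import Vale.Agent.P224.UE.Half3
import Vale.Agent.P224.Bdl.B5
import Mathlib.Analysis.Real.Pi.Bounds

/-!
The numerical laws of the direct certificates in dimensions 3, 5, 7, 9, 11.
-/

namespace Vale.Agent.P224.PO

open Vale.Agent.P224 Vale.Agent.P224.UE Vale.Agent.P224.POS

lemma KH_nine : KH 9 = 65536 / (35 * Real.pi) := by
  have := KH_rec (m := 7) (by norm_num)
  rw [KH_seven] at this
  norm_num at this
  rw [this]
  have := Real.pi_pos
  field_simp
  norm_num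

lemma KH_eleven : KH 11 = 524288 / (63 * Real.pi) := by
  have := KH_rec (m := 9) (by norm_num)
  rw [KH_nine] at this
  norm_num at this
  rw [this]
  have := Real.pi_pos
  field_simp
  norm_num

lemma div_pi_bounds {N : ℝ} (hN : 0 ≤ N) :
    N * (1000000 / 3141593) ≤ N / Real.pi ∧ N / Real.pi ≤ N * (1000000 / 3141592) := by
  have p1 := Real.pi_gt_d6
  have p2 := Real.pi_lt_d6
  have p0 := Real.pi_pos
  have e : N / Real.pi = N * (1 / Real.pi) := by ring
  rw [e]
  constructor
  · refine mul_le_mul_of_nonneg_left ?_ hN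
    rw [le_div_iff₀ p0]
    linarith
  · refine mul_le_mul_of_nonneg_left ?_ hN
    rw [div_le_iff₀ p0]
    linarith

lemma odd_le {k : ℕ} (hk : 1 ≤ k) {B : ℝ} (hB : 0 ≤ B)
    (h : 4 * ((2 * (k : ℝ) / (2 * k + 1)) ^ (2 * k) *
      ((2 * (k : ℝ) + 2) / (2 * k + 1)) ^ (2 * k + 2)) ≤ B ^ 4) :
    leastClifford (2 * k + 1) ≤ B * sphereVol (2 * k + 1) := by
  refine odd_bound hk ?_
  have h1 := oddRatio_pow_four k
  rw [← h1] at h
  exact le_of_pow_le_pow_left₀ (by norm_num) hB h

/-- the ratio of the least Clifford volume in dimension 3 -/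
lemma clifford_le_3 : leastClifford 3 ≤ 1539601 / 1000000 * sphereVol 3 :=
  odd_le (k := 1) (by norm_num) (by norm_num) (by norm_num)

/-- The numerical law in dimension 3. -/
theorem law_neg_3 {Θ u r H : ℝ} (h1 : 6 / 5 ≤ Θ) (h2 : Θ ≤ 303301397 / 200000000) (hu : 0 ≤ u)
    (hT : Θ ^ 2 * u ≤ 1) (hr1 : u ^ 2 ≤ r) (hr2 : r ≤ u)
    (hH : H = -(156275 / 524288) + (-(15609827 / 16777216)) * u + (19759067 / 16777216) * r) :
    Θ * (1 + (12701491 / 4194304) * u + (-(16579177 / 4194304)) * r + (876303 / 4194304) * u ^ 2) + KH 3 * H < 0 := by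
  have hb := div_pi_bounds (N := 16) (by norm_num)
  have hK : KH 3 = 16 / Real.pi := by
    have h0 := KH_three
    have := Real.pi_pos
    rw [h0]
    try field_simp
  rw [← hK] at hb
  rw [hH]
  exact law_two (Tm := 303301397 / 200000000) hb.1 hb.2 (by norm_num) (by norm_num) (by norm_num) (by norm_num)
    (by norm_num) (by norm_num) (by norm_num)
    (fun T hT1 hT2 => quintic_neg (by norm_num) (by norm_num) (by norm_num) (by norm_num)
      (by norm_num) (by norm_num) (by norm_num) (le_of_eq rfl) (le_of_eq rfl) (le_of_eq rfl)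
      (le_of_eq rfl) (le_of_eq rfl) (le_of_eq rfl) hT1 hT2)
    (fun T hT1 hT2 => quintic_neg (by norm_num) (by norm_num) (by norm_num) (by norm_num)
      (by norm_num) (by norm_num) (by norm_num) (le_of_eq rfl) (le_of_eq rfl) (le_of_eq rfl)
      (le_of_eq rfl) (le_of_eq rfl) (le_of_eq rfl) hT1 hT2)
    (fun T hT1 hT2 => quintic_neg (by norm_num) (by norm_num) (by norm_num) (by norm_num)
      (by norm_num) (by norm_num) (by norm_num) (le_of_eq rfl) (le_of_eq rfl) (le_of_eq rfl)
      (le_of_eq rfl) (le_of_eq rfl) (le_of_eq rfl) hT1 hT2)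
    (fun T hT1 hT2 => quintic_neg (by norm_num) (by norm_num) (by norm_num) (by norm_num)
      (by norm_num) (by norm_num) (by norm_num) (le_of_eq rfl) (le_of_eq rfl) (le_of_eq rfl)
      (le_of_eq rfl) (le_of_eq rfl) (le_of_eq rfl) hT1 hT2)
    h1 h2 hu hT hr1 hr2

/-- the ratio of the least Clifford volume in dimension 5 -/
lemma clifford_le_5 : leastClifford 5 ≤ 743613 / 500000 * sphereVol 5 :=
  odd_le (k := 2) (by norm_num) (by norm_num) (by norm_num)

/-- The numerical law in dimension 5. -/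
theorem law_neg_5 {Θ u r H : ℝ} (h1 : 6 / 5 ≤ Θ) (h2 : Θ ≤ 73617687 / 50000000) (hu : 0 ≤ u)
    (hT : Θ ^ 2 * u ≤ 1) (hr1 : u ^ 2 ≤ r) (hr2 : r ≤ u)
    (hH : H = -(227711 / 4194304) + (-(462295 / 6291456)) * u + (1515719 / 12582912) * r) :
    Θ * (1 + (5334849 / 4194304) * u + (-(1163819 / 524288)) * r + (727045 / 4194304) * u ^ 2) + KH 5 * H < 0 := by
  have hb := div_pi_bounds (N := 256 / 3) (by norm_num)
  have hK : KH 5 = (256 / 3) / Real.pi := by
    have h0 := KH_five
    have := Real.pi_pos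
    rw [h0]
    try field_simp
  rw [← hK] at hb
  rw [hH]
  exact law_two (Tm := 73617687 / 50000000) hb.1 hb.2 (by norm_num) (by norm_num) (by norm_num) (by norm_num)
    (by norm_num) (by norm_num) (by norm_num)
    (fun T hT1 hT2 => quintic_neg (by norm_num) (by norm_num) (by norm_num) (by norm_num)
      (by norm_num) (by norm_num) (by norm_num) (le_of_eq rfl) (le_of_eq rfl) (le_of_eq rfl)
      (le_of_eq rfl) (le_of_eq rfl) (le_of_eq rfl) hT1 hT2)
    (fun T hT1 hT2 => quintic_neg (by norm_num) (by norm_num) (by norm_num) (by norm_num)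
      (by norm_num) (by norm_num) (by norm_num) (le_of_eq rfl) (le_of_eq rfl) (le_of_eq rfl)
      (le_of_eq rfl) (le_of_eq rfl) (le_of_eq rfl) hT1 hT2)
    (fun T hT1 hT2 => quintic_neg (by norm_num) (by norm_num) (by norm_num) (by norm_num)
      (by norm_num) (by norm_num) (by norm_num) (le_of_eq rfl) (le_of_eq rfl) (le_of_eq rfl)
      (le_of_eq rfl) (le_of_eq rfl) (le_of_eq rfl) hT1 hT2)
    (fun T hT1 hT2 => quintic_neg (by norm_num) (by norm_num) (by norm_num) (by norm_num)
      (by norm_num) (by norm_num) (by norm_num) (le_of_eq rfl) (le_of_eq rfl) (le_of_eq rfl)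
      (le_of_eq rfl) (le_of_eq rfl) (le_of_eq rfl) hT1 hT2)
    h1 h2 hu hT hr1 hr2

/-- the ratio of the least Clifford volume in dimension 7 -/
lemma clifford_le_7 : leastClifford 7 ≤ 732907 / 500000 * sphereVol 7 :=
  odd_le (k := 3) (by norm_num) (by norm_num) (by norm_num)

/-- The numerical law in dimension 7. -/
theorem law_neg_7 {Θ u r H : ℝ} (h1 : 6 / 5 ≤ Θ) (h2 : Θ ≤ 723379209 / 500000000) (hu : 0 ≤ u)
    (hT : Θ ^ 2 * u ≤ 1) (hr1 : u ^ 2 ≤ r) (hr2 : r ≤ u)
    (hH : H = -(5821 / 524288) + (-(5331051 / 134217728)) * u + (6571059 / 134217728) * r) :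
    Θ * (1 + (58353209 / 16777216) * u + (-(18540125 / 4194304)) * r + (3700621 / 16777216) * u ^ 2) + KH 7 * H < 0 := by
  have hb := div_pi_bounds (N := 2048 / 5) (by norm_num)
  have hK : KH 7 = (2048 / 5) / Real.pi := by
    have h0 := KH_seven
    have := Real.pi_pos
    rw [h0]
    try field_simp
  rw [← hK] at hb
  rw [hH]
  exact law_two (Tm := 723379209 / 500000000) hb.1 hb.2 (by norm_num) (by norm_num) (by norm_num) (by norm_num)
    (by norm_num) (by norm_num) (by norm_num)
    (fun T hT1 hT2 => quintic_neg (by norm_num) (by norm_num) (by norm_num) (by norm_num)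
      (by norm_num) (by norm_num) (by norm_num) (le_of_eq rfl) (le_of_eq rfl) (le_of_eq rfl)
      (le_of_eq rfl) (le_of_eq rfl) (le_of_eq rfl) hT1 hT2)
    (fun T hT1 hT2 => quintic_neg (by norm_num) (by norm_num) (by norm_num) (by norm_num)
      (by norm_num) (by norm_num) (by norm_num) (le_of_eq rfl) (le_of_eq rfl) (le_of_eq rfl)
      (le_of_eq rfl) (le_of_eq rfl) (le_of_eq rfl) hT1 hT2)
    (fun T hT1 hT2 => quintic_neg (by norm_num) (by norm_num) (by norm_num) (by norm_num)
      (by norm_num) (by norm_num) (by norm_num) (le_of_eq rfl) (le_of_eq rfl) (le_of_eq rfl)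
      (le_of_eq rfl) (le_of_eq rfl) (le_of_eq rfl) hT1 hT2)
    (fun T hT1 hT2 => quintic_neg (by norm_num) (by norm_num) (by norm_num) (by norm_num)
      (by norm_num) (by norm_num) (by norm_num) (le_of_eq rfl) (le_of_eq rfl) (le_of_eq rfl)
      (le_of_eq rfl) (le_of_eq rfl) (le_of_eq rfl) hT1 hT2)
    h1 h2 hu hT hr1 hr2

/-- the ratio of the least Clifford volume in dimension 9 -/
lemma clifford_le_9 : leastClifford 9 ≤ 363533 / 250000 * sphereVol 9 :=
  odd_le (k := 4) (by norm_num) (by norm_num) (by norm_num)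

/-- The numerical law in dimension 9. -/
theorem law_neg_9 {Θ u r H : ℝ} (h1 : 6 / 5 ≤ Θ) (h2 : Θ ≤ 14177787 / 10000000) (hu : 0 ≤ u)
    (hT : Θ ^ 2 * u ≤ 1) (hr1 : u ^ 2 ≤ r) (hr2 : r ≤ u)
    (hH : H = -(639525 / 268435456) + (5502039 / 2684354560) * u + (75191 / 2684354560) * r) :
    Θ * (1 + (-(125933995 / 134217728)) * u + (-(52101 / 4194304)) * r + (41270159 / 268435456) * u ^ 2) + KH 9 * H < 0 := by
  have hb := div_pi_bounds (N := 65536 / 35) (by norm_num)
  have hK : KH 9 = (65536 / 35) / Real.pi := by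
    have h0 := KH_nine
    have := Real.pi_pos
    rw [h0]
    try field_simp
  rw [← hK] at hb
  rw [hH]
  exact law_two (Tm := 14177787 / 10000000) hb.1 hb.2 (by norm_num) (by norm_num) (by norm_num) (by norm_num)
    (by norm_num) (by norm_num) (by norm_num)
    (fun T hT1 hT2 => quintic_neg (by norm_num) (by norm_num) (by norm_num) (by norm_num)
      (by norm_num) (by norm_num) (by norm_num) (le_of_eq rfl) (le_of_eq rfl) (le_of_eq rfl)
      (le_of_eq rfl) (le_of_eq rfl) (le_of_eq rfl) hT1 hT2)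
    (fun T hT1 hT2 => quintic_neg (by norm_num) (by norm_num) (by norm_num) (by norm_num)
      (by norm_num) (by norm_num) (by norm_num) (le_of_eq rfl) (le_of_eq rfl) (le_of_eq rfl)
      (le_of_eq rfl) (le_of_eq rfl) (le_of_eq rfl) hT1 hT2)
    (fun T hT1 hT2 => quintic_neg (by norm_num) (by norm_num) (by norm_num) (by norm_num)
      (by norm_num) (by norm_num) (by norm_num) (le_of_eq rfl) (le_of_eq rfl) (le_of_eq rfl)
      (le_of_eq rfl) (le_of_eq rfl) (le_of_eq rfl) hT1 hT2)
    (fun T hT1 hT2 => quintic_neg (by norm_num) (by norm_num) (by norm_num) (by norm_num)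
      (by norm_num) (by norm_num) (by norm_num) (le_of_eq rfl) (le_of_eq rfl) (le_of_eq rfl)
      (le_of_eq rfl) (le_of_eq rfl) (le_of_eq rfl) hT1 hT2)
    h1 h2 hu hT hr1 hr2

/-- the ratio of the least Clifford volume in dimension 11 -/
lemma clifford_le_11 : leastClifford 11 ≤ 1446769 / 1000000 * sphereVol 11 :=
  odd_le (k := 5) (by norm_num) (by norm_num) (by norm_num)

/-- The numerical law in dimension 11. -/
theorem law_neg_11 {Θ u r H : ℝ} (h1 : 6 / 5 ≤ Θ) (h2 : Θ ≤ 140336593 / 100000000) (hu : 0 ≤ u)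
    (hT : Θ ^ 2 * u ≤ 1) (hr1 : u ^ 2 ≤ r) (hr2 : r ≤ u)
    (hH : H = -(71209 / 134217728) + (364261 / 805306368) * u + (9773 / 805306368) * r) :
    Θ * (1 + (-(3922453 / 4194304)) * u + (-(3537993 / 134217728)) * r + (43730317 / 268435456) * u ^ 2) + KH 11 * H < 0 := by
  have hb := div_pi_bounds (N := 524288 / 63) (by norm_num)
  have hK : KH 11 = (524288 / 63) / Real.pi := by
    have h0 := KH_eleven
    have := Real.pi_pos
    rw [h0]
    try field_simp
  rw [← hK] at hb
  rw [hH]
  exact law_two (Tm := 140336593 / 100000000) hb.1 hb.2 (by norm_num) (by norm_num) (by norm_num) (by norm_num)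
    (by norm_num) (by norm_num) (by norm_num)
    (fun T hT1 hT2 => quintic_neg (by norm_num) (by norm_num) (by norm_num) (by norm_num)
      (by norm_num) (by norm_num) (by norm_num) (le_of_eq rfl) (le_of_eq rfl) (le_of_eq rfl)
      (le_of_eq rfl) (le_of_eq rfl) (le_of_eq rfl) hT1 hT2)
    (fun T hT1 hT2 => quintic_neg (by norm_num) (by norm_num) (by norm_num) (by norm_num)
      (by norm_num) (by norm_num) (by norm_num) (le_of_eq rfl) (le_of_eq rfl) (le_of_eq rfl)
      (le_of_eq rfl) (le_of_eq rfl) (le_of_eq rfl) hT1 hT2)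
    (fun T hT1 hT2 => quintic_neg (by norm_num) (by norm_num) (by norm_num) (by norm_num)
      (by norm_num) (by norm_num) (by norm_num) (le_of_eq rfl) (le_of_eq rfl) (le_of_eq rfl)
      (le_of_eq rfl) (le_of_eq rfl) (le_of_eq rfl) hT1 hT2)
    (fun T hT1 hT2 => quintic_neg (by norm_num) (by norm_num) (by norm_num) (by norm_num)
      (by norm_num) (by norm_num) (by norm_num) (le_of_eq rfl) (le_of_eq rfl) (le_of_eq rfl)
      (le_of_eq rfl) (le_of_eq rfl) (le_of_eq rfl) hT1 hT2)
    h1 h2 hu hT hr1 hr2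

end Vale.Agent.P224.PO
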