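import Vale.Agent.P224.PO.ZO
import Vale.Agent.P224.SO.Rc5c

/-!
The final assembly of a direct certificate with powers of the chordal distance and one quadratic
resource.
-/

namespace Vale.Agent.P224.PO

open MeasureTheory Set Filter Function Module Vale.Agent.P224 Vale.Agent.P224.UE
open Vale.Agent.P224.SM2 hiding ker
open scoped Topology RealInnerProductSpace ENNReal ContDiff Manifold

set_option linter.unusedSectionVars false

section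

variable {X : Type*} [MeasurableSpace X] {E : Type*} [NormedAddCommGroup E]
  [InnerProductSpace ℝ E] [MeasurableSpace E] [BorelSpace E] [SecondCountableTopology E]
  {μ : Measure X} [IsFiniteMeasure μ] {m : ℕ} {p n : X → E} {C S : ℝ}

/-- The law of a direct certificate with a resource `R`. -/
theorem law_R [CompleteSpace E] [Nonempty X] (hD : EmbD μ m p n C S)
    (hm2 : 2 ≤ m) {e : E} (he : (μ.real univ) • e = ∫ x, n x ∂μ) (hA : 0 < μ.real univ)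
    {R : R9 → ℝ} (hRc : Continuous R) {ρ : ℝ} (hρ : 0 ≤ ρ)
    (hR : 0 ≤ ∫ q, R (dat p n e q) ∂(μ.prod μ))
    {b0 b1 b2 b3 b4 b5 b6 b7 b8 : ℝ} {l : List (ℝ × HTerm)}
    (hl : ∀ cT ∈ l, cT.2.ok m = true)
    (hpos : ∀ x N y w : E, ‖x‖ = 1 → ‖N‖ = 1 → ‖y‖ = 1 → ‖w‖ = 1 → ⟪x, N⟫ = 0 → ⟪y, w⟫ = 0 →
      ⟪x, y⟫ < 1 → 0 ≤ W9 b0 b1 b2 b3 b4 b5 b6 b7 b8 (dv x N y w e)
        + hsum m l (dv x N y w e) - ρ * R (dv x N y w e)) :
    ∃ r : ℝ, (‖e‖ ^ 2) ^ 2 ≤ r ∧ r ≤ ‖e‖ ^ 2 ∧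
      0 ≤ μ.real univ * (b0 + (b1 + b2 + b3) * ‖e‖ ^ 2 + (b4 + b7) * r
          + (b5 + b6) * (‖e‖ ^ 2) ^ 2 + b8 * ((‖e‖ ^ 2 - r) / (m + 1)))
        + KH m * S * hval m l (‖e‖ ^ 2) r := by
  have hRi : Integrable (fun q => R (dat p n e q)) (μ.prod μ) :=
    integrable_param _ (measurable_dat hD.toPts e) (isCompact_KE (bE e))
      (dat_mem hD.toPts e) hRc.measurable hRc.continuousOn
  have hLi : Integrable (fun q => (fun d : R9 => 1 - ρ * R d) (dat p n e q)) (μ.prod μ) :=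
    (integrable_const _).sub (hRi.const_mul ρ)
  have hL : ∫ q, (fun d : R9 => 1 - ρ * R d) (dat p n e q) ∂(μ.prod μ) + 0 * S * μ.real univ
      ≤ μ.real univ ^ 2 + 0 * ‖∫ x, n x ∂μ‖ ^ 2 := by
    simp only
    rw [integral_sub (integrable_const _) (hRi.const_mul ρ), integral_const_mul, integral_const,
      smul_eq_mul, measureReal_def, ← univ_prod_univ, Measure.prod_prod,
      ENNReal.toReal_mul, ← measureReal_def]
    nlinarith [mul_nonneg hρ hR]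
  obtain ⟨r, h1, h2, h3⟩ := hD.law_HL hm2 he hA (L := fun d : R9 => 1 - ρ * R d) (b0 := b0 - 1)
    (b1 := b1) (b2 := b2) (b3 := b3)
    (b4 := b4) (b5 := b5) (b6 := b6) (b7 := b7) (b8 := b8) hLi hL hl
    (fun x N y w a1 a2 a3 a4 a5 a6 a7 => by
      have h := hpos x N y w a1 a2 a3 a4 a5 a6 a7
      unfold W9 at h ⊢
      linarith)
  exact ⟨r, h1, h2, by linarith⟩

end

section

variable {V W M : Type*} [NormedAddCommGroup V] [InnerProductSpace ℝ V] [FiniteDimensional ℝ V]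
  [NormedAddCommGroup W] [InnerProductSpace ℝ W] [FiniteDimensional ℝ W]
  [TopologicalSpace M] [ChartedSpace V M]
  [MeasurableSpace V] [BorelSpace V] [MeasurableSpace M] [BorelSpace M]
  [IsManifold 𝓘(ℝ, V) ∞ M] [CompactSpace M] [T2Space M] [ConnectedSpace M]
  [MeasurableSpace W] [BorelSpace W]

/-- the resource polynomial (`s ^ 2`, `s c`, `s (t + p) / 2`) -/
noncomputable def RF (k0 k1 c : ℝ) (d : R9) : ℝ :=
  k0 + k1 * d 0 ^ 2 - d 0 * d 3 + c * (d 0 * ((d 1 + d 2) / 2))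

lemma continuous_RF (k0 k1 c : ℝ) : Continuous (RF k0 k1 c) := by
  unfold RF
  fun_prop

/-- the resource increases with the last coefficient -/
lemma RF_mono {X : Type*} [MeasurableSpace X] {E : Type*} [NormedAddCommGroup E]
    [InnerProductSpace ℝ E] [MeasurableSpace E] [BorelSpace E] [SecondCountableTopology E]
    {μ : Measure X} [IsFiniteMeasure μ] {m : ℕ} {p n : X → E} (h : TwoG μ m p n)
    {k0 k1 c c' : ℝ} (hc : c ≤ c')
    (hor : 0 ≤ ∫ q : X × X, ⟪p q.1, p q.2⟫ * ⟪p q.1, n q.2⟫ ∂(μ.prod μ)) (e : E)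
    (hR : 0 ≤ ∫ q, RF k0 k1 c (dat p n e q) ∂(μ.prod μ)) :
    0 ≤ ∫ q, RF k0 k1 c' (dat p n e q) ∂(μ.prod μ) := by
  have hint : ∀ {G : R9 → ℝ}, Continuous G → Integrable (fun q => G (dat p n e q)) (μ.prod μ) :=
    fun hG => integrable_param _ (measurable_dat h.toPts e) (isCompact_KE (bE e))
      (dat_mem h.toPts e) hG.measurable hG.continuousOn
  have i1 : Integrable (fun q => RF k0 k1 c (dat p n e q)) (μ.prod μ) :=
    hint (continuous_RF _ _ _)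
  have i2 : Integrable (fun q => dat p n e q 0 * dat p n e q 1) (μ.prod μ) :=
    hint (G := fun d => d 0 * d 1) (by fun_prop)
  have i3 : Integrable (fun q => dat p n e q 0 * dat p n e q 2) (μ.prod μ) :=
    hint (G := fun d => d 0 * d 2) (by fun_prop)
  have e1 : ∫ q, dat p n e q 0 * dat p n e q 1 ∂(μ.prod μ)
      = ∫ q : X × X, ⟪p q.1, p q.2⟫ * ⟪p q.1, n q.2⟫ ∂(μ.prod μ) := rfl
  have e2 : ∫ q, dat p n e q 0 * dat p n e q 2 ∂(μ.prod μ)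
      = ∫ q : X × X, ⟪p q.1, p q.2⟫ * ⟪p q.1, n q.2⟫ ∂(μ.prod μ) := by
    rw [← integral_prod_swap]
    refine integral_congr_ae (Eventually.of_forall fun q => ?_)
    show ⟪p q.2, p q.1⟫ * ⟪n q.2, p q.1⟫ = ⟪p q.1, p q.2⟫ * ⟪p q.1, n q.2⟫
    rw [real_inner_comm (p q.1) (p q.2), real_inner_comm (p q.1) (n q.2)]
  have e3 : ∀ q, RF k0 k1 c' (dat p n e q) = RF k0 k1 c (dat p n e q)
      + (c' - c) / 2 * (dat p n e q 0 * dat p n e q 1 + dat p n e q 0 * dat p n e q 2) := by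
    intro q
    unfold RF
    ring
  simp only [e3]
  have i4 : Integrable (fun q => (c' - c) / 2 * (dat p n e q 0 * dat p n e q 1
      + dat p n e q 0 * dat p n e q 2)) (μ.prod μ) := (i2.add i3).const_mul _
  rw [integral_add i1 i4, integral_const_mul, integral_add i2 i3, e1, e2]
  have h1 : 0 ≤ (c' - c) / 2 := by linarith
  have h2 := mul_nonneg h1 (add_nonneg hor hor)
  linarith

/-- the resource in dimension five -/
theorem res5 {X : Type*} [MeasurableSpace X] [Nonempty X] {E : Type*} [NormedAddCommGroup E]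
    [InnerProductSpace ℝ E] [FiniteDimensional ℝ E] [MeasurableSpace E] [BorelSpace E]
    {μ : Measure X} [IsFiniteMeasure μ] {p n : X → E} (hE : finrank ℝ E = 7)
    (h : TwoG μ 5 p n) (hsp : ∀ w, (∀ x, ⟪p x, w⟫ = 0) → w = 0)
    (hor : 0 ≤ ∫ q : X × X, ⟪p q.1, p q.2⟫ * ⟪p q.1, n q.2⟫ ∂(μ.prod μ))
    {c : ℝ} (hc0 : 0 < c) (hc : 1 ≤ 6 * c ^ 2) (e : E) :
    0 ≤ ∫ q, RF (-(187 / 100)) 14 c (dat p n e q) ∂(μ.prod μ) := by
  have hr0 : 0 < √6 := Real.sqrt_pos.2 (by norm_num)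
  have hr : √6 * √6 = 6 := Real.mul_self_sqrt (by norm_num)
  have hcc : 1 / √6 ≤ c := by
    rw [div_le_iff₀ hr0]
    nlinarith [mul_pos hc0 hr0]
  refine RF_mono h hcc hor e ?_
  refine (SO.rc5G hE h hsp hor).trans (le_of_eq ?_)
  refine integral_congr_ae (Eventually.of_forall fun q => ?_)
  show _ = -(187 / 100) + 14 * ⟪p q.1, p q.2⟫ ^ 2 - ⟪p q.1, p q.2⟫ * ⟪n q.1, n q.2⟫
    + 1 / √6 * (⟪p q.1, p q.2⟫ * ((⟪p q.1, n q.2⟫ + ⟪n q.1, p q.2⟫) / 2))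
  ring

/-- no vector is orthogonal to an immersion outside the great spheres -/
lemma sp_of_hng {F : M → W} (hng : ¬ ∃ a : W, a ≠ 0 ∧ ∀ x, ⟪F x, a⟫ = 0) :
    ∀ w, (∀ x, ⟪F x, w⟫ = 0) → w = 0 := by
  intro w hw
  by_contra h
  exact hng ⟨w, h, hw⟩

/-- The volume bound from a direct certificate with a resource. -/
theorem main_o_of_certR {m : ℕ} (hm2 : 2 ≤ m) (hV : finrank ℝ V = m)
    (hW : finrank ℝ W = finrank ℝ V + 2)
    {F : M → W} (hF : SphImm V F) (hmin : ∀ x n, IsUnitNormal V F x n → meanCurv V F x n = 0)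
    (hng : ¬ ∃ a : W, a ≠ 0 ∧ ∀ x, ⟪F x, a⟫ = 0)
    {R : R9 → ℝ} (hRc : Continuous R) {ρ : ℝ} (hρ : 0 ≤ ρ)
    (hres : ∀ N : M → W, TwoG (volM V F) m F N →
      0 ≤ ∫ q : M × M, ⟪F q.1, F q.2⟫ * ⟪F q.1, N q.2⟫ ∂((volM V F).prod (volM V F)) →
      ∀ e : W, 0 ≤ ∫ q, R (dat F N e q) ∂((volM V F).prod (volM V F)))
    {C : ℝ} (hC2 : C ≤ 2)
    {b0 b1 b2 b3 b4 b5 b6 b7 b8 : ℝ} {l : List (ℝ × HTerm)}
    (hl : ∀ cT ∈ l, cT.2.ok m = true)
    (hpos : ∀ e x N y w : W, ‖e‖ ^ 2 ≤ 25 / 36 → ‖x‖ = 1 → ‖N‖ = 1 → ‖y‖ = 1 → ‖w‖ = 1 →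
      ⟪x, N⟫ = 0 → ⟪y, w⟫ = 0 → ⟪x, y⟫ < 1 → 0 ≤ W9 b0 b1 b2 b3 b4 b5 b6 b7 b8 (dv x N y w e)
        + hsum m l (dv x N y w e) - ρ * R (dv x N y w e))
    (hneg : ∀ Θ u r : ℝ, 6 / 5 ≤ Θ → Θ < C → 0 ≤ u → Θ ^ 2 * u ≤ 1 → u ^ 2 ≤ r → r ≤ u →
      Θ * (b0 + (b1 + b2 + b3) * u + (b4 + b7) * r + (b5 + b6) * u ^ 2
        + b8 * ((u - r) / (m + 1))) + KH m * hval m l u r < 0) :
    ENNReal.ofReal (C * sphereVol m) ≤ volM V F univ := by
  have hm : 0 < finrank ℝ V := by omega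
  have hfin : IsFiniteMeasure (volM V F) := isFiniteMeasure_volM hF
  set A := (volM V F).real univ with hA
  rw [← hV]
  set S := sphereVol (finrank ℝ V) with hS
  have hS0 : 0 < S := sphereVol_pos' _
  have hconv : ∀ c : ℝ, c ≤ A → ENNReal.ofReal c ≤ volM V F univ := fun c hc =>
    ENNReal.ofReal_le_of_le_toReal hc
  refine hconv _ ?_
  by_cases hinj : Injective F
  swap
  · have h2 := TwoSide.two_le (by omega) hW hF hmin hinj
    have h3 : C * S ≤ 2 * S := by gcongr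
    linarith
  by_contra hlt
  rw [not_le] at hlt
  have h65 : 6 / 5 * S ≤ A := by
    have h1 := (PM.main_frac (by omega) hW hF hmin hng).1
    have h2 := ENNReal.toReal_mono (measure_ne_top _ _) h1
    rwa [ENNReal.toReal_ofReal (by positivity)] at h2
  have hA0 : 0 < A := by linarith
  obtain ⟨N, hNs, hN, htop, hor⟩ : ∃ N : M → W, ContMDiff 𝓘(ℝ, V) 𝓘(ℝ, W) ∞ N ∧
      (∀ x, IsUnitNormal V F x (N x)) ∧ ‖∫ x, N x ∂(volM V F)‖ ≤ S ∧
      0 ≤ ∫ q : M × M, ⟪F q.1, F q.2⟫ * ⟪F q.1, N q.2⟫ ∂((volM V F).prod (volM V F)) := by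
    obtain ⟨N, hNs, hN, htop⟩ := TP.exists_normal_le hW hm hF hinj
    rcases SO.orient (μ := volM V F) (p := F) (n := N) with h | h
    · exact ⟨N, hNs, hN, htop, h⟩
    · refine ⟨fun x => -N x, hNs.neg, fun x => ⟨by rw [norm_neg]; exact (hN x).1,
        by rw [inner_neg_right, (hN x).2.1, neg_zero], fun i => by
          rw [inner_neg_right, (hN x).2.2 i, neg_zero]⟩, ?_, h⟩
      rw [integral_neg, norm_neg]
      exact htop
  obtain ⟨B, hE⟩ := embD_of_inj hm hW hF hmin hNs hN hinj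
  rw [← hS, hV] at hE
  set e : W := A⁻¹ • ∫ x, N x ∂(volM V F) with he
  have he' : A • e = ∫ x, N x ∂(volM V F) := by
    rw [he, smul_smul, mul_inv_cancel₀ hA0.ne', one_smul]
  have hn : ‖∫ x, N x ∂(volM V F)‖ = A * ‖e‖ := by
    rw [← he', norm_smul, Real.norm_eq_abs, abs_of_pos hA0]
  rw [hn] at htop
  set Θ := A / S with hΘ
  have hAS : A = Θ * S := by rw [hΘ]; field_simp
  have h1 : 6 / 5 ≤ Θ := by
    rw [hΘ, le_div_iff₀ hS0]
    exact h65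
  have h2 : Θ < C := by
    rw [hΘ, div_lt_iff₀ hS0]
    exact hlt
  have h3 : Θ * ‖e‖ ≤ 1 := by
    have : S * (Θ * ‖e‖) ≤ S * 1 := by
      calc S * (Θ * ‖e‖) = A * ‖e‖ := by rw [hAS]; ring
        _ ≤ S := htop
        _ = S * 1 := (mul_one S).symm
    exact le_of_mul_le_mul_left this hS0
  have h4 : Θ ^ 2 * ‖e‖ ^ 2 ≤ 1 := by
    have h0 : 0 ≤ Θ * ‖e‖ := mul_nonneg (by linarith) (norm_nonneg _)
    calc Θ ^ 2 * ‖e‖ ^ 2 = (Θ * ‖e‖) ^ 2 := by ring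
      _ ≤ 1 := pow_le_one₀ h0 h3
  have h5 : ‖e‖ ^ 2 ≤ 25 / 36 := by
    have h6 : (6 / 5 : ℝ) ^ 2 ≤ Θ ^ 2 := pow_le_pow_left₀ (by norm_num) h1 2
    have h7 := mul_le_mul_of_nonneg_right h6 (sq_nonneg ‖e‖)
    linarith
  have hne : Nonempty M := inferInstance
  obtain ⟨r, hr1, hr2, hr3⟩ := law_R hE hm2 he' hA0 hRc hρ (hres N hE.toTwoG hor e) hl
    (fun x N y w hx hN hy hw hxN hyw hs => hpos e x N y w h5 hx hN hy hw hxN hyw hs)
  rw [← hA] at hr3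
  have h8 := hneg Θ (‖e‖ ^ 2) r h1 h2 (sq_nonneg _) h4 hr1 hr2
  have h9 := mul_lt_mul_of_pos_left h8 hS0
  have h10 : ∀ c : ℝ, A * c = S * (Θ * c) := fun c => by rw [hAS]; ring
  rw [h10] at hr3
  linarith

/-- Dimension five: the volume bound from a direct certificate with the orientation resource. -/
theorem main5_of_certR (hV : finrank ℝ V = 5) (hW : finrank ℝ W = finrank ℝ V + 2)
    {F : M → W} (hF : SphImm V F) (hmin : ∀ x n, IsUnitNormal V F x n → meanCurv V F x n = 0)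
    (hng : ¬ ∃ a : W, a ≠ 0 ∧ ∀ x, ⟪F x, a⟫ = 0)
    {c ρ : ℝ} (hc0 : 0 < c) (hc : 1 ≤ 6 * c ^ 2) (hρ : 0 ≤ ρ) {C : ℝ} (hC2 : C ≤ 2)
    {b0 b1 b2 b3 b4 b5 b6 b7 b8 : ℝ} {l : List (ℝ × HTerm)}
    (hl : ∀ cT ∈ l, cT.2.ok 5 = true)
    (hpos : ∀ e x N y w : W, ‖e‖ ^ 2 ≤ 25 / 36 → ‖x‖ = 1 → ‖N‖ = 1 → ‖y‖ = 1 → ‖w‖ = 1 →
      ⟪x, N⟫ = 0 → ⟪y, w⟫ = 0 → ⟪x, y⟫ < 1 → 0 ≤ W9 b0 b1 b2 b3 b4 b5 b6 b7 b8 (dv x N y w e)
        + hsum 5 l (dv x N y w e) - ρ * RF (-(187 / 100)) 14 c (dv x N y w e))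
    (hneg : ∀ Θ u r : ℝ, 6 / 5 ≤ Θ → Θ < C → 0 ≤ u → Θ ^ 2 * u ≤ 1 → u ^ 2 ≤ r → r ≤ u →
      Θ * (b0 + (b1 + b2 + b3) * u + (b4 + b7) * r + (b5 + b6) * u ^ 2
        + b8 * ((u - r) / ((5 : ℕ) + 1))) + KH 5 * hval 5 l u r < 0) :
    ENNReal.ofReal (C * sphereVol 5) ≤ volM V F univ := by
  have hfin : IsFiniteMeasure (volM V F) := isFiniteMeasure_volM hF
  have hne : Nonempty M := inferInstance
  exact main_o_of_certR (by norm_num) hV hW hF hmin hng (continuous_RF _ _ _) hρ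
    (fun N h hor e => res5 (by omega) h (sp_of_hng hng) hor hc0 hc e) hC2 hl hpos hneg

end

end Vale.Agent.P224.PO
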