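import Vale.Agent.P224.UE.Half3
import Vale.Agent.P224.Bdl.B5

/-!
Constants: the normalization of the flux and the ratios of the volumes in dimensions up to 28.
-/

namespace Vale.Agent.P224.PO

open Vale.Agent.P224 Vale.Agent.P224.UE

lemma KHn_8 : KH 8 = 280 := by
  have := KH_rec (m := 6) (by norm_num)
  rw [KH_six] at this
  norm_num at this ⊢
  exact this

lemma KHn_9 : KH 9 = (65536 / 35) / Real.pi := by
  have := KH_rec (m := 7) (by norm_num)
  rw [KH_seven] at this
  norm_num at this
  rw [this]
  have := Real.pi_pos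
  field_simp
  try norm_num

lemma KHn_10 : KH 10 = 1260 := by
  have := KH_rec (m := 8) (by norm_num)
  rw [KHn_8] at this
  norm_num at this ⊢
  exact this

lemma KHn_11 : KH 11 = (524288 / 63) / Real.pi := by
  have := KH_rec (m := 9) (by norm_num)
  rw [KHn_9] at this
  norm_num at this
  rw [this]
  have := Real.pi_pos
  field_simp
  try norm_num

lemma KHn_12 : KH 12 = 5544 := by
  have := KH_rec (m := 10) (by norm_num)
  rw [KHn_10] at this
  norm_num at this ⊢
  exact this

lemma KHn_13 : KH 13 = (8388608 / 231) / Real.pi := by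
  have := KH_rec (m := 11) (by norm_num)
  rw [KHn_11] at this
  norm_num at this
  rw [this]
  have := Real.pi_pos
  field_simp
  try norm_num

lemma KHn_14 : KH 14 = 24024 := by
  have := KH_rec (m := 12) (by norm_num)
  rw [KHn_12] at this
  norm_num at this ⊢
  exact this

lemma KHn_15 : KH 15 = (67108864 / 429) / Real.pi := by
  have := KH_rec (m := 13) (by norm_num)
  rw [KHn_13] at this
  norm_num at this
  rw [this]
  have := Real.pi_pos
  field_simp
  try norm_num

lemma KHn_16 : KH 16 = 102960 := by
  have := KH_rec (m := 14) (by norm_num)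
  rw [KHn_14] at this
  norm_num at this ⊢
  exact this

lemma KHn_17 : KH 17 = (4294967296 / 6435) / Real.pi := by
  have := KH_rec (m := 15) (by norm_num)
  rw [KHn_15] at this
  norm_num at this
  rw [this]
  have := Real.pi_pos
  field_simp
  try norm_num

lemma KHn_18 : KH 18 = 437580 := by
  have := KH_rec (m := 16) (by norm_num)
  rw [KHn_16] at this
  norm_num at this ⊢
  exact this

lemma KHn_19 : KH 19 = (34359738368 / 12155) / Real.pi := by
  have := KH_rec (m := 17) (by norm_num)
  rw [KHn_17] at this
  norm_num at this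
  rw [this]
  have := Real.pi_pos
  field_simp
  try norm_num

lemma KHn_20 : KH 20 = 1847560 := by
  have := KH_rec (m := 18) (by norm_num)
  rw [KHn_18] at this
  norm_num at this ⊢
  exact this

lemma KHn_21 : KH 21 = (549755813888 / 46189) / Real.pi := by
  have := KH_rec (m := 19) (by norm_num)
  rw [KHn_19] at this
  norm_num at this
  rw [this]
  have := Real.pi_pos
  field_simp
  try norm_num

lemma KHn_22 : KH 22 = 7759752 := by
  have := KH_rec (m := 20) (by norm_num)
  rw [KHn_20] at this
  norm_num at this ⊢
  exact this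

lemma KHn_23 : KH 23 = (4398046511104 / 88179) / Real.pi := by
  have := KH_rec (m := 21) (by norm_num)
  rw [KHn_21] at this
  norm_num at this
  rw [this]
  have := Real.pi_pos
  field_simp
  try norm_num

lemma KHn_24 : KH 24 = 32449872 := by
  have := KH_rec (m := 22) (by norm_num)
  rw [KHn_22] at this
  norm_num at this ⊢
  exact this

lemma KHn_25 : KH 25 = (140737488355328 / 676039) / Real.pi := by
  have := KH_rec (m := 23) (by norm_num)
  rw [KHn_23] at this
  norm_num at this
  rw [this]
  have := Real.pi_pos
  field_simp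
  try norm_num

lemma KHn_26 : KH 26 = 135207800 := by
  have := KH_rec (m := 24) (by norm_num)
  rw [KHn_24] at this
  norm_num at this ⊢
  exact this

lemma KHn_27 : KH 27 = (1125899906842624 / 1300075) / Real.pi := by
  have := KH_rec (m := 25) (by norm_num)
  rw [KHn_25] at this
  norm_num at this
  rw [this]
  have := Real.pi_pos
  field_simp
  try norm_num

lemma KHn_28 : KH 28 = 561632400 := by
  have := KH_rec (m := 26) (by norm_num)
  rw [KHn_26] at this
  norm_num at this ⊢
  exact this

lemma KHn_29 : KH 29 = (18014398509481984 / 5014575) / Real.pi := by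
  have := KH_rec (m := 27) (by norm_num)
  rw [KHn_27] at this
  norm_num at this
  rw [this]
  have := Real.pi_pos
  field_simp
  try norm_num

lemma eR_7 : evenRatio 7 = 15015 * Real.pi / 32768 := by
  rw [show (7 : ℕ) = 5 + 2 by norm_num, evenRatio_rec, evenRatio_five]
  norm_num
  ring

lemma eR_8 : evenRatio 8 = 1287 / 896 := by
  rw [show (8 : ℕ) = 6 + 2 by norm_num, evenRatio_rec, evenRatio_six]
  norm_num

lemma eR_9 : evenRatio 9 = 3828825 * Real.pi / 8388608 := by
  rw [show (9 : ℕ) = 7 + 2 by norm_num, evenRatio_rec, eR_7]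
  norm_num
  ring

lemma eR_10 : evenRatio 10 = 46189 / 32256 := by
  rw [show (10 : ℕ) = 8 + 2 by norm_num, evenRatio_rec, eR_8]
  norm_num

lemma eR_11 : evenRatio 11 = 61108047 * Real.pi / 134217728 := by
  rw [show (11 : ℕ) = 9 + 2 by norm_num, evenRatio_rec, eR_9]
  norm_num
  ring

lemma eR_12 : evenRatio 12 = 96577 / 67584 := by
  rw [show (12 : ℕ) = 10 + 2 by norm_num, evenRatio_rec, eR_10]
  norm_num

lemma eR_13 : evenRatio 13 = 3904125225 * Real.pi / 8589934592 := by
  rw [show (13 : ℕ) = 11 + 2 by norm_num, evenRatio_rec, eR_11]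
  norm_num
  ring

lemma eR_14 : evenRatio 14 = 1671525 / 1171456 := by
  rw [show (14 : ℕ) = 12 + 2 by norm_num, evenRatio_rec, eR_12]
  norm_num

end Vale.Agent.P224.PO
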