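import Vale.Agent.P224.PO.RowsO
import Vale.Agent.P224.POS.LvM

/-!
The value of the rows of a certificate with powers of the chordal distance.
-/

namespace Vale.Agent.P224.PO

open Vale.Agent.P224.UE Vale.Agent.P224.POS

noncomputable section

/-- `m + 1` times the value of a term, in the variables `u`, `r` -/
def tvO (m : Nat) (T : HTerm) : PE :=
  Bool.rec (motive := fun _ => PE)
    (PE.mul (Bool.rec (motive := fun _ => PE) (PE.c (-1)) (PE.c 1) (decide (T.fam = 0)))
      (PE.mul (PE.pow (PE.v 0) T.l) (RM.momP m T.kn T.kx)))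
    (PE.c 0) (T.sub m)

lemma ev_tvO (f : ℕ → ℝ) (m : ℕ) (T : HTerm) :
    PE.ev f (tvO m T) = (m + 1) * T.V m (f 0) (f 1) := by
  unfold tvO HTerm.V
  cases h : T.sub m with
  | true => simp
  | false =>
    simp only [Bool.false_eq_true, if_false]
    by_cases hf : T.fam = 0
    · simp only [hf, decide_true, if_true]
      rw [PE.ev_mul, PE.ev_mul, PE.ev_pow, PE.ev_c, PE.ev_v, RM.ev_momP]
      push_cast
      ring
    · simp only [hf, decide_false, if_false]
      rw [PE.ev_mul, PE.ev_mul, PE.ev_pow, PE.ev_c, PE.ev_v, RM.ev_momP]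
      push_cast
      ring

/-- `m + 1` times the value of the list -/
def lvO (m : Nat) (l : List (Int × HTerm)) : PE :=
  List.rec (motive := fun _ => PE) (PE.c 0)
    (fun cT _ ih => PE.add (PE.mul (PE.c cT.1) (tvO m cT.2)) ih) l

lemma ev_lvO (f : ℕ → ℝ) (m : ℕ) {D : Int} (hD : D ≠ 0) (l : List (Int × HTerm)) :
    PE.ev f (lvO m l) = (m + 1) * D * hval m (rlH D l) (f 0) (f 1) := by
  have hD' : (D : ℝ) ≠ 0 := by exact_mod_cast hD
  induction l with
  | nil => simp [lvO, hval, rlH]
  | cons cT l ih =>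
    have e1 : lvO m (cT :: l) = PE.add (PE.mul (PE.c cT.1) (tvO m cT.2)) (lvO m l) := rfl
    rw [e1, PE.ev_add, PE.ev_mul, PE.ev_c, ev_tvO, ih]
    simp only [hval, rlH, List.map_cons, List.sum_cons]
    field_simp

/-- The value of a list in closed form, verified by the kernel. -/
theorem hval_eq {m : ℕ} {D : Int} (hD : D ≠ 0) {l : List (Int × HTerm)} {q : PE}
    (h : chk [] (PE.sub (lvO m l) q) = true) (u r : ℝ) :
    hval m (rlH D l) u r
      = PE.ev (fun i => ([u, r] : List ℝ).getD i 0) q / ((m + 1) * D) := by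
  have hD' : (D : ℝ) ≠ 0 := by exact_mod_cast hD
  have hm : (m : ℝ) + 1 ≠ 0 := by positivity
  have h1 := ev_eq_of_chk h (fun i => ([u, r] : List ℝ).getD i 0) (fun i hi =>
    List.getD_eq_default _ _ (by simp at hi ⊢; omega))
  rw [← h1, ev_lvO _ m hD]
  have e0 : ([u, r] : List ℝ).getD 0 0 = u := rfl
  have e1 : ([u, r] : List ℝ).getD 1 0 = r := rfl
  rw [e0, e1]
  field_simp

end

end Vale.Agent.P224.PO
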