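import Vale.Agent.P224.PO.LawR
import Vale.Agent.P224.SO.R3b

/-!
Dimension three: the final assembly of a certificate with the resource `∬ s c ≤ 3 / 16`.
-/

namespace Vale.Agent.P224.PO

open MeasureTheory Set Filter Function Module Vale.Agent.P224 Vale.Agent.P224.UE
open scoped Topology RealInnerProductSpace ENNReal ContDiff Manifold

set_option linter.unusedSectionVars false

section

variable {V W M : Type*} [NormedAddCommGroup V] [InnerProductSpace ℝ V] [FiniteDimensional ℝ V]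
  [NormedAddCommGroup W] [InnerProductSpace ℝ W] [FiniteDimensional ℝ W]
  [TopologicalSpace M] [ChartedSpace V M]
  [MeasurableSpace V] [BorelSpace V] [MeasurableSpace M] [BorelSpace M]
  [IsManifold 𝓘(ℝ, V) ∞ M] [CompactSpace M] [T2Space M] [ConnectedSpace M]
  [MeasurableSpace W] [BorelSpace W]

/-- Dimension three: the volume bound from a direct certificate with the resource. -/
theorem main3_of_certR (hV : finrank ℝ V = 3) (hW : finrank ℝ W = finrank ℝ V + 2)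
    {F : M → W} (hF : SphImm V F) (hmin : ∀ x n, IsUnitNormal V F x n → meanCurv V F x n = 0)
    (hng : ¬ ∃ a : W, a ≠ 0 ∧ ∀ x, ⟪F x, a⟫ = 0)
    {ρ : ℝ} (hρ : 0 ≤ ρ) {C : ℝ} (hC2 : C ≤ 2)
    {b0 b1 b2 b3 b4 b5 b6 b7 b8 : ℝ} {l : List (ℝ × HTerm)}
    (hl : ∀ cT ∈ l, cT.2.ok 3 = true)
    (hpos : ∀ e x N y w : W, ‖e‖ ^ 2 ≤ 25 / 36 → ‖x‖ = 1 → ‖N‖ = 1 → ‖y‖ = 1 → ‖w‖ = 1 →
      ⟪x, N⟫ = 0 → ⟪y, w⟫ = 0 → ⟪x, y⟫ < 1 → 0 ≤ W9 b0 b1 b2 b3 b4 b5 b6 b7 b8 (dv x N y w e)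
        + hsum 3 l (dv x N y w e) - ρ * RF (3 / 16) 0 0 (dv x N y w e))
    (hneg : ∀ Θ u r : ℝ, 6 / 5 ≤ Θ → Θ < C → 0 ≤ u → Θ ^ 2 * u ≤ 1 → u ^ 2 ≤ r → r ≤ u →
      Θ * (b0 + (b1 + b2 + b3) * u + (b4 + b7) * r + (b5 + b6) * u ^ 2
        + b8 * ((u - r) / ((3 : ℕ) + 1))) + KH 3 * hval 3 l u r < 0) :
    ENNReal.ofReal (C * sphereVol 3) ≤ volM V F univ := by
  have hfin : IsFiniteMeasure (volM V F) := isFiniteMeasure_volM hF
  have hne : Nonempty M := inferInstance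
  exact main_o_of_certR (by norm_num) hV hW hF hmin hng (continuous_RF _ _ _) hρ
    (fun N h hor e => SO.r3G (by omega) h (sp_of_hng hng) hor) hC2 hl hpos hneg

end

end Vale.Agent.P224.PO
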