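import Vale.Agent.P224.UG.Ratio

/-!
The fraction of the least Clifford volume given by the universal bound in large dimensions.
-/

namespace Vale.Agent.P224.PO

open Vale.Agent.P224 Vale.Agent.P224.UG

lemma leastClifford_nonneg' (m : ℕ) : 0 ≤ leastClifford m := by
  unfold leastClifford
  exact Real.sInf_nonneg (fun x hx => by
    obtain ⟨k, -, rfl⟩ := hx
    exact cliffordVol_nonneg' m k)

/-- the least Clifford volume, even dimensions, by the sharp estimate of the even ratio -/
lemma least_even {k n : ℕ} (hn : 1 ≤ n) (hk : n ≤ k) {E B : ℝ} (hE : 0 < E)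
    (h : 1 ≤ E * (1 - 1 / (8 * (n : ℝ)) / 4) ^ 4) (hB : 1.414214 * E ≤ B) :
    leastClifford (2 * k) ≤ B * sphereVol (2 * k) := by
  have hs2 : Real.sqrt 2 ≤ 1.414214 := by
    rw [Real.sqrt_le_left (by norm_num)]
    norm_num
  refine even_bound (by omega) ((evenRatio_le (by omega)).trans ?_)
  have hn' : (1 : ℝ) ≤ n := by exact_mod_cast hn
  have hk' : (n : ℝ) ≤ k := by exact_mod_cast hk
  have h1 : 1 / (8 * (k : ℝ)) ≤ 1 / (8 * n) := by
    apply one_div_le_one_div_of_le (by positivity)
    gcongr
  have h2 : 1 / (8 * (n : ℝ)) ≤ 1 / 8 := by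
    apply one_div_le_one_div_of_le (by norm_num)
    linarith
  have h3 : Real.exp (1 / (8 * k)) ≤ E := by
    refine (Real.exp_le_exp.2 h1).trans ?_
    refine exp_le_of 4 (by positivity) ?_ (by norm_num) ?_ hE
    · push_cast
      linarith
    · push_cast
      exact h
  exact (mul_le_mul hs2 h3 (Real.exp_pos _).le (by norm_num)).trans hB

/-- dimensions at least twenty-eight (`a_28 / |S^28| = 1.426878..`) -/
theorem leastClifford_le_28 {m : ℕ} (hm : 28 ≤ m) :
    leastClifford m ≤ 1.42695 * sphereVol m := by
  rcases Nat.even_or_odd' m with ⟨k, hk | hk⟩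
  · subst hk
    exact least_even (n := 14) (by norm_num) (by omega) (E := 1.009) (by norm_num)
      (by norm_num) (by norm_num)
  · subst hk
    exact leastClifford_le_num (by omega) 29 (by norm_num) (by omega) (E := 1.009) (by norm_num)
      (by norm_num) (by norm_num)

/-- dimensions at least twenty-seven (`a_27 / |S^27| = 1.427371..`) -/
theorem leastClifford_le_27 {m : ℕ} (hm : 27 ≤ m) :
    leastClifford m ≤ 1.42738 * sphereVol m := by
  rcases Nat.lt_or_ge m 28 with h | h
  · have : m = 2 * 13 + 1 := by omega
    subst this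
    refine odd_bound (by norm_num) ?_
    have h4 := oddRatio_pow_four 13
    refine le_of_pow_le_pow_left₀ (n := 4) (by norm_num) (by norm_num) ?_
    rw [h4]
    norm_num
  · have h1 := leastClifford_le_28 h
    have h2 := sphereVol_pos' m
    nlinarith

/-- dimensions at least twenty-six (`a_26 / |S^26| = 1.427854..`) -/
theorem leastClifford_le_26 {m : ℕ} (hm : 26 ≤ m) :
    leastClifford m ≤ 1.42792 * sphereVol m := by
  rcases Nat.even_or_odd' m with ⟨k, hk | hk⟩
  · subst hk
    exact least_even (n := 13) (by norm_num) (by omega) (E := 1.00969) (by norm_num)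
      (by norm_num) (by norm_num)
  · subst hk
    exact leastClifford_le_num (by omega) 27 (by norm_num) (by omega) (E := 1.00969) (by norm_num)
      (by norm_num) (by norm_num)

/-- `C = 1.413`, every dimension at least twenty-eight: `.99` of the least Clifford volume -/
theorem frac1413_28 {m : ℕ} (hm : 28 ≤ m) {v : ℝ} (hv : 1.413 * sphereVol m ≤ v) :
    0.99 * leastClifford m ≤ v :=
  frac_of (leastClifford_le_28 hm) hv (by norm_num) (by norm_num)

/-- `C = 23153 / 16384`, every dimension at least twenty-seven: `.99` of the least Clifford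
volume -/
theorem frac_27 {m : ℕ} (hm : 27 ≤ m) {v : ℝ} (hv : 23153 / 16384 * sphereVol m ≤ v) :
    0.99 * leastClifford m ≤ v :=
  frac_of (leastClifford_le_27 hm) hv (by norm_num) (by norm_num)

/-- `C = 1.413`, every dimension at least twenty-six: `.9895` of the least Clifford volume -/
theorem frac1413_26 {m : ℕ} (hm : 26 ≤ m) {v : ℝ} (hv : 1.413 * sphereVol m ≤ v) :
    0.9895 * leastClifford m ≤ v :=
  frac_of (leastClifford_le_26 hm) hv (by norm_num) (by norm_num)

end Vale.Agent.P224.PO
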