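import Vale.Agent.P224.PO.C11.Main
import Vale.Agent.P224.PO.C13.Main
import Vale.Agent.P224.PO.C15.Main
import Vale.Agent.P224.PO.C17.Main
import Vale.Agent.P224.PO.C18.Main
import Vale.Agent.P224.PO.C19.Main
import Vale.Agent.P224.PO.C20.Main
import Vale.Agent.P224.PO.C21.Main
import Vale.Agent.P224.PO.C22.Main
import Vale.Agent.P224.PO.C23.Main
import Vale.Agent.P224.PO.C24.Main
import Vale.Agent.P224.PO.C25.Main
import Vale.Agent.P224.PO.C26.Main
import Vale.Agent.P224.PO.C5.Main
import Vale.Agent.P224.PO.C7.Main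
import Vale.Agent.P224.PO.C9.Main
import Vale.Agent.P224.PO.M2.Main
import Vale.Agent.P224.PO.R3.Main
import Vale.Agent.P224.PO.Uni
import Vale.Agent.P224.POS.MainE2
import Vale.Agent.P224.PU.U1413.MainU

/-!
Ninety-nine percent of the least Clifford volume, in every dimension.
-/

namespace Vale.Agent.P224.PO

open MeasureTheory Set Filter Function Module Vale.Agent.P224
open scoped Topology RealInnerProductSpace ENNReal ContDiff Manifold

lemma up99 {q : ℝ} {m : ℕ} {v : ENNReal} (hq : 99 / 100 ≤ q)
    (h : ENNReal.ofReal (q * leastClifford m) ≤ v) :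
    ENNReal.ofReal (99 / 100 * leastClifford m) ≤ v := by
  refine le_trans (ENNReal.ofReal_le_ofReal ?_) h
  exact mul_le_mul_of_nonneg_right hq (leastClifford_nonneg' m)

section

variable {V W M : Type*} [NormedAddCommGroup V] [InnerProductSpace ℝ V] [FiniteDimensional ℝ V]
  [NormedAddCommGroup W] [InnerProductSpace ℝ W] [FiniteDimensional ℝ W]
  [TopologicalSpace M] [ChartedSpace V M]
  [MeasurableSpace V] [BorelSpace V] [MeasurableSpace M] [BorelSpace M]
  [IsManifold 𝓘(ℝ, V) ∞ M] [CompactSpace M] [T2Space M] [ConnectedSpace M]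
  [MeasurableSpace W] [BorelSpace W]

/-- dimensions at least twenty-seven -/
theorem main99_27 (hm : 27 ≤ finrank ℝ V) (hW : finrank ℝ W = finrank ℝ V + 2)
    {F : M → W} (hF : SphImm V F) (hmin : ∀ x n, IsUnitNormal V F x n → meanCurv V F x n = 0)
    (hng : ¬ ∃ a : W, a ≠ 0 ∧ ∀ x, ⟪F x, a⟫ = 0) :
    ENNReal.ofReal (99 / 100 * leastClifford (finrank ℝ V)) ≤ volM V F univ := by
  refine le_trans (ENNReal.ofReal_le_ofReal ?_) (PU.U1413.mainU (by omega) hW hF hmin hng)
  have h := frac_27 (m := finrank ℝ V) hm (le_refl (23153 / 16384 * sphereVol (finrank ℝ V)))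
  norm_num at h ⊢
  linarith

/-- **Ninety-nine percent of the least Clifford volume in every dimension.** -/
theorem main99 (hm : 2 ≤ finrank ℝ V) (hW : finrank ℝ W = finrank ℝ V + 2)
    {F : M → W} (hF : SphImm V F) (hmin : ∀ x n, IsUnitNormal V F x n → meanCurv V F x n = 0)
    (hng : ¬ ∃ a : W, a ≠ 0 ∧ ∀ x, ⟪F x, a⟫ = 0) :
    ENNReal.ofReal (99 / 100 * leastClifford (finrank ℝ V)) ≤ volM V F univ := by
  rcases Nat.lt_or_ge (finrank ℝ V) 27 with h27 | h27
  · have hev : ∀ k, finrank ℝ V = 2 * k → 4 ≤ finrank ℝ V → finrank ℝ V ≤ 16 →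
        ENNReal.ofReal (99 / 100 * leastClifford (finrank ℝ V)) ≤ volM V F univ := by
      intro k hk h4 h16
      have h := POS.mainE16 ⟨k, by omega⟩ h4 h16 hW hF hmin hng
      exact up99 (q := 1) (by norm_num) (by rw [one_mul]; exact h)
    obtain ⟨d, hd⟩ : ∃ d, d = finrank ℝ V := ⟨_, rfl⟩
    have hd2 : 2 ≤ d := by omega
    have hd27 : d < 27 := by omega
    interval_cases d
    · rw [← hd]
      exact M2.main hd.symm hW hF hmin hng
    · rw [← hd]
      exact up99 (by norm_num) (R3.main hd.symm hW hF hmin hng)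
    · exact hev 2 (by omega) (by omega) (by omega)
    · rw [← hd]
      exact up99 (by norm_num) (C5.main hd.symm hW hF hmin hng)
    · exact hev 3 (by omega) (by omega) (by omega)
    · rw [← hd]
      exact up99 (by norm_num) (C7.main hd.symm hW hF hmin hng)
    · exact hev 4 (by omega) (by omega) (by omega)
    · rw [← hd]
      exact up99 (by norm_num) (C9.main hd.symm hW hF hmin hng)
    · exact hev 5 (by omega) (by omega) (by omega)
    · rw [← hd]
      exact up99 (by norm_num) (C11.main hd.symm hW hF hmin hng)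
    · exact hev 6 (by omega) (by omega) (by omega)
    · rw [← hd]
      exact C13.main hd.symm hW hF hmin hng
    · exact hev 7 (by omega) (by omega) (by omega)
    · rw [← hd]
      exact C15.main hd.symm hW hF hmin hng
    · exact hev 8 (by omega) (by omega) (by omega)
    · rw [← hd]
      exact C17.main hd.symm hW hF hmin hng
    · rw [← hd]
      exact C18.main hd.symm hW hF hmin hng
    · rw [← hd]
      exact C19.main hd.symm hW hF hmin hng
    · rw [← hd]
      exact C20.main hd.symm hW hF hmin hng
    · rw [← hd]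
      exact C21.main hd.symm hW hF hmin hng
    · rw [← hd]
      exact C22.main hd.symm hW hF hmin hng
    · rw [← hd]
      exact C23.main hd.symm hW hF hmin hng
    · rw [← hd]
      exact C24.main hd.symm hW hF hmin hng
    · rw [← hd]
      exact C25.main hd.symm hW hF hmin hng
    · rw [← hd]
      exact C26.main hd.symm hW hF hmin hng
  · exact main99_27 h27 hW hF hmin hng

end

end Vale.Agent.P224.PO
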