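import Vale.Agent.P224.PO.SubO
import Vale.Agent.P224.POS.PsdF

/-!
A faster kernel check of the identity `P = k * ∑ multiplier * block`: the blocks are given by their
packed rows (base `BG`, offset `BG / 2`), the elements are (vector, outer variable, monomial in the
variables that are replaced by numbers). The row sums are computed with natural numbers, and the
bounds of the coefficients are taken from `|G i j| ≤ BG`.

* `chkX Ms Q k tab L : Bool`, by `decide +kernel`;
* `nonneg_of_chkX` : the conclusion of `nonneg_of_chkH`.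
-/

namespace Vale.Agent.P224.PO

open Vale.Agent.P224.UE Vale.Agent.P224.POS
open scoped RealInnerProductSpace

noncomputable section

/-- a block: elements, base and packed rows of the lower triangle -/
structure BlkX where
  /-- the elements -/
  els : List (Nat × Nat × PE)
  /-- the base -/
  BG : Nat
  /-- the packed rows -/
  N : List Nat

/-- the block with explicit rows -/
def BlkX.toG (B : BlkX) : BlkG := ⟨B.els, rowsZ B.BG B.N 0⟩

/-! ### Values of the elements -/

/-- only the first `m` variables, natural coefficients, no subtraction -/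
def pos1 (m : Nat) (e : PE) : Bool :=
  PE.rec (motive := fun _ => Bool)
    (fun n => Int.rec (motive := fun _ => Bool) (fun _ => true) (fun _ => false) n)
    (fun i => Nat.ble (Nat.succ i) m)
    (fun _ _ x y => Bool.rec (motive := fun _ => Bool) false y x) (fun _ _ _ _ => false)
    (fun _ _ x y => Bool.rec (motive := fun _ => Bool) false y x) (fun _ _ x => x) e

lemma band_eq {x y : Bool} (h : Bool.rec (motive := fun _ => Bool) false y x = true) :
    x = true ∧ y = true := by
  cases x with
  | false => exact absurd h (by simp)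
  | true => exact ⟨rfl, h⟩

lemma ev_pos1 {R : Type*} [CommRing R] (f : ℕ → R) (g : ℕ → ℕ) (m : ℕ)
    (hfg : ∀ i < m, f i = (g i : R)) (e : PE) (h : pos1 m e = true) :
    PE.ev f e = (PE.abN g e : R) := by
  induction e with
  | c n =>
    cases n with
    | ofNat n =>
      have e1 : PE.abN g (PE.c (Int.ofNat n)) = n := rfl
      rw [e1, PE.ev_c]
      simp
    | negSucc n => exact absurd h (by simp [pos1])
  | v i =>
    have h1 : Nat.ble (i + 1) m = true := h
    have h2 := Nat.le_of_ble_eq_true h1
    exact hfg i (by omega)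
  | add a b ha hb =>
    have h1 : Bool.rec (motive := fun _ => Bool) false (pos1 m b) (pos1 m a) = true := h
    obtain ⟨h2, h3⟩ := band_eq h1
    have e1 : PE.abN g (a.add b) = PE.abN g a + PE.abN g b := rfl
    rw [PE.ev_add, ha h2, hb h3, e1]
    push_cast
    ring
  | sub a b ha hb => exact absurd h (by simp [pos1])
  | mul a b ha hb =>
    have h1 : Bool.rec (motive := fun _ => Bool) false (pos1 m b) (pos1 m a) = true := h
    obtain ⟨h2, h3⟩ := band_eq h1
    have e1 : PE.abN g (a.mul b) = PE.abN g a * PE.abN g b := rfl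
    rw [PE.ev_mul, ha h2, hb h3, e1]
    push_cast
    ring
  | pow a n ha =>
    have e1 : PE.abN g (a.pow n) = PE.abN g a ^ n := rfl
    rw [PE.ev_pow, ha h, e1]
    push_cast
    ring

/-! ### The fast value of a block -/

section defs

variable (ev' : Nat → HP) (g : Nat → Nat) (tab : List (List PE)) (BG : Nat)

/-- a finished group -/
def flX (k l o acc accE : Nat) : HP :=
  HP.smul 1 (Int.sub (Int.ofNat acc) (Int.ofNat (Nat.mul (Nat.div BG 2) accE)))
    (HP.mul (PE.hp ev' (ov o)) (PE.hp ev' (grT tab k l)))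

/-- one row -/
def rowX (k : Nat) (els : List (Nat × Nat × PE)) (n gx l o acc accE : Nat) : HP :=
  List.rec (motive := fun _ => Nat → Nat → Nat → Nat → Nat → Nat → HP)
    (fun _ _ l o acc accE => flX ev' tab BG k l o acc accE)
    (fun e _ ih n gx l o acc accE => Nat.rec (motive := fun _ => HP)
      (flX ev' tab BG k l o acc accE)
      (fun n' _ => Bool.rec (motive := fun _ => HP)
        (HP.add (flX ev' tab BG k l o acc accE)
          (ih n' (Nat.div gx BG) e.1 e.2.1 (Nat.mul (Nat.mod gx BG) (PE.abN g e.2.2))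
            (PE.abN g e.2.2)))
        (Bool.rec (motive := fun _ => HP)
          (HP.add (flX ev' tab BG k l o acc accE)
            (ih n' (Nat.div gx BG) e.1 e.2.1 (Nat.mul (Nat.mod gx BG) (PE.abN g e.2.2))
              (PE.abN g e.2.2)))
          (ih n' (Nat.div gx BG) l o (Nat.add acc (Nat.mul (Nat.mod gx BG) (PE.abN g e.2.2)))
            (Nat.add accE (PE.abN g e.2.2)))
          (Nat.beq e.2.1 o))
        (Nat.beq e.1 l)) n)
    els n gx l o acc accE

/-- the entry number `i` of a row -/
def dgX (gx i : Nat) : Int :=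
  Int.sub (Int.ofNat (Nat.mod (Nat.div gx (Nat.pow BG i)) BG)) (Int.ofNat (Nat.div BG 2))

/-- the terms of one element -/
def trmX (all : List (Nat × Nat × PE)) (e : Nat × Nat × PE) (gx i : Nat) : HP :=
  HP.smul 1 (Int.ofNat (PE.abN g e.2.2)) (HP.mul (PE.hp ev' (ov e.2.1))
    (HP.sub (HP.smul 1 2 (rowX ev' g tab BG e.1 all (Nat.succ i) gx 0 0 0 0))
      (HP.smul 1 (Int.mul (dgX BG gx i) (Int.ofNat (PE.abN g e.2.2)))
        (HP.mul (PE.hp ev' (ov e.2.1)) (PE.hp ev' (grT tab e.1 e.1))))))

/-- the sum over the rows -/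
def blkX (all : List (Nat × Nat × PE)) (N : List Nat) (els : List (Nat × Nat × PE)) (i : Nat) :
    HP :=
  List.rec (motive := fun _ => List (Nat × Nat × PE) → Nat → HP) (fun _ _ => HP.nil)
    (fun gx _ ih els i => List.rec (motive := fun _ => HP) HP.nil
      (fun e es _ => HP.add (trmX ev' g tab BG all e gx i) (ih es (Nat.succ i))) els) N els i

end defs

section vals

variable {R : Type*} [CommRing R] (mo : ℕ → R) (hmo : ∀ k l, mo (k * l) = mo k * mo l)
  (h1 : mo 1 = 1) (ev' : ℕ → HP) (g : ℕ → ℕ) (m : ℕ) (hfg : ∀ i < m, HP.val mo (ev' i) = (g i : R))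
  (tab : List (List PE)) (BG : ℕ)

include hmo h1 in
lemma val_flX (k l o acc accE : ℕ) : HP.val mo (flX ev' tab BG k l o acc accE)
    = ((acc : R) - ((BG / 2 : ℕ) : R) * accE) * (PE.ev (fun i => HP.val mo (ev' i)) (ov o)
      * PE.ev (fun i => HP.val mo (ev' i)) (grT tab k l)) := by
  unfold flX
  rw [HP.val_smul mo hmo, HP.val_mul mo hmo, PE.val_hp mo hmo h1, PE.val_hp mo hmo h1, h1]
  have e1 : ((Int.sub (Int.ofNat acc) (Int.ofNat (Nat.mul (Nat.div BG 2) accE)) : ℤ) : R)
      = (acc : R) - ((BG / 2 : ℕ) : R) * accE := by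
    have e2 : Int.sub (Int.ofNat acc) (Int.ofNat (Nat.mul (Nat.div BG 2) accE))
        = (acc : ℤ) - ((BG / 2 * accE : ℕ) : ℤ) := rfl
    rw [e2, Int.cast_sub, Int.cast_natCast, Int.cast_natCast, Nat.cast_mul]
  rw [e1]
  ring

/-- the entry of a row in the ring -/
def dzX (gx j : ℕ) : R := ((gx / BG ^ j % BG : ℕ) : R) - ((BG / 2 : ℕ) : R)

include hmo h1 hfg in
lemma val_rowX (k : ℕ) (els : List (Nat × Nat × PE)) (hp : ∀ e ∈ els, pos1 m e.2.2 = true)
    (n gx l o acc accE : ℕ) (hn : n ≤ els.length) :
    HP.val mo (rowX ev' g tab BG k els n gx l o acc accE)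
      = ((acc : R) - ((BG / 2 : ℕ) : R) * accE) * (PE.ev (fun i => HP.val mo (ev' i)) (ov o)
          * PE.ev (fun i => HP.val mo (ev' i)) (grT tab k l))
        + ∑ j ∈ Finset.range n, dzX BG gx j * (PE.ev (fun i => HP.val mo (ev' i)) (egp els j)
          * PE.ev (fun i => HP.val mo (ev' i)) (grT tab k (egk els j))) := by
  induction els generalizing n gx l o acc accE with
  | nil =>
    have hn0 : n = 0 := by simpa using hn
    subst hn0
    have e1 : rowX ev' g tab BG k [] 0 gx l o acc accE = flX ev' tab BG k l o acc accE := rfl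
    rw [e1, val_flX mo hmo h1]
    simp
  | cons e es ih =>
    cases n with
    | zero =>
      have e1 : rowX ev' g tab BG k (e :: es) 0 gx l o acc accE
        = flX ev' tab BG k l o acc accE := rfl
      rw [e1, val_flX mo hmo h1]
      simp
    | succ n =>
      have hE : PE.ev (fun i => HP.val mo (ev' i)) e.2.2 = (PE.abN g e.2.2 : R) :=
        ev_pos1 _ g m hfg e.2.2 (hp e (by simp))
      have hp' : ∀ e' ∈ es, pos1 m e'.2.2 = true := fun e' he' => hp e' (by simp [he'])
      have hn' : n ≤ es.length := by simpa using hn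
      rw [Finset.sum_range_succ']
      have e0 : dzX (R := R) BG gx 0 = ((gx % BG : ℕ) : R) - ((BG / 2 : ℕ) : R) := by
        simp [dzX]
      have es' : ∀ j, dzX (R := R) BG (gx / BG) j = dzX BG gx (j + 1) := by
        intro j
        unfold dzX
        rw [Nat.div_div_eq_div_mul, pow_succ, mul_comm BG]
      simp only [egk_cons_succ, egp_cons_succ, egk_cons_zero, egp_cons_zero, PE.ev_mul, hE, e0]
      have e1 : rowX ev' g tab BG k (e :: es) (n + 1) gx l o acc accE
        = Bool.rec (motive := fun _ => HP)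
        (HP.add (flX ev' tab BG k l o acc accE)
          (rowX ev' g tab BG k es n (gx / BG) e.1 e.2.1 (gx % BG * PE.abN g e.2.2)
            (PE.abN g e.2.2)))
        (Bool.rec (motive := fun _ => HP)
          (HP.add (flX ev' tab BG k l o acc accE)
            (rowX ev' g tab BG k es n (gx / BG) e.1 e.2.1 (gx % BG * PE.abN g e.2.2)
              (PE.abN g e.2.2)))
          (rowX ev' g tab BG k es n (gx / BG) l o (acc + gx % BG * PE.abN g e.2.2)
            (accE + PE.abN g e.2.2))
          (Nat.beq e.2.1 o))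
        (Nat.beq e.1 l) := rfl
      have key : HP.val mo (HP.add (flX ev' tab BG k l o acc accE)
          (rowX ev' g tab BG k es n (gx / BG) e.1 e.2.1 (gx % BG * PE.abN g e.2.2)
            (PE.abN g e.2.2)))
          = ((acc : R) - ((BG / 2 : ℕ) : R) * accE) * (PE.ev (fun i => HP.val mo (ev' i)) (ov o)
          * PE.ev (fun i => HP.val mo (ev' i)) (grT tab k l))
        + (∑ j ∈ Finset.range n, dzX BG gx (j + 1)
            * (PE.ev (fun i => HP.val mo (ev' i)) (egp es j)
          * PE.ev (fun i => HP.val mo (ev' i)) (grT tab k (egk es j)))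
          + (((gx % BG : ℕ) : R) - ((BG / 2 : ℕ) : R))
            * (PE.ev (fun i => HP.val mo (ev' i)) (ov e.2.1) * (PE.abN g e.2.2 : R)
              * PE.ev (fun i => HP.val mo (ev' i)) (grT tab k e.1))) := by
        rw [HP.val_add, val_flX mo hmo h1, ih hp' n _ _ _ _ _ hn']
        simp only [es']
        push_cast
        ring
      rw [e1]
      cases h2 : Nat.beq e.1 l with
      | false => exact key
      | true =>
        cases h3 : Nat.beq e.2.1 o with
        | false => exact key
        | true =>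
          have hl := Nat.eq_of_beq_eq_true h2
          have ho := Nat.eq_of_beq_eq_true h3
          change HP.val mo (rowX ev' g tab BG k es n (gx / BG) l o
            (acc + gx % BG * PE.abN g e.2.2) (accE + PE.abN g e.2.2)) = _
          rw [ih hp' n _ _ _ _ _ hn', hl, ho]
          simp only [es']
          push_cast
          ring

lemma dgX_eq (gx i : ℕ) : ((dgX BG gx i : ℤ) : R) = dzX BG gx i := by
  have e1 : dgX BG gx i = ((gx / BG ^ i % BG : ℕ) : ℤ) - ((BG / 2 : ℕ) : ℤ) := rfl
  rw [e1, dzX, Int.cast_sub, Int.cast_natCast, Int.cast_natCast]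

include hmo h1 hfg in
lemma val_trmX (all : List (Nat × Nat × PE)) (hp : ∀ e ∈ all, pos1 m e.2.2 = true)
    (e : Nat × Nat × PE) (he : pos1 m e.2.2 = true) (gx i : ℕ) (hi : i < all.length) :
    HP.val mo (trmX ev' g tab BG all e gx i)
      = PE.ev (fun i => HP.val mo (ev' i)) (PE.mul (ov e.2.1) e.2.2)
        * (2 * ∑ j ∈ Finset.range (i + 1), dzX BG gx j
            * (PE.ev (fun i => HP.val mo (ev' i)) (egp all j)
              * PE.ev (fun i => HP.val mo (ev' i)) (grT tab e.1 (egk all j)))
          - dzX BG gx i * (PE.ev (fun i => HP.val mo (ev' i)) (PE.mul (ov e.2.1) e.2.2)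
              * PE.ev (fun i => HP.val mo (ev' i)) (grT tab e.1 e.1))) := by
  have hE : PE.ev (fun i => HP.val mo (ev' i)) e.2.2 = (PE.abN g e.2.2 : R) :=
    ev_pos1 _ g m hfg e.2.2 he
  unfold trmX
  rw [HP.val_smul mo hmo, HP.val_mul mo hmo, HP.val_sub mo hmo h1, HP.val_smul mo hmo,
    HP.val_smul mo hmo, HP.val_mul mo hmo, PE.val_hp mo hmo h1, PE.val_hp mo hmo h1, h1,
    val_rowX mo hmo h1 ev' g m hfg tab BG e.1 all hp (Nat.succ i) gx 0 0 0 0 (by omega)]
  have e1 : ((Int.mul (dgX BG gx i) (Int.ofNat (PE.abN g e.2.2)) : ℤ) : R)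
      = dzX BG gx i * (PE.abN g e.2.2 : R) := by
    have e2 : Int.mul (dgX BG gx i) (Int.ofNat (PE.abN g e.2.2))
      = dgX BG gx i * (PE.abN g e.2.2 : ℤ) := rfl
    rw [e2]
    push_cast
    rw [dgX_eq]
  have e2 : ((Int.ofNat (PE.abN g e.2.2) : ℤ) : R) = (PE.abN g e.2.2 : R) := by simp
  rw [e1, e2, PE.ev_mul, hE]
  push_cast
  ring

/-- the value of the terms of one element -/
def tvX (f : ℕ → R) (all : List (Nat × Nat × PE)) (e : Nat × Nat × PE) (gx i : ℕ) : R :=
  PE.ev f (PE.mul (ov e.2.1) e.2.2)
    * (2 * ∑ j ∈ Finset.range (i + 1), dzX BG gx j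
        * (PE.ev f (egp all j) * PE.ev f (grT tab e.1 (egk all j)))
      - dzX BG gx i * (PE.ev f (PE.mul (ov e.2.1) e.2.2) * PE.ev f (grT tab e.1 e.1)))

include hmo h1 hfg in
lemma val_blkX (all : List (Nat × Nat × PE)) (hp : ∀ e ∈ all, pos1 m e.2.2 = true)
    (N : List ℕ) (els : List (Nat × Nat × PE)) (hels : ∀ e ∈ els, pos1 m e.2.2 = true)
    (i : ℕ) (hl : N.length ≤ els.length) (hi : i + N.length ≤ all.length) :
    HP.val mo (blkX ev' g tab BG all N els i) = ∑ i' ∈ Finset.range N.length,
      tvX tab BG (fun i => HP.val mo (ev' i)) all (els.getD i' (0, 0, PE.c 0)) (N.getD i' 0)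
        (i + i') := by
  induction N generalizing els i with
  | nil =>
    have e1 : blkX ev' g tab BG all [] els i = HP.nil := rfl
    rw [e1]
    simp
  | cons gx N ih =>
    cases els with
    | nil => simp at hl
    | cons e es =>
      have e1 : blkX ev' g tab BG all (gx :: N) (e :: es) i
        = HP.add (trmX ev' g tab BG all e gx i) (blkX ev' g tab BG all N es (i + 1)) := rfl
      have hl' : N.length ≤ es.length := by simpa using hl
      have hi' : i + 1 + N.length ≤ all.length := by
        rw [List.length_cons] at hi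
        omega
      rw [e1, HP.val_add, ih es (fun e' he' => hels e' (by simp [he'])) (i + 1) hl' hi',
        val_trmX mo hmo h1 ev' g m hfg tab BG all hp e (hels e (by simp)) gx i (by omega),
        List.length_cons, Finset.sum_range_succ' _ N.length]
      simp only [List.getD_cons_zero, List.getD_cons_succ, Nat.add_zero]
      rw [add_comm]
      congr 1
      refine Finset.sum_congr rfl fun j _ => ?_
      congr 1
      omega

end vals

/-! ### Triangular shape of the unpacked rows -/

lemma tri_rowsZ (B : ℕ) (N : List ℕ) (p : ℕ) : tri (rowsZ B N p) p = true := by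
  induction N generalizing p with
  | nil => rfl
  | cons x N ih =>
    have e1 : tri (rowsZ B (x :: N) p) p = Bool.rec (motive := fun _ => Bool) false
      (tri (rowsZ B N (p + 1)) (p + 1)) (Nat.beq (unpZ B (p + 1) x).length (p + 1)) := rfl
    rw [e1, ih, unpZ_length, Nat.beq_refl]

lemma two_sum_sub {R : Type*} [CommRing R] (i : ℕ) (x : ℕ → R) :
    2 * ∑ j ∈ Finset.range (i + 1), x j - x i
      = ∑ j ∈ Finset.range (i + 1), (if j = i then 1 else 2) * x j := by
  rw [Finset.sum_range_succ, Finset.sum_range_succ, if_pos rfl]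
  have : ∑ j ∈ Finset.range i, (if j = i then (1 : R) else 2) * x j
      = 2 * ∑ j ∈ Finset.range i, x j := by
    rw [Finset.mul_sum]
    refine Finset.sum_congr rfl fun j hj => ?_
    rw [if_neg (Finset.mem_range.1 hj).ne]
  rw [this]
  ring

lemma sum_tvX {R : Type*} [CommRing R] (f : ℕ → R) (tab : List (List PE)) (B : BlkX)
    (hsym : ∀ k l, PE.ev f (grT tab k l) = PE.ev f (grT tab l k)) :
    ∑ i ∈ Finset.range B.N.length, tvX tab B.BG f B.els (B.els.getD i (0, 0, PE.c 0))
      (B.N.getD i 0) i = PE.ev f (B.toG.pe tab) := by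
  rw [ev_blkG_eq f tab B.toG (tri_rowsZ _ _ _) hsym]
  have hlen : B.toG.G.length = B.N.length := rowsZ_length _ _ _
  have hels : B.toG.els = B.els := rfl
  rw [hlen, hels]
  have hs := sum_sym B.N.length
    (fun i j => (((B.toG.G.getD i []).getD j 0 : ℤ) : R))
    (fun i j => PE.ev f (egp B.els i) * PE.ev f (egp B.els j)
        * PE.ev f (grT tab (egk B.els i) (egk B.els j)))
    (fun i j => by rw [hsym (egk B.els i) (egk B.els j)]; ring)
  refine Eq.trans ?_ (hs.trans ?_)
  · refine Finset.sum_congr rfl fun i hi => ?_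
    have hi' := Finset.mem_range.1 hi
    have h1 : PE.ev f (egp B.els i) = PE.ev f (PE.mul (ov (B.els.getD i (0, 0, PE.c 0)).2.1)
      (B.els.getD i (0, 0, PE.c 0)).2.2) := rfl
    have h2 : egk B.els i = (B.els.getD i (0, 0, PE.c 0)).1 := rfl
    unfold tvX
    rw [← h1, ← h2]
    have h3 := two_sum_sub i (fun j => dzX (R := R) B.BG (B.N.getD i 0) j
      * (PE.ev f (egp B.els j) * PE.ev f (grT tab (egk B.els i) (egk B.els j))))
    rw [h3, Finset.mul_sum]
    refine Finset.sum_congr rfl fun j hj => ?_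
    have hj' := Finset.mem_range.1 hj
    have h4 : (((B.toG.G.getD i []).getD j 0 : ℤ) : R) = dzX B.BG (B.N.getD i 0) j := by
      have h5 : B.toG.G = rowsZ B.BG B.N 0 := rfl
      rw [h5, rowsZ_getD _ _ _ _ hi', zero_add, unpZ_getD _ _ _ _ (by omega), dzX,
        Int.cast_sub, Int.cast_natCast, Int.cast_natCast]
    rw [h4]
    ring
  · rfl

/-! ### The sum of the blocks -/

section sums

variable (ev' : Nat → HP) (g : Nat → Nat) (tab : List (List PE))

/-- the sum of the blocks -/
def sumX (L : List BlkX) : HP :=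
  List.rec (motive := fun _ => HP) HP.nil
    (fun B _ ih => HP.add (blkX ev' g tab B.BG B.els B.N B.els 0) ih) L

/-- the right side -/
def rhsX (L : List (PE × List BlkX)) : HP :=
  List.rec (motive := fun _ => HP) HP.nil
    (fun x _ ih => HP.add (HP.mul (PE.hp ev' x.1) (sumX ev' g tab x.2)) ih) L

/-- the same with explicit rows -/
def toGs (L : List (PE × List BlkX)) : List (PE × List BlkG) :=
  L.map fun x => (x.1, x.2.map BlkX.toG)

/-- all elements are positive monomials -/
def elsOk (m : Nat) (els : List (Nat × Nat × PE)) : Bool :=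
  List.rec (motive := fun _ => Bool) true
    (fun e _ ih => Bool.rec (motive := fun _ => Bool) false ih (pos1 m e.2.2)) els

/-- the data of a block are consistent -/
def blkOk (m : Nat) (B : BlkX) : Bool :=
  Bool.rec (motive := fun _ => Bool) false
    (Bool.rec (motive := fun _ => Bool) false (elsOk m B.els) (Nat.ble 1 B.BG))
    (Nat.ble (List.length B.N) (List.length B.els))

/-- the data of the blocks are consistent -/
def sumOk (m : Nat) (L : List BlkX) : Bool :=
  List.rec (motive := fun _ => Bool) true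
    (fun B _ ih => Bool.rec (motive := fun _ => Bool) false ih (blkOk m B)) L

/-- the data of the right side are consistent -/
def rhsOk (m : Nat) (L : List (PE × List BlkX)) : Bool :=
  List.rec (motive := fun _ => Bool) true
    (fun x _ ih => Bool.rec (motive := fun _ => Bool) false ih (sumOk m x.2)) L

end sums

lemma elsOk_spec {m : ℕ} {els : List (Nat × Nat × PE)} (h : elsOk m els = true) :
    ∀ e ∈ els, pos1 m e.2.2 = true := by
  induction els with
  | nil => intro e he; exact absurd he List.not_mem_nil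
  | cons e es ih =>
    obtain ⟨h1, h2⟩ := band_eq (x := pos1 m e.2.2) (y := elsOk m es) h
    intro e' he'
    rcases List.mem_cons.1 he' with rfl | he'
    · exact h1
    · exact ih h2 e' he'

lemma blkOk_spec {m : ℕ} {B : BlkX} (h : blkOk m B = true) :
    B.N.length ≤ B.els.length ∧ 1 ≤ B.BG ∧ ∀ e ∈ B.els, pos1 m e.2.2 = true := by
  obtain ⟨h1, h2⟩ := band_eq (x := Nat.ble (List.length B.N) (List.length B.els))
    (y := Bool.rec (motive := fun _ => Bool) false (elsOk m B.els) (Nat.ble 1 B.BG)) h
  obtain ⟨h3, h4⟩ := band_eq (x := Nat.ble 1 B.BG) (y := elsOk m B.els) h2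
  exact ⟨Nat.le_of_ble_eq_true h1, Nat.le_of_ble_eq_true h3, elsOk_spec h4⟩

lemma sumOk_spec {m : ℕ} {L : List BlkX} (h : sumOk m L = true) :
    ∀ B ∈ L, blkOk m B = true := by
  induction L with
  | nil => intro e he; exact absurd he List.not_mem_nil
  | cons B L ih =>
    obtain ⟨h1, h2⟩ := band_eq (x := blkOk m B) (y := sumOk m L) h
    intro e' he'
    rcases List.mem_cons.1 he' with rfl | he'
    · exact h1
    · exact ih h2 e' he'

lemma rhsOk_spec {m : ℕ} {L : List (PE × List BlkX)} (h : rhsOk m L = true) :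
    ∀ x ∈ L, sumOk m x.2 = true := by
  induction L with
  | nil => intro e he; exact absurd he List.not_mem_nil
  | cons x L ih =>
    obtain ⟨h1, h2⟩ := band_eq (x := sumOk m x.2) (y := rhsOk m L) h
    intro e' he'
    rcases List.mem_cons.1 he' with rfl | he'
    · exact h1
    · exact ih h2 e' he'

section vals2

variable {R : Type*} [CommRing R] (mo : ℕ → R) (hmo : ∀ k l, mo (k * l) = mo k * mo l)
  (h1 : mo 1 = 1) (ev' : ℕ → HP) (g : ℕ → ℕ) (m : ℕ) (hfg : ∀ i < m, HP.val mo (ev' i) = (g i : R))
  (tab : List (List PE))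
  (hsym : ∀ k l, PE.ev (fun i => HP.val mo (ev' i)) (grT tab k l)
    = PE.ev (fun i => HP.val mo (ev' i)) (grT tab l k))

include hmo h1 hfg hsym in
lemma val_sumX (L : List BlkX) (hL : ∀ B ∈ L, blkOk m B = true) :
    HP.val mo (sumX ev' g tab L)
      = PE.ev (fun i => HP.val mo (ev' i)) (sumG tab (L.map BlkX.toG)) := by
  induction L with
  | nil =>
    have e1 : sumG tab (([] : List BlkX).map BlkX.toG) = PE.c 0 := rfl
    have e2 : sumX ev' g tab [] = HP.nil := rfl
    rw [e1, e2, PE.ev_c]
    simp
  | cons B L ih =>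
    obtain ⟨h2, _, h4⟩ := blkOk_spec (hL B (by simp))
    have e1 : sumG tab ((B :: L).map BlkX.toG)
      = PE.add (B.toG.pe tab) (sumG tab (L.map BlkX.toG)) := rfl
    have e2 : sumX ev' g tab (B :: L)
      = HP.add (blkX ev' g tab B.BG B.els B.N B.els 0) (sumX ev' g tab L) := rfl
    rw [e1, e2, HP.val_add, PE.ev_add, ih fun B' hB' => hL B' (by simp [hB']),
      val_blkX mo hmo h1 ev' g m hfg tab B.BG B.els h4 B.N B.els h4 0 h2 (by omega),
      ← sum_tvX _ tab B hsym]
    congr 1
    refine Finset.sum_congr rfl fun i _ => ?_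
    rw [zero_add]

include hmo h1 hfg hsym in
lemma val_rhsX (L : List (PE × List BlkX)) (hL : ∀ x ∈ L, sumOk m x.2 = true) :
    HP.val mo (rhsX ev' g tab L)
      = PE.ev (fun i => HP.val mo (ev' i)) (rhsG tab (toGs L)) := by
  induction L with
  | nil =>
    have e1 : rhsG tab (toGs []) = PE.c 0 := rfl
    have e2 : rhsX ev' g tab [] = HP.nil := rfl
    rw [e1, e2, PE.ev_c]
    simp
  | cons x L ih =>
    have e1 : rhsG tab (toGs (x :: L))
      = PE.add (PE.mul x.1 (sumG tab (x.2.map BlkX.toG))) (rhsG tab (toGs L)) := rfl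
    have e2 : rhsX ev' g tab (x :: L)
      = HP.add (HP.mul (PE.hp ev' x.1) (sumX ev' g tab x.2)) (rhsX ev' g tab L) := rfl
    rw [e1, e2, HP.val_add, PE.ev_add, PE.ev_mul, HP.val_mul mo hmo, PE.val_hp mo hmo h1,
      ih fun x' hx' => hL x' (by simp [hx']),
      val_sumX mo hmo h1 ev' g m hfg tab hsym x.2 (sumOk_spec (hL x (by simp)))]

end vals2

/-! ### Bounds -/

section bounds

/-- the bound of an element -/
def aX (g : Nat → Nat) (e : Nat × Nat × PE) : Nat :=
  Nat.mul (PE.abN g (ov e.2.1)) (PE.abN g e.2.2)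

/-- the sum of the bounds of the elements -/
def aSX (g : Nat → Nat) (els : List (Nat × Nat × PE)) : Nat :=
  List.rec (motive := fun _ => Nat) 0 (fun e _ ih => Nat.add (aX g e) ih) els

/-- the sum of the bounds of a list -/
def lSX (g : Nat → Nat) (L : List PE) : Nat :=
  List.rec (motive := fun _ => Nat) 0 (fun e _ ih => Nat.add (PE.abN g e) ih) L

/-- the bound of the table -/
def tSX (g : Nat → Nat) (tab : List (List PE)) : Nat :=
  List.rec (motive := fun _ => Nat) 0 (fun e _ ih => Nat.add (lSX g e) ih) tab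

/-- the bound of a block -/
def bX (g : Nat → Nat) (tab : List (List PE)) (B : BlkX) : Nat :=
  Nat.mul (aSX g B.els) (Nat.mul (Nat.mul (Nat.mul 2 B.BG) (aSX g B.els)) (tSX g tab))

/-- the bound of a sum of blocks -/
def bSX (g : Nat → Nat) (tab : List (List PE)) (L : List BlkX) : Nat :=
  List.rec (motive := fun _ => Nat) 0 (fun B _ ih => Nat.add (bX g tab B) ih) L

/-- the bound of the right side -/
def rSX (g : Nat → Nat) (tab : List (List PE)) (L : List (PE × List BlkX)) : Nat :=
  List.rec (motive := fun _ => Nat) 0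
    (fun x _ ih => Nat.add (Nat.mul (PE.abN g x.1) (bSX g tab x.2)) ih) L

/-- the bounds of the identity -/
def bchkX (Q : PE) (k : Int) (tab : List (List PE)) (L : List (PE × List BlkX)) (Ms : List Nat)
    (pre : List Nat) : Bool :=
  List.rec (motive := fun _ => List Nat → Bool) (fun _ => true)
    (fun M _ ih pre => Bool.rec (motive := fun _ => Bool) false (ih (pre ++ [M]))
      (Nat.ble (Nat.succ (Nat.add (PE.abN (lk (fun _ => 1) pre) Q)
        (Nat.mul (Int.natAbs k) (rSX (lk (fun _ => 1) pre) tab L)))) M)) Ms pre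

/-- **the check** -/
def chkX (Ms : List Nat) (Q : PE) (k : Int) (tab : List (List PE)) (L : List (PE × List BlkX)) :
    Bool :=
  Bool.rec (motive := fun _ => Bool) false
    (Bool.rec (motive := fun _ => Bool) false
      (HP.zero (HP.sub (PE.hp (env Ms) Q)
        (HP.smul 1 k (rhsX (env Ms) (lk (fun _ => 1) Ms) tab L))))
      (rhsOk (List.length Ms) L))
    (bchkX Q k tab L Ms [])

variable (g : ℕ → ℕ)

lemma lk_le_tSX (tab : List (List PE)) (k l : ℕ) : PE.ab g (grT tab k l) ≤ tSX g tab := by
  have h1 : ∀ (L : List PE) (l : ℕ), PE.ab g (lk (fun _ => PE.c 0) L l) ≤ lSX g L := by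
    intro L
    induction L with
    | nil => intro l; simp [lk_nil]
    | cons a L ih =>
      intro l
      have e1 : lSX g (a :: L) = PE.abN g a + lSX g L := rfl
      cases l with
      | zero =>
        rw [lk_zero, e1, PE.abN_eq]
        omega
      | succ l =>
        rw [lk_succ, e1]
        have := ih l
        omega
  unfold grT
  induction tab generalizing k with
  | nil =>
    rw [lk_nil, lk_nil]
    simp
  | cons r tab ih =>
    have e1 : tSX g (r :: tab) = lSX g r + tSX g tab := rfl
    cases k with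
    | zero =>
      rw [lk_zero, e1]
      have := h1 r l
      omega
    | succ k =>
      rw [lk_succ, e1]
      have := ih k
      omega

lemma natAbs_fac_le (a : ℤ) (tl : List ℤ) : (fac a tl).natAbs ≤ 2 * a.natAbs := by
  cases tl with
  | nil =>
    rw [fac_nil]
    omega
  | cons b t =>
    rw [fac_ne a (by simp), Int.natAbs_mul]
    rfl

lemma ab_rowG_le (tab : List (List PE)) (D : ℕ) (k : ℕ) (row : List ℤ)
    (hr : ∀ a ∈ row, a.natAbs ≤ D) (els : List (Nat × Nat × PE)) (l o : ℕ) (acc : PE) :
    PE.ab g (rowG tab k row els l o acc)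
      ≤ PE.ab g acc * (PE.ab g (ov o) * PE.ab g (grT tab k l))
        + 2 * D * aSX g els * tSX g tab := by
  induction row generalizing els l o acc with
  | nil =>
    have e1 : rowG tab k [] els l o acc = flE tab k l o acc := rfl
    have e2 : PE.ab g (flE tab k l o acc)
      = PE.ab g acc * (PE.ab g (ov o) * PE.ab g (grT tab k l)) := rfl
    rw [e1, e2]
    omega
  | cons a tl ih =>
    have e2 : PE.ab g (flE tab k l o acc)
      = PE.ab g acc * (PE.ab g (ov o) * PE.ab g (grT tab k l)) := rfl
    cases els with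
    | nil =>
      have e1 : rowG tab k (a :: tl) [] l o acc = flE tab k l o acc := rfl
      rw [e1, e2]
      omega
    | cons e es =>
      have hfac : (fac a tl).natAbs ≤ 2 * D :=
        (natAbs_fac_le a tl).trans (Nat.mul_le_mul_left _ (hr a (by simp)))
      have hgr := lk_le_tSX g tab k e.1
      have hAX : aX g e = PE.ab g (ov e.2.1) * PE.ab g e.2.2 := by
        rw [← PE.abN_eq, ← PE.abN_eq]
        rfl
      have hS : aSX g (e :: es) = aX g e + aSX g es := rfl
      have hmain : (fac a tl).natAbs * PE.ab g e.2.2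
          * (PE.ab g (ov e.2.1) * PE.ab g (grT tab k e.1)) ≤ 2 * D * aX g e * tSX g tab := by
        calc (fac a tl).natAbs * PE.ab g e.2.2
            * (PE.ab g (ov e.2.1) * PE.ab g (grT tab k e.1))
            = (fac a tl).natAbs * (PE.ab g (ov e.2.1) * PE.ab g e.2.2)
              * PE.ab g (grT tab k e.1) := by ring
          _ = (fac a tl).natAbs * aX g e * PE.ab g (grT tab k e.1) := by rw [hAX]
          _ ≤ 2 * D * aX g e * tSX g tab :=
            Nat.mul_le_mul (Nat.mul_le_mul_right _ hfac) hgr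
      have key : PE.ab g (PE.add (flE tab k l o acc)
          (rowG tab k tl es e.1 e.2.1 (PE.mul (PE.c (fac a tl)) e.2.2)))
          ≤ PE.ab g acc * (PE.ab g (ov o) * PE.ab g (grT tab k l))
            + 2 * D * aSX g (e :: es) * tSX g tab := by
        rw [PE.ab_add, e2]
        have h := ih (fun b hb => hr b (by simp [hb])) es e.1 e.2.1
          (PE.mul (PE.c (fac a tl)) e.2.2)
        rw [PE.ab_mul, PE.ab_c, Nat.cast_id] at h
        rw [hS]
        have e3 : 2 * D * (aX g e + aSX g es) * tSX g tab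
          = 2 * D * aX g e * tSX g tab + 2 * D * aSX g es * tSX g tab := by ring
        rw [e3]
        omega
      have e1 : rowG tab k (a :: tl) (e :: es) l o acc = Bool.rec (motive := fun _ => PE)
          (PE.add (flE tab k l o acc)
            (rowG tab k tl es e.1 e.2.1 (PE.mul (PE.c (fac a tl)) e.2.2)))
          (Bool.rec (motive := fun _ => PE)
            (PE.add (flE tab k l o acc)
              (rowG tab k tl es e.1 e.2.1 (PE.mul (PE.c (fac a tl)) e.2.2)))
            (rowG tab k tl es l o (PE.add (PE.mul (PE.c (fac a tl)) e.2.2) acc))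
            (Nat.beq e.2.1 o))
          (Nat.beq e.1 l) := rfl
      rw [e1]
      cases h1 : Nat.beq e.1 l with
      | false => exact key
      | true =>
        cases h2 : Nat.beq e.2.1 o with
        | false => exact key
        | true =>
          have hl := Nat.eq_of_beq_eq_true h1
          have ho := Nat.eq_of_beq_eq_true h2
          change PE.ab g (rowG tab k tl es l o (PE.add (PE.mul (PE.c (fac a tl)) e.2.2) acc)) ≤ _
          refine (ih (fun b hb => hr b (by simp [hb])) es l o _).trans ?_
          rw [PE.ab_add, PE.ab_mul, PE.ab_c, Nat.cast_id, hS]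
          rw [hl, ho] at hmain
          have e3 : 2 * D * (aX g e + aSX g es) * tSX g tab
            = 2 * D * aX g e * tSX g tab + 2 * D * aSX g es * tSX g tab := by ring
          have e4 : ((fac a tl).natAbs * PE.ab g e.2.2 + PE.ab g acc)
              * (PE.ab g (ov o) * PE.ab g (grT tab k l))
            = (fac a tl).natAbs * PE.ab g e.2.2 * (PE.ab g (ov o) * PE.ab g (grT tab k l))
              + PE.ab g acc * (PE.ab g (ov o) * PE.ab g (grT tab k l)) := by ring
          rw [e3, e4]
          omega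

lemma ab_blkG_le (tab : List (List PE)) (D : ℕ) (all : List (Nat × Nat × PE))
    (G : List (List ℤ)) (hG : ∀ r ∈ G, ∀ a ∈ r, a.natAbs ≤ D) (els : List (Nat × Nat × PE)) :
    PE.ab g (blkG tab all G els) ≤ aSX g els * (2 * D * aSX g all * tSX g tab) := by
  induction G generalizing els with
  | nil =>
    have e1 : blkG tab all [] els = PE.c 0 := rfl
    rw [e1]
    simp
  | cons r G ih =>
    cases els with
    | nil =>
      have e1 : blkG tab all (r :: G) [] = PE.c 0 := rfl
      rw [e1]
      simp
    | cons e es =>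
      have e1 : blkG tab all (r :: G) (e :: es)
        = PE.add (PE.mul (PE.mul (ov e.2.1) e.2.2) (rowG tab e.1 r all 0 0 (PE.c 0)))
          (blkG tab all G es) := rfl
      have hS : aSX g (e :: es) = aX g e + aSX g es := rfl
      have hAX : aX g e = PE.ab g (ov e.2.1) * PE.ab g e.2.2 := by
        rw [← PE.abN_eq, ← PE.abN_eq]
        rfl
      have h2 := ab_rowG_le g tab D e.1 r (hG r (by simp)) all 0 0 (PE.c 0)
      rw [PE.ab_c, Int.natAbs_zero, Nat.cast_zero, zero_mul, zero_add] at h2
      have h3 := ih (fun r' hr' => hG r' (by simp [hr'])) es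
      rw [e1, PE.ab_add, PE.ab_mul, PE.ab_mul, ← hAX, hS, Nat.add_mul]
      exact Nat.add_le_add (Nat.mul_le_mul_left _ h2) h3

lemma rowsZ_natAbs {B : ℕ} (hB : 1 ≤ B) (N : List ℕ) (p : ℕ) :
    ∀ r ∈ rowsZ B N p, ∀ a ∈ r, a.natAbs ≤ B := by
  have h1 : ∀ len x, ∀ a ∈ unpZ B len x, a.natAbs ≤ B := by
    intro len
    induction len with
    | zero => intro x a ha; exact absurd ha List.not_mem_nil
    | succ n ih =>
      intro x a ha
      have e : unpZ B (n + 1) x =
        (((x % B : ℕ) : ℤ) - ((B / 2 : ℕ) : ℤ)) :: unpZ B n (x / B) := rfl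
      rw [e] at ha
      rcases List.mem_cons.1 ha with rfl | ha
      · have h2 := Nat.mod_lt x hB
        have h3 := Nat.div_le_self B 2
        omega
      · exact ih _ a ha
  induction N generalizing p with
  | nil => intro r hr; exact absurd hr List.not_mem_nil
  | cons x N ih =>
    intro r hr
    have e : rowsZ B (x :: N) p = unpZ B (p + 1) x :: rowsZ B N (p + 1) := rfl
    rw [e] at hr
    rcases List.mem_cons.1 hr with rfl | hr
    · exact h1 _ _
    · exact ih _ r hr

lemma ab_pe_le (tab : List (List PE)) (B : BlkX) (hB : 1 ≤ B.BG) :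
    PE.ab g (B.toG.pe tab) ≤ bX g tab B := by
  have h := ab_blkG_le g tab B.BG B.els (rowsZ B.BG B.N 0) (rowsZ_natAbs hB _ _) B.els
  have e1 : bX g tab B = aSX g B.els * (2 * B.BG * aSX g B.els * tSX g tab) := rfl
  rw [e1]
  exact h

lemma ab_sumG_le (tab : List (List PE)) (L : List BlkX) (hL : ∀ B ∈ L, 1 ≤ B.BG) :
    PE.ab g (sumG tab (L.map BlkX.toG)) ≤ bSX g tab L := by
  induction L with
  | nil =>
    have e1 : sumG tab (([] : List BlkX).map BlkX.toG) = PE.c 0 := rfl
    rw [e1]
    simp
  | cons B L ih =>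
    have e1 : sumG tab ((B :: L).map BlkX.toG)
      = PE.add (B.toG.pe tab) (sumG tab (L.map BlkX.toG)) := rfl
    have e2 : bSX g tab (B :: L) = bX g tab B + bSX g tab L := rfl
    rw [e1, e2, PE.ab_add]
    exact Nat.add_le_add (ab_pe_le g tab B (hL B (by simp)))
      (ih fun B' hB' => hL B' (by simp [hB']))

lemma ab_rhsG_le (tab : List (List PE)) (L : List (PE × List BlkX))
    (hL : ∀ x ∈ L, ∀ B ∈ x.2, 1 ≤ B.BG) :
    PE.ab g (rhsG tab (toGs L)) ≤ rSX g tab L := by
  induction L with
  | nil =>
    have e1 : rhsG tab (toGs []) = PE.c 0 := rfl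
    rw [e1]
    simp
  | cons x L ih =>
    have e1 : rhsG tab (toGs (x :: L))
      = PE.add (PE.mul x.1 (sumG tab (x.2.map BlkX.toG))) (rhsG tab (toGs L)) := rfl
    have e2 : rSX g tab (x :: L) = PE.abN g x.1 * bSX g tab x.2 + rSX g tab L := rfl
    rw [e1, e2, PE.ab_add, PE.ab_mul, PE.abN_eq]
    exact Nat.add_le_add (Nat.mul_le_mul_left _ (ab_sumG_le g tab x.2 (hL x (by simp))))
      (ih fun x' hx' => hL x' (by simp [hx']))

end bounds

lemma bchkX_spec (Q : PE) (k : ℤ) (tab : List (List PE)) (L : List (PE × List BlkX))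
    (Ms pre : List ℕ) (h : bchkX Q k tab L Ms pre = true) :
    ∀ j < Ms.length, PE.ab (fun i => lk (fun _ => 1) (pre ++ Ms.take j) i) Q
      + k.natAbs * rSX (fun i => lk (fun _ => 1) (pre ++ Ms.take j) i) tab L < Ms.getD j 1 := by
  induction Ms generalizing pre with
  | nil => intro j hj; exact absurd hj (by simp)
  | cons M Ms ih =>
    have e1 : bchkX Q k tab L (M :: Ms) pre = Bool.rec (motive := fun _ => Bool) false
      (bchkX Q k tab L Ms (pre ++ [M])) (Nat.ble (Nat.succ (Nat.add
        (PE.abN (lk (fun _ => 1) pre) Q)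
        (Nat.mul (Int.natAbs k) (rSX (lk (fun _ => 1) pre) tab L)))) M) := rfl
    rw [e1] at h
    obtain ⟨h1, h3⟩ := band_eq h
    have h2 := Nat.le_of_ble_eq_true h1
    rw [PE.abN_eq] at h2
    intro j hj
    cases j with
    | zero =>
      rw [List.take_zero, List.append_nil, List.getD_cons_zero]
      exact h2
    | succ j =>
      have := ih (pre ++ [M]) h3 j (by simpa using hj)
      rw [List.getD_cons_succ, List.take_succ_cons]
      rwa [List.append_assoc, List.singleton_append] at this

/-- **Verified identities**: the value of `Q` is `k` times the value of the right side. -/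
theorem ev_eq_of_chkX {Ms : List ℕ} {Q : PE} {k : ℤ} {tab : List (List PE)}
    {L : List (PE × List BlkX)} (h : chkX Ms Q k tab L = true)
    (hsym : ∀ (f : ℕ → AZ) k l, PE.ev f (grT tab k l) = PE.ev f (grT tab l k))
    {R : Type*} [CommRing R] (f : ℕ → R) (hf : ∀ i, Ms.length + 10 ≤ i → f i = 0) :
    PE.ev f Q = k * PE.ev f (rhsG tab (toGs L)) := by
  obtain ⟨h1, h2⟩ := band_eq (x := bchkX Q k tab L Ms [])
    (y := Bool.rec (motive := fun _ => Bool) false
      (HP.zero (HP.sub (PE.hp (env Ms) Q)
        (HP.smul 1 k (rhsX (env Ms) (lk (fun _ => 1) Ms) tab L))))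
      (rhsOk (List.length Ms) L)) h
  obtain ⟨h3, h4⟩ := band_eq (x := rhsOk (List.length Ms) L) h2
  have hok := rhsOk_spec h3
  have hBG : ∀ x ∈ L, ∀ B ∈ x.2, 1 ≤ B.BG := fun x hx B hB =>
    (blkOk_spec (sumOk_spec (hok x hx) B hB)).2.1
  have key : PE.ev f (PE.sub Q (PE.mul (PE.c k) (rhsG tab (toGs L)))) = 0 := by
    refine ev_of_univ (N := Ms.length + 10) (Ms := Ms) ?_ f hf
    refine kron Ms _ _ Ms.length (by omega) ?_ ?_
    · intro j hj
      have h5 := bchkX_spec Q k tab L Ms [] h1 j hj
      have h6 : (fun i => lk (fun _ => 1) ([] ++ Ms.take j) i)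
          = fun i => if i < j then Ms.getD i 1 else 1 := by
        funext i
        rw [List.nil_append]
        by_cases hi : i < j
        · rw [if_pos hi, lk_lt _ 1 _ _ (by simp; omega)]
          rw [List.getD_eq_getElem _ _ (by simp; omega), List.getD_eq_getElem _ _ (by omega),
            List.getElem_take]
        · rw [if_neg hi, lk_ge _ _ _ (by simp; omega)]
      rw [h6] at h5
      refine lt_of_le_of_lt ?_ h5
      rw [PE.ab_sub, PE.ab_mul, PE.ab_c, Nat.cast_id]
      exact Nat.add_le_add le_rfl (Nat.mul_le_mul_left _ (ab_rhsG_le _ tab L hBG))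
    · have hmo := mo_mul (fun j => (MvPolynomial.X (Ms.length + j) : AZ))
      have hmo1 := mo_one (fun j => (MvPolynomial.X (Ms.length + j) : AZ))
      have h5 := HP.val_zero (mo (fun j => (MvPolynomial.X (Ms.length + j) : AZ))) h4
      have hfg : ∀ i < Ms.length, HP.val (mo (fun j => (MvPolynomial.X (Ms.length + j) : AZ)))
          (env Ms i) = ((lk (fun _ => 1) Ms i : ℕ) : AZ) := by
        intro i hi
        rw [env_val, yv, if_pos hi, lk_lt _ 1 _ _ hi]
      rw [HP.val_sub _ hmo hmo1, HP.val_smul _ hmo, hmo1, PE.val_hp _ hmo hmo1,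
        val_rhsX _ hmo hmo1 (env Ms) (lk (fun _ => 1) Ms) Ms.length hfg tab
          (fun k l => hsym _ k l) L hok] at h5
      have h6 : (fun i => HP.val (mo (fun j => (MvPolynomial.X (Ms.length + j) : AZ)))
          (env Ms i)) = yv Ms (Ms.length + 10) Ms.length := by
        funext i
        exact env_val Ms i
      rw [h6] at h5
      rw [PE.ev_sub, PE.ev_mul, PE.ev_c, ← h5]
      ring
  rw [PE.ev_sub, PE.ev_mul, PE.ev_c, sub_eq_zero] at key
  exact key

lemma sym_tabH {R : Type*} [CommRing R] (f : ℕ → R) (k l : ℕ) :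
    PE.ev f (grT tabH k l) = PE.ev f (grT tabH l k) := by
  by_cases h : 6 ≤ k ∨ 6 ≤ l
  · rw [grT_ge h, grT_ge h.symm]
  · have hk : k < 6 := by omega
    have hl : l < 6 := by omega
    interval_cases k <;> interval_cases l <;> rfl

/-- the multipliers `1`, `rr`, `25 - 36 E`, `rr (25 - 36 E)` -/
def mulX (B1 Br S1 Sr : List BlkX) : List (PE × List BlkX) :=
  [(.c 1, B1), (.v 0, Br), (.sub (.c 25) (.mul (.c 36) (.v 8)), S1),
    (.mul (.v 0) (.sub (.c 25) (.mul (.c 36) (.v 8))), Sr)]

/-- the blocks are positive semidefinite -/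
def GoodX (L : List BlkX) : Prop := ∀ B ∈ L, QPos (rowsZ B.BG B.N 0)

lemma goodX_nil : GoodX [] := fun _ h => absurd h List.not_mem_nil

/-- one more block, with its check -/
lemma goodX_cons {C sc M ε BL BG : ℕ} {W N : List ℕ} {els : List (Nat × Nat × PE)}
    {L : List BlkX} (h : psdF C sc M ε BL BG W N = true) (hL : GoodX L) :
    GoodX (⟨els, BG, N⟩ :: L) := by
  intro B hB
  rcases List.mem_cons.1 hB with rfl | hB
  · exact fun x => qpos_of_psdF h x
  · exact hL B hB

lemma goodX_toG {L : List BlkX} (h : GoodX L) : GoodB (L.map BlkX.toG) := by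
  intro B hB
  obtain ⟨B', hB', rfl⟩ := List.mem_map.1 hB
  exact ⟨tri_rowsZ _ _ _, h B' hB'⟩

section

variable {E : Type*} [NormedAddCommGroup E] [InnerProductSpace ℝ E]

/-- **Nonnegativity from a verified identity** (fast form). -/
theorem nonneg_of_chkX {P : PE} {B1 Br S1 Sr : List BlkX} {Ms : List ℕ} (k : Int) (hk : 0 ≤ k)
    (hid : chkX Ms (PE.sb sbH P) k tabH (mulX B1 Br S1 Sr) = true) (hMs : Ms.length = 4)
    (h1 : GoodX B1) (h2 : GoodX Br) (h3 : GoodX S1) (h4 : GoodX Sr)
    {e x N y w : E} (he : ‖e‖ ^ 2 ≤ 25 / 36) (hx : ‖x‖ = 1) (hN : ‖N‖ = 1) (hy : ‖y‖ = 1)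
    (hw : ‖w‖ = 1) (hxN : ⟪x, N⟫ = 0) (hyw : ⟪y, w⟫ = 0) (hs : ⟪x, y⟫ < 1) :
    0 ≤ PE.ev (vh (dv x N y w e)) P := by
  have e1 : toGs (mulX B1 Br S1 Sr) = mulH (B1.map BlkX.toG) (Br.map BlkX.toG)
    (S1.map BlkX.toG) (Sr.map BlkX.toG) := rfl
  rw [← ev_sb_sbH, ev_eq_of_chkX hid (fun f k l => sym_tabH f k l) _
    (fun i hi => vg_ge _ _ (by omega)), e1]
  refine mul_nonneg (by exact_mod_cast hk) (rhsG_nonneg _ (isGramT_dv e hx hN hy hw hxN hyw hs)
    ?_ ?_)
  · have h8 : vg (dv x N y w e) 8 = ‖e‖ ^ 2 := real_inner_self_eq_norm_sq e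
    have h0 : 0 ≤ vg (dv x N y w e) 0 := Real.sqrt_nonneg _
    have hE : 0 ≤ PE.ev (vg (dv x N y w e)) (.sub (.c 25) (.mul (.c 36) (.v 8))) := by
      rw [PE.ev_sub, PE.ev_mul, PE.ev_c, PE.ev_c, PE.ev_v, h8]
      push_cast
      linarith
    intro y hy
    simp only [mulH, List.mem_cons, List.not_mem_nil, or_false] at hy
    rcases hy with rfl | rfl | rfl | rfl
    · simp
    · simpa using h0
    · exact hE
    · exact mul_nonneg h0 hE
  · intro y hy
    simp only [mulH, List.mem_cons, List.not_mem_nil, or_false] at hy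
    rcases hy with rfl | rfl | rfl | rfl
    · exact goodX_toG h1
    · exact goodX_toG h2
    · exact goodX_toG h3
    · exact goodX_toG h4

end

end

end Vale.Agent.P224.PO
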