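import Vale.Agent.P224.PO.SubO

/-!
A fast verification of the identity of a certificate: the bounds of the integers replacing the
variables come from a cheap majorant of the sums over all pairs.
-/

namespace Vale.Agent.P224.PO

open Vale.Agent.P224.UE Vale.Agent.P224.POS
open scoped RealInnerProductSpace

noncomputable section

/-! ### The check with an arbitrary majorant -/

/-- the bounds from a majorant -/
def bchkN (bnd : (Nat → Nat) → Nat) (L : List Nat) (pre : List Nat) : Bool :=
  List.rec (motive := fun _ => List Nat → Bool) (fun _ => true)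
    (fun M _ ih pre => Bool.rec (motive := fun _ => Bool) false (ih (pre ++ [M]))
      (Nat.ble (Nat.succ (bnd (lk (fun _ => 1) pre))) M)) L pre

lemma bchkN_spec (bnd : (ℕ → ℕ) → ℕ) (L pre : List ℕ) (h : bchkN bnd L pre = true) :
    ∀ k < L.length, bnd (lk (fun _ => 1) (pre ++ L.take k)) < L.getD k 1 := by
  induction L generalizing pre with
  | nil => intro k hk; exact absurd hk (by simp)
  | cons M L ih =>
    have e1 : bchkN bnd (M :: L) pre = Bool.rec (motive := fun _ => Bool) false
      (bchkN bnd L (pre ++ [M])) (Nat.ble (Nat.succ (bnd (lk (fun _ => 1) pre))) M) := rfl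
    rw [e1] at h
    cases h1 : Nat.ble (Nat.succ (bnd (lk (fun _ => 1) pre))) M with
    | false =>
      rw [h1] at h
      exact absurd h (by simp)
    | true =>
      rw [h1] at h
      have h2 := Nat.le_of_ble_eq_true h1
      intro k hk
      cases k with
      | zero =>
        rw [List.take_zero, List.append_nil, List.getD_cons_zero]
        exact h2
      | succ k =>
        have := ih (pre ++ [M]) h k (by simpa using hk)
        rw [List.getD_cons_succ, List.take_succ_cons]
        rwa [List.append_assoc, List.singleton_append] at this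

/-- Verified identities with a majorant. -/
theorem ev_eq_zero_of_chkN {Ms : List ℕ} {e : PE} {bnd : (ℕ → ℕ) → ℕ}
    (hb : ∀ f, PE.ab f e ≤ bnd f) (h1 : bchkN bnd Ms [] = true)
    (h : HP.zero (PE.hp (env Ms) e) = true) {R : Type*} [CommRing R]
    (f : ℕ → R) (hf : ∀ i, Ms.length + 10 ≤ i → f i = 0) : PE.ev f e = 0 := by
  refine ev_of_univ (N := Ms.length + 10) (Ms := Ms) ?_ f hf
  refine kron Ms _ e Ms.length (by omega) ?_ ?_
  · intro k hk
    have h2 := Nat.lt_of_le_of_lt (hb _) (bchkN_spec bnd Ms [] h1 k hk)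
    convert h2 using 2
    funext i
    rw [List.nil_append]
    by_cases hi : i < k
    · rw [if_pos hi, lk_lt _ 1 _ _ (by simp; omega)]
      rw [List.getD_eq_getElem _ _ (by omega), List.getD_eq_getElem _ _ (by simp; omega),
        List.getElem_take]
    · rw [if_neg hi, lk_ge _ _ _ (by simp; omega)]
  · have h2 := HP.val_zero (mo (fun j => (MvPolynomial.X (Ms.length + j) : AZ))) h
    rw [PE.val_hp _ (mo_mul _) (mo_one _)] at h2
    rw [← h2]
    congr 1
    funext i
    exact (env_val Ms i).symm

theorem ev_eq_of_chkN {Ms : List ℕ} {a b : PE} {bnd : (ℕ → ℕ) → ℕ}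
    (hb : ∀ f, PE.ab f (a.sub b) ≤ bnd f) (h1 : bchkN bnd Ms [] = true)
    (h : HP.zero (PE.hp (env Ms) (a.sub b)) = true) {R : Type*} [CommRing R]
    (f : ℕ → R) (hf : ∀ i, Ms.length + 10 ≤ i → f i = 0) : PE.ev f a = PE.ev f b := by
  have := ev_eq_zero_of_chkN hb h1 h f hf
  rwa [PE.ev_sub, sub_eq_zero] at this

/-! ### The majorant of the blocks -/

/-- all entries of a row are at most `g / 2` in absolute value -/
def rowB (g : Nat) (r : List Int) : Bool :=
  List.rec (motive := fun _ => Bool) true
    (fun a _ ih => Bool.rec (motive := fun _ => Bool) false ih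
      (Nat.ble (Nat.mul 2 (Int.natAbs a)) g)) r

/-- all entries are at most `g / 2` in absolute value -/
def matB (g : Nat) (G : List (List Int)) : Bool :=
  List.rec (motive := fun _ => Bool) true
    (fun r _ ih => Bool.rec (motive := fun _ => Bool) false ih (rowB g r)) G

/-- all entries of the blocks are at most `g / 2` in absolute value -/
def blkB (g : Nat) (L : List BlkG) : Bool :=
  List.rec (motive := fun _ => Bool) true
    (fun B _ ih => Bool.rec (motive := fun _ => Bool) false ih (matB g B.G)) L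

/-- the same for all lists of blocks -/
def allB (g : Nat) (L : List (PE × List BlkG)) : Bool :=
  List.rec (motive := fun _ => Bool) true
    (fun x _ ih => Bool.rec (motive := fun _ => Bool) false ih (blkB g x.2)) L

lemma and_of_rec {a b : Bool} (h : Bool.rec (motive := fun _ => Bool) false b a = true) :
    a = true ∧ b = true := by
  cases a with
  | false => exact absurd h (by simp)
  | true => exact ⟨rfl, h⟩

lemma rowB_spec {g : ℕ} {r : List ℤ} (h : rowB g r = true) : ∀ a ∈ r, 2 * a.natAbs ≤ g := by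
  induction r with
  | nil => intro a ha; exact absurd ha List.not_mem_nil
  | cons a r ih =>
    have h' := and_of_rec (a := Nat.ble (Nat.mul 2 (Int.natAbs a)) g) (b := rowB g r) h
    intro b hb
    rcases List.mem_cons.1 hb with rfl | hb
    · exact Nat.le_of_ble_eq_true h'.1
    · exact ih h'.2 b hb

lemma matB_spec {g : ℕ} {G : List (List ℤ)} (h : matB g G = true) :
    ∀ r ∈ G, ∀ a ∈ r, 2 * a.natAbs ≤ g := by
  induction G with
  | nil => intro a ha; exact absurd ha List.not_mem_nil
  | cons r G ih =>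
    have h' := and_of_rec (a := rowB g r) (b := matB g G) h
    intro b hb
    rcases List.mem_cons.1 hb with rfl | hb
    · exact rowB_spec h'.1
    · exact ih h'.2 b hb

/-- the sum of the table -/
def rowT (f : Nat → Nat) (r : List PE) : Nat :=
  List.rec (motive := fun _ => Nat) 0 (fun e _ ih => Nat.add (PE.abN f e) ih) r

/-- the sum of the table -/
def tabS (f : Nat → Nat) (tab : List (List PE)) : Nat :=
  List.rec (motive := fun _ => Nat) 0 (fun r _ ih => Nat.add (rowT f r) ih) tab

/-- the sum of the elements -/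
def elS (f : Nat → Nat) (els : List (Nat × Nat × PE)) : Nat :=
  List.rec (motive := fun _ => Nat) 0
    (fun e _ ih => Nat.add (Nat.mul (PE.abN f (ov e.2.1)) (PE.abN f e.2.2)) ih) els

/-- the majorant of the blocks with the same multiplier -/
def blkS (f : Nat → Nat) (gΓ : Nat) (L : List BlkG) : Nat :=
  List.rec (motive := fun _ => Nat) 0
    (fun B _ ih => Nat.add (Nat.mul (elS f B.els) (Nat.mul gΓ (elS f B.els))) ih) L

/-- the majorant of the right side -/
def rhsS (f : Nat → Nat) (gΓ : Nat) (L : List (PE × List BlkG)) : Nat :=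
  List.rec (motive := fun _ => Nat) 0
    (fun x _ ih => Nat.add (Nat.mul (PE.abN f x.1) (blkS f gΓ x.2)) ih) L

/-- the majorant of the difference -/
def bndH (k : Int) (g : Nat) (P : PE) (L : List (PE × List BlkG)) (f : Nat → Nat) : Nat :=
  Nat.add (PE.abN f (PE.sb sbH P)) (Nat.mul (Int.natAbs k) (rhsS f (Nat.mul g (tabS f tabH)) L))

lemma rowT_le (f : ℕ → ℕ) (r : List PE) (l : ℕ) : PE.ab f (lk (fun _ => PE.c 0) r l) ≤ rowT f r := by
  induction r generalizing l with
  | nil => simp [lk_nil, rowT]
  | cons e r ih =>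
    have e1 : rowT f (e :: r) = PE.abN f e + rowT f r := rfl
    rw [e1, PE.abN_eq]
    cases l with
    | zero => rw [lk_zero]; exact Nat.le_add_right _ _
    | succ l => rw [lk_succ]; exact (ih l).trans (Nat.le_add_left _ _)

lemma tabS_le (f : ℕ → ℕ) (tab : List (List PE)) (k l : ℕ) :
    PE.ab f (grT tab k l) ≤ tabS f tab := by
  unfold grT
  induction tab generalizing k with
  | nil => simp [lk_nil, tabS]
  | cons r tab ih =>
    have e1 : tabS f (r :: tab) = rowT f r + tabS f tab := rfl
    rw [e1]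
    cases k with
    | zero => rw [lk_zero]; exact (rowT_le f r l).trans (Nat.le_add_right _ _)
    | succ k => rw [lk_succ]; exact (ih k).trans (Nat.le_add_left _ _)

lemma fac_le (a : ℤ) (tl : List ℤ) : (fac a tl).natAbs ≤ 2 * a.natAbs := by
  cases tl with
  | nil => rw [fac_nil]; omega
  | cons b t => rw [fac_ne _ (by simp), Int.natAbs_mul]; exact le_of_eq rfl

section

variable {f : ℕ → ℕ} {tab : List (List PE)} {g Γ : ℕ}

lemma ab_rowG (hΓ : ∀ k l, PE.ab f (grT tab k l) ≤ Γ) (k : ℕ) (row : List Int)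
    (hg : ∀ a ∈ row, 2 * a.natAbs ≤ g) (els : List (Nat × Nat × PE)) (l o : ℕ) (acc : PE) :
    PE.ab f (rowG tab k row els l o acc)
      ≤ PE.ab f acc * (PE.ab f (ov o) * PE.ab f (grT tab k l)) + g * Γ * elS f els := by
  induction row generalizing els l o acc with
  | nil =>
    have e1 : rowG tab k [] els l o acc = flE tab k l o acc := rfl
    rw [e1]
    exact Nat.le_add_right _ _
  | cons a tl ih =>
    cases els with
    | nil =>
      have e1 : rowG tab k (a :: tl) [] l o acc = flE tab k l o acc := rfl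
      rw [e1]
      exact Nat.le_add_right _ _
    | cons e es =>
      have ih' := ih (fun b hb => hg b (List.mem_cons_of_mem _ hb))
      have hfa : (fac a tl).natAbs ≤ g := (fac_le a tl).trans (hg a List.mem_cons_self)
      have e0 : elS f (e :: es) = PE.ab f (ov e.2.1) * PE.ab f e.2.2 + elS f es := by
        rw [← PE.abN_eq, ← PE.abN_eq]; rfl
      have e1 : rowG tab k (a :: tl) (e :: es) l o acc = Bool.rec (motive := fun _ => PE)
          (PE.add (flE tab k l o acc)
            (rowG tab k tl es e.1 e.2.1 (PE.mul (PE.c (fac a tl)) e.2.2)))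
          (Bool.rec (motive := fun _ => PE)
            (PE.add (flE tab k l o acc)
              (rowG tab k tl es e.1 e.2.1 (PE.mul (PE.c (fac a tl)) e.2.2)))
            (rowG tab k tl es l o (PE.add (PE.mul (PE.c (fac a tl)) e.2.2) acc))
            (Nat.beq e.2.1 o))
          (Nat.beq e.1 l) := rfl
      have hfl : PE.ab f (flE tab k l o acc)
          = PE.ab f acc * (PE.ab f (ov o) * PE.ab f (grT tab k l)) := rfl
      have hstep : (fac a tl).natAbs * PE.ab f e.2.2 * (PE.ab f (ov e.2.1)
          * PE.ab f (grT tab k e.1)) ≤ g * Γ * (PE.ab f (ov e.2.1) * PE.ab f e.2.2) := by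
        calc (fac a tl).natAbs * PE.ab f e.2.2 * (PE.ab f (ov e.2.1) * PE.ab f (grT tab k e.1))
            = ((fac a tl).natAbs * PE.ab f (grT tab k e.1))
              * (PE.ab f (ov e.2.1) * PE.ab f e.2.2) := by ring
          _ ≤ (g * Γ) * (PE.ab f (ov e.2.1) * PE.ab f e.2.2) :=
              Nat.mul_le_mul_right _ (Nat.mul_le_mul hfa (hΓ k e.1))
      have key : PE.ab f (PE.add (flE tab k l o acc)
          (rowG tab k tl es e.1 e.2.1 (PE.mul (PE.c (fac a tl)) e.2.2)))
          ≤ PE.ab f acc * (PE.ab f (ov o) * PE.ab f (grT tab k l))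
            + g * Γ * elS f (e :: es) := by
        have h1 := ih' es e.1 e.2.1 (PE.mul (PE.c (fac a tl)) e.2.2)
        rw [PE.ab_mul, PE.ab_c] at h1
        rw [PE.ab_add, hfl, e0]
        simp only [Nat.cast_id] at h1
        nlinarith
      rw [e1]
      cases h1 : Nat.beq e.1 l with
      | false => exact key
      | true =>
        cases h2 : Nat.beq e.2.1 o with
        | false => exact key
        | true =>
          have hl := Nat.eq_of_beq_eq_true h1
          have ho := Nat.eq_of_beq_eq_true h2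
          change PE.ab f (rowG tab k tl es l o (PE.add (PE.mul (PE.c (fac a tl)) e.2.2) acc)) ≤ _
          have h3 := ih' es l o (PE.add (PE.mul (PE.c (fac a tl)) e.2.2) acc)
          rw [PE.ab_add, PE.ab_mul, PE.ab_c] at h3
          simp only [Nat.cast_id] at h3
          rw [hl, ho] at hstep
          rw [e0, ho]
          nlinarith

lemma ab_blkG (hΓ : ∀ k l, PE.ab f (grT tab k l) ≤ Γ) (all : List (Nat × Nat × PE))
    (G : List (List Int)) (hg : ∀ r ∈ G, ∀ a ∈ r, 2 * a.natAbs ≤ g)
    (els : List (Nat × Nat × PE)) :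
    PE.ab f (blkG tab all G els) ≤ elS f els * (g * Γ * elS f all) := by
  induction G generalizing els with
  | nil =>
    have e1 : blkG tab all [] els = PE.c 0 := rfl
    rw [e1]
    simp
  | cons r tl ih =>
    cases els with
    | nil =>
      have e1 : blkG tab all (r :: tl) [] = PE.c 0 := rfl
      rw [e1]
      simp
    | cons e es =>
      have ih' := ih (fun r' hr' => hg r' (List.mem_cons_of_mem _ hr')) es
      have e0 : elS f (e :: es) = PE.ab f (ov e.2.1) * PE.ab f e.2.2 + elS f es := by
        rw [← PE.abN_eq, ← PE.abN_eq]; rfl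
      have e1 : blkG tab all (r :: tl) (e :: es)
        = PE.add (PE.mul (PE.mul (ov e.2.1) e.2.2) (rowG tab e.1 r all 0 0 (PE.c 0)))
          (blkG tab all tl es) := rfl
      have h1 := ab_rowG hΓ e.1 r (hg r List.mem_cons_self) all 0 0 (PE.c 0)
      rw [PE.ab_c] at h1
      simp only [Int.natAbs_zero, Nat.cast_zero, zero_mul, zero_add] at h1
      rw [e1, PE.ab_add, PE.ab_mul, PE.ab_mul, e0, add_mul]
      exact add_le_add (Nat.mul_le_mul_left _ h1) ih'

lemma ab_sumG (hΓ : ∀ k l, PE.ab f (grT tab k l) ≤ Γ) (L : List BlkG) (h : blkB g L = true) :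
    PE.ab f (sumG tab L) ≤ blkS f (g * Γ) L := by
  induction L with
  | nil => simp [sumG, blkS]
  | cons B L ih =>
    have h' := and_of_rec (a := matB g B.G) (b := blkB g L) h
    have e1 : blkS f (g * Γ) (B :: L)
      = elS f B.els * (g * Γ * elS f B.els) + blkS f (g * Γ) L := rfl
    have e2 : sumG tab (B :: L) = PE.add (B.pe tab) (sumG tab L) := rfl
    rw [e1, e2, PE.ab_add]
    exact add_le_add (ab_blkG hΓ B.els B.G (matB_spec h'.1) B.els) (ih h'.2)

lemma ab_rhsG (hΓ : ∀ k l, PE.ab f (grT tab k l) ≤ Γ) (L : List (PE × List BlkG))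
    (h : allB g L = true) : PE.ab f (rhsG tab L) ≤ rhsS f (g * Γ) L := by
  induction L with
  | nil => simp [rhsG, rhsS]
  | cons x L ih =>
    have h' := and_of_rec (a := blkB g x.2) (b := allB g L) h
    have e1 : rhsS f (g * Γ) (x :: L)
      = PE.abN f x.1 * blkS f (g * Γ) x.2 + rhsS f (g * Γ) L := rfl
    have e2 : rhsG tab (x :: L) = PE.add (PE.mul x.1 (sumG tab x.2)) (rhsG tab L) := rfl
    rw [e1, e2, PE.ab_add, PE.ab_mul, PE.abN_eq]
    exact add_le_add (Nat.mul_le_mul_left _ (ab_sumG hΓ x.2 h'.1)) (ih h'.2)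

end

/-- the majorant -/
lemma ab_le_bndH (k : ℤ) {g : ℕ} (P : PE) {L : List (PE × List BlkG)} (h : allB g L = true)
    (f : ℕ → ℕ) :
    PE.ab f (PE.sub (PE.sb sbH P) (PE.mul (PE.c k) (rhsG tabH L))) ≤ bndH k g P L f := by
  have e1 : bndH k g P L f = PE.abN f (PE.sb sbH P)
    + k.natAbs * rhsS f (g * tabS f tabH) L := rfl
  rw [e1, PE.ab_sub, PE.ab_mul, PE.ab_c, PE.abN_eq, Nat.cast_id]
  exact Nat.add_le_add_left (Nat.mul_le_mul_left _ (ab_rhsG (tabS_le f tabH) L h)) _

section

variable {E : Type*} [NormedAddCommGroup E] [InnerProductSpace ℝ E]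

/-- **Nonnegativity from a verified identity**, fast form. -/
theorem nonneg_of_chkHF {P : PE} {B1 Br S1 Sr : List BlkG} {Ms : List ℕ} {g : ℕ} (k : Int)
    (hk : 0 ≤ k) (hg : allB g (mulH B1 Br S1 Sr) = true)
    (hb : bchkN (bndH k g P (mulH B1 Br S1 Sr)) Ms [] = true)
    (hid : HP.zero (PE.hp (env Ms)
      (PE.sub (PE.sb sbH P) (PE.mul (PE.c k) (rhsG tabH (mulH B1 Br S1 Sr))))) = true)
    (h1 : GoodB B1) (h2 : GoodB Br) (h3 : GoodB S1) (h4 : GoodB Sr)
    {e x N y w : E} (he : ‖e‖ ^ 2 ≤ 25 / 36) (hx : ‖x‖ = 1) (hN : ‖N‖ = 1) (hy : ‖y‖ = 1)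
    (hw : ‖w‖ = 1) (hxN : ⟪x, N⟫ = 0) (hyw : ⟪y, w⟫ = 0) (hs : ⟪x, y⟫ < 1) :
    0 ≤ PE.ev (vh (dv x N y w e)) P := by
  rw [← ev_sb_sbH, ev_eq_of_chkN (ab_le_bndH k P hg) hb hid _ fun i hi => vg_ge _ _ (by omega),
    PE.ev_mul, PE.ev_c]
  refine mul_nonneg (by exact_mod_cast hk) (rhsG_nonneg _ (isGramT_dv e hx hN hy hw hxN hyw hs)
    ?_ ?_)
  · have h8 : vg (dv x N y w e) 8 = ‖e‖ ^ 2 := real_inner_self_eq_norm_sq e
    have h0 : 0 ≤ vg (dv x N y w e) 0 := Real.sqrt_nonneg _
    have hE : 0 ≤ PE.ev (vg (dv x N y w e)) (.sub (.c 25) (.mul (.c 36) (.v 8))) := by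
      rw [PE.ev_sub, PE.ev_mul, PE.ev_c, PE.ev_c, PE.ev_v, h8]
      push_cast
      linarith
    intro y hy
    simp only [mulH, List.mem_cons, List.not_mem_nil, or_false] at hy
    rcases hy with rfl | rfl | rfl | rfl
    · simp
    · simpa using h0
    · exact hE
    · exact mul_nonneg h0 hE
  · intro y hy
    simp only [mulH, List.mem_cons, List.not_mem_nil, or_false] at hy
    rcases hy with rfl | rfl | rfl | rfl
    · exact h1
    · exact h2
    · exact h3
    · exact h4

end

end

end Vale.Agent.P224.PO
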