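import Vale.Agent.P224.PO.MainOdd
import Vale.Agent.P224.SO.StabG

/-!
Odd dimension: the core theorem from scalar inequalities.
-/

namespace Vale.Agent.P224.PO

open MeasureTheory Set Filter Function Module Vale.Agent.P224 Vale.Agent.P224.UE
open Vale.Agent.P224.SM2 hiding ker
open scoped Topology RealInnerProductSpace ENNReal ContDiff Manifold

set_option linter.unusedSectionVars false

section

variable {X : Type*} [MeasurableSpace X] {E : Type*} [NormedAddCommGroup E]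
  [InnerProductSpace ℝ E] [FiniteDimensional ℝ E] [MeasurableSpace E] [BorelSpace E]
  {μ : Measure X} [IsFiniteMeasure μ] {p n : X → E} {m : ℕ}

lemma devA_sq {k : ℕ} (α : ℝ) (b : OrthonormalBasis (Fin k) ℝ E) (S : Finset (Fin k))
    (x N : E) :
    ‖devA α b S x N‖ ^ 2 = ∑ i, (⟪N, b i⟫ * ⟪N, b i⟫
      - 2 * (if i ∈ S then α else -(1 / α)) * (⟪x, b i⟫ * ⟪N, b i⟫)
      + (if i ∈ S then α else -(1 / α)) ^ 2 * (⟪x, b i⟫ * ⟪x, b i⟫)) := by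
  have hc : ∀ j, ⟪devA α b S x N, b j⟫
      = ⟪N, b j⟫ - (if j ∈ S then α else -(1 / α)) * ⟪x, b j⟫ := by
    intro j
    unfold devA
    rw [inner_sub_left, sum_inner]
    simp only [real_inner_smul_left, orthonormal_iff_ite.1 b.orthonormal, mul_ite, mul_one,
      mul_zero, Finset.sum_ite_eq', Finset.mem_univ, if_true]
  rw [← real_inner_self_eq_norm_sq, ← b.sum_inner_mul_inner]
  refine Finset.sum_congr rfl fun i _ => ?_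
  rw [real_inner_comm (devA α b S x N) (b i), hc]
  ring

lemma integral_devA (hp : SO.UF p) (hn : SO.UF n) {k : ℕ} (α : ℝ)
    (b : OrthonormalBasis (Fin k) ℝ E) (S : Finset (Fin k)) :
    ∫ x, ‖devA α b S (p x) (n x)‖ ^ 2 ∂μ = ∑ i, (SO.mom μ n n (b i) (b i)
      - 2 * (if i ∈ S then α else -(1 / α)) * SO.mom μ p n (b i) (b i)
      + (if i ∈ S then α else -(1 / α)) ^ 2 * SO.mom μ p p (b i) (b i)) := by
  simp only [devA_sq]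
  have i1 : ∀ i, Integrable (fun x => ⟪n x, b i⟫ * ⟪n x, b i⟫) μ :=
    fun i => hn.integrable_mul hn _ _
  have i2 : ∀ i, Integrable (fun x => 2 * (if i ∈ S then α else -(1 / α))
      * (⟪p x, b i⟫ * ⟪n x, b i⟫)) μ :=
    fun i => (hp.integrable_mul hn _ _).const_mul _
  have i3 : ∀ i, Integrable (fun x => (if i ∈ S then α else -(1 / α)) ^ 2
      * (⟪p x, b i⟫ * ⟪p x, b i⟫)) μ :=
    fun i => (hp.integrable_mul hp _ _).const_mul _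
  have i4 : ∀ i, Integrable (fun x => ⟪n x, b i⟫ * ⟪n x, b i⟫
      - 2 * (if i ∈ S then α else -(1 / α)) * (⟪p x, b i⟫ * ⟪n x, b i⟫)) μ :=
    fun i => (i1 i).sub (i2 i)
  have i5 : ∀ i, Integrable (fun x => ⟪n x, b i⟫ * ⟪n x, b i⟫
      - 2 * (if i ∈ S then α else -(1 / α)) * (⟪p x, b i⟫ * ⟪n x, b i⟫)
      + (if i ∈ S then α else -(1 / α)) ^ 2 * (⟪p x, b i⟫ * ⟪p x, b i⟫)) μ :=
    fun i => (i4 i).add (i3 i)
  rw [integral_finsetSum _ fun i _ => i5 i]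
  refine Finset.sum_congr rfl fun i _ => ?_
  rw [integral_add (i4 i) (i3 i), integral_sub (i1 i) (i2 i), integral_const_mul,
    integral_const_mul]
  rfl

/-- the stable resources from stable scalar inequalities -/
theorem stabK (hE : finrank ℝ E = m + 2) (hm : m ≠ 0) (h : TwoG μ m p n) [Nonempty X]
    (hsp : ∀ w, (∀ x, ⟪p x, w⟫ = 0) → w = 0)
    (hor : 0 ≤ ∫ q : X × X, ⟪p q.1, p q.2⟫ * ⟪p q.1, n q.2⟫ ∂(μ.prod μ))
    (hA : 0 < μ.real univ) {α r w : ℝ} (hα : 0 < α) (hw : α ^ 2 = w) (hr : 0 < r)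
    (hrα : ((m : ℝ) + 1) * α = 2 * r)
    -- the scalar inequality
    {T0 k1 B c q lamu lamv g1 g' t κ Z a2 b2 c2 a1 c1 : ℝ} {cd : ℕ}
    (hB : B = ((m : ℝ) + 1) ^ 2 * w) (hq : q = ((m : ℝ) + 1) * w) (hg1 : g1 = (m : ℝ) + 2)
    (hg' : g' = 2 * ((m : ℝ) + 1) + ((m : ℝ) + 1) / (2 * r ^ 2))
    (hc2 : c2 = w / ((m : ℝ) + 1)) (ha2 : a2 = 1 - c2) (hb2 : b2 = 2 * w)
    (hc1 : c1 = 1 / (w * ((m : ℝ) + 1))) (ha1 : a1 = 1 - c1)
    (hst : ∀ d x : Fin (m + 2) → ℝ, (∀ i, q * x i ^ 2 ≤ d i - d i ^ 2) → ∑ i, d i = 1 →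
      ∑ i, x i = 0 → ∑ i, d i * x i ≤ 0 →
      T0 + (k1 * ∑ i, d i ^ 2 - B * ∑ i, x i ^ 2 - c * ∑ i, d i * x i)
        + ∑ i, (lamu * (d i - d i ^ 2 - q * x i ^ 2) + lamv * ((1 - g1 * d i - 2 * x i) ^ 2
          + g' * (d i - d i ^ 2 - q * x i ^ 2))) < t →
      (SO.Rt Z x).card = cd ∧
        κ * ∑ i, (if Z ≤ x i then a2 * d i - b2 * x i + c2 else a1 * d i + 2 * x i + c1)
        ≤ T0 + (k1 * ∑ i, d i ^ 2 - B * ∑ i, x i ^ 2 - c * ∑ i, d i * x i)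
        + ∑ i, (lamu * (d i - d i ^ 2 - q * x i ^ 2) + lamv * ((1 - g1 * d i - 2 * x i) ^ 2
          + g' * (d i - d i ^ 2 - q * x i ^ 2))))
    {ρ k0 cc lu lv : ℝ} (hρ : 0 < ρ) (hT0 : T0 = k0 * ((m : ℝ) + 1) ^ 2 + k1 * m)
    (hcc : c ≤ cc * (((m : ℝ) + 1) * α))
    (h1 : lamu * ρ ≤ ((m : ℝ) + 1) / 2 * lu) (h2 : lamv * ρ ≤ lv)
    (h3 : (m + 1) * lu / 2 ≤ ρ * k1 + lv * (1 + ((m : ℝ) + 1) ^ 2
      - ((m : ℝ) + 1) / (2 * r ^ 2)))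
    (hR : ((m : ℝ) + 1) ^ 2 * ∫ q : X × X, (ρ * (k0 + k1 * ⟪p q.1, p q.2⟫ ^ 2
              - ⟪p q.1, p q.2⟫ * ⟪n q.1, n q.2⟫
              + cc * (⟪p q.1, p q.2⟫ * ((⟪p q.1, n q.2⟫ + ⟪n q.1, p q.2⟫) / 2)))
            + lu * ((⟪p q.1, n q.2⟫ - ⟪n q.1, p q.2⟫) / 2) ^ 2
            + lv * (⟪n q.1, n q.2⟫ - ⟪p q.1, p q.2⟫
              + 1 / r * ((⟪p q.1, n q.2⟫ + ⟪n q.1, p q.2⟫) / 2)) ^ 2) ∂(μ.prod μ)
        < t * ρ * μ.real univ ^ 2) :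
    ∃ (b : OrthonormalBasis (Fin (m + 2)) ℝ E) (S : Finset (Fin (m + 2))), S.card = cd ∧
      κ * ρ * (μ.real univ * ∫ x, ‖devA α b S (p x) (n x)‖ ^ 2 ∂μ)
        ≤ ((m : ℝ) + 1) ^ 2 * ∫ q : X × X, (ρ * (k0 + k1 * ⟪p q.1, p q.2⟫ ^ 2
              - ⟪p q.1, p q.2⟫ * ⟪n q.1, n q.2⟫
              + cc * (⟪p q.1, p q.2⟫ * ((⟪p q.1, n q.2⟫ + ⟪n q.1, p q.2⟫) / 2)))
            + lu * ((⟪p q.1, n q.2⟫ - ⟪n q.1, p q.2⟫) / 2) ^ 2
            + lv * (⟪n q.1, n q.2⟫ - ⟪p q.1, p q.2⟫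
              + 1 / r * ((⟪p q.1, n q.2⟫ + ⟪n q.1, p q.2⟫) / 2)) ^ 2) ∂(μ.prod μ) := by
  have hp : SO.UF p := ⟨h.mp, h.np⟩
  have hn : SO.UF n := ⟨h.mn, h.nn⟩
  have hM : (0 : ℝ) < (m : ℝ) + 1 := by positivity
  obtain ⟨b, d, x, hd, hd1, hx0, hDX, m1, m2, m3, hres⟩ := SO.resGV hE hm h hsp hor hA hα hr
  have h4 := hres k0 k1 ρ cc lu lv h3
  set A := μ.real univ with hAd
  set M : ℝ := (m : ℝ) + 1 with hMd
  have hw0 : 0 < w := by rw [← hw]; positivity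
  rw [hw] at hd h4
  have hqd : ∀ i, q * x i ^ 2 ≤ d i - d i ^ 2 := fun i => by rw [hq]; exact hd i
  have hW : 0 ≤ ∑ i, (d i - d i ^ 2 - q * x i ^ 2) :=
    Finset.sum_nonneg fun i _ => by linarith [hqd i]
  have hg'0 : 0 ≤ g' := by rw [hg']; positivity
  have hG : 0 ≤ ∑ i, ((1 - g1 * d i - 2 * x i) ^ 2 + g' * (d i - d i ^ 2 - q * x i ^ 2)) :=
    Finset.sum_nonneg fun i _ => add_nonneg (sq_nonneg _)
      (mul_nonneg hg'0 (by linarith [hqd i]))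
  -- the sums
  have eW : ∑ i, (d i - d i ^ 2 - q * x i ^ 2) = 1 - ∑ i, d i ^ 2 - q * ∑ i, x i ^ 2 := by
    rw [Finset.sum_sub_distrib, Finset.sum_sub_distrib, hd1, ← Finset.mul_sum]
  have eG : ∑ i, ((1 - g1 * d i - 2 * x i) ^ 2 + g' * (d i - d i ^ 2 - q * x i ^ 2))
      = (m + 2) - 2 * g1 + g1 ^ 2 * ∑ i, d i ^ 2 + 4 * ∑ i, x i ^ 2
        + 4 * g1 * ∑ i, d i * x i + g' * (1 - ∑ i, d i ^ 2 - q * ∑ i, x i ^ 2) := by
    rw [Finset.sum_add_distrib, ← Finset.mul_sum, eW]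
    have e1 : ∀ i, (1 - g1 * d i - 2 * x i) ^ 2 = 1 - 2 * g1 * d i - 4 * x i
        + g1 ^ 2 * d i ^ 2 + 4 * x i ^ 2 + 4 * g1 * (d i * x i) := fun i => by ring
    simp only [e1, Finset.sum_add_distrib, Finset.sum_sub_distrib, ← Finset.mul_sum, hd1, hx0,
      Finset.sum_const, Finset.card_univ, Fintype.card_fin, nsmul_eq_mul]
    push_cast
    ring
  have eL : ∑ i, (lamu * (d i - d i ^ 2 - q * x i ^ 2) + lamv * ((1 - g1 * d i - 2 * x i) ^ 2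
          + g' * (d i - d i ^ 2 - q * x i ^ 2)))
      = lamu * ∑ i, (d i - d i ^ 2 - q * x i ^ 2)
        + lamv * ∑ i, ((1 - g1 * d i - 2 * x i) ^ 2 + g' * (d i - d i ^ 2 - q * x i ^ 2)) := by
    rw [Finset.sum_add_distrib, Finset.mul_sum, Finset.mul_sum]
  set P := ∑ i, d i ^ 2 with hP
  set Q := ∑ i, x i ^ 2 with hQ
  set DX := ∑ i, d i * x i with hDXd
  set W := ∑ i, (d i - d i ^ 2 - q * x i ^ 2) with hWd
  set G := ∑ i, ((1 - g1 * d i - 2 * x i) ^ 2 + g' * (d i - d i ^ 2 - q * x i ^ 2)) with hGd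
  have hA2 : 0 < A ^ 2 := by positivity
  have hαr : α / r = 2 / M := by
    rw [div_eq_div_iff hr.ne' hM.ne']
    linarith
  have hr2 : r ^ 2 = M ^ 2 * w / 4 := by
    have h5 : r = M * α / 2 := by linarith
    rw [h5, ← hw]
    ring
  -- the comparison
  have h5 : A ^ 2 * (ρ * (T0 + (k1 * P - B * Q - c * DX) + (lamu * W + lamv * G)))
      ≤ A ^ 2 * (ρ * (k0 * M ^ 2 + k1 * (m + P) - M ^ 2 * w * Q) - ρ * cc * (M * α) * DX
            + lu * (M / 2) * (1 - P - M * w * Q)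
            + lv * ((m + P) + M ^ 2 * P - 2 * (M ^ 2 * w) * Q
              + M / (2 * r ^ 2) * (1 - P + M * w * Q)
              + 2 * M * (m + 2) * (α / r) * DX)) := by
    refine mul_le_mul_of_nonneg_left ?_ hA2.le
    have h6 : ρ * (cc * (M * α)) * DX ≤ ρ * c * DX :=
      mul_le_mul_of_nonpos_right (mul_le_mul_of_nonneg_left hcc hρ.le) hDX
    have h7 := mul_le_mul_of_nonneg_right h1 hW
    have h8 := mul_le_mul_of_nonneg_right h2 hG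
    have e2 : (m + P) + M ^ 2 * P - 2 * (M ^ 2 * w) * Q
              + M / (2 * r ^ 2) * (1 - P + M * w * Q)
              + 2 * M * (m + 2) * (α / r) * DX = G := by
      rw [eG, hαr, hg1, hg', hq, hr2]
      have hmM : (m : ℝ) = M - 1 := by rw [hMd]; ring
      rw [hmM]
      field_simp
      ring
    have e3 : 1 - P - M * w * Q = W := by rw [eW, hq]
    rw [e2, e3, hT0, hB]
    rw [hB] at *
    linarith
  have hS : T0 + (k1 * P - B * Q - c * DX) + (lamu * W + lamv * G) < t := by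
    refine lt_of_mul_lt_mul_left (a := A ^ 2 * ρ) ?_ (by positivity)
    calc A ^ 2 * ρ * (T0 + (k1 * P - B * Q - c * DX) + (lamu * W + lamv * G))
        = A ^ 2 * (ρ * (T0 + (k1 * P - B * Q - c * DX) + (lamu * W + lamv * G))) := by ring
      _ ≤ _ := h5
      _ ≤ _ := h4
      _ < t * ρ * A ^ 2 := hR
      _ = A ^ 2 * ρ * t := by ring
  obtain ⟨q1, q2⟩ := hst d x hqd hd1 hx0 hDX (by rw [eL]; exact hS)
  rw [eL] at q2
  refine ⟨b, SO.Rt Z x, q1, ?_⟩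
  have hdev : ∫ y, ‖devA α b (SO.Rt Z x) (p y) (n y)‖ ^ 2 ∂μ
      = A * ∑ i, (if Z ≤ x i then a2 * d i - b2 * x i + c2 else a1 * d i + 2 * x i + c1) := by
    rw [integral_devA hp hn, Finset.mul_sum]
    refine Finset.sum_congr rfl fun i _ => ?_
    rw [m1, m2, m3]
    by_cases hi : Z ≤ x i
    · rw [if_pos hi, if_pos (SO.mem_Rt.2 hi), ha2, hb2, hc2, ← hw]
      field_simp
      ring
    · rw [if_neg hi, if_neg (fun hh => hi (SO.mem_Rt.1 hh)), ha1, hc1, ← hw]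
      field_simp
      ring
  rw [hdev]
  calc κ * ρ * (A * (A * ∑ i, (if Z ≤ x i then a2 * d i - b2 * x i + c2
        else a1 * d i + 2 * x i + c1)))
      = A ^ 2 * ρ * (κ * ∑ i, (if Z ≤ x i then a2 * d i - b2 * x i + c2
        else a1 * d i + 2 * x i + c1)) := by ring
    _ ≤ A ^ 2 * ρ * (T0 + (k1 * P - B * Q - c * DX) + (lamu * W + lamv * G)) :=
        mul_le_mul_of_nonneg_left q2 (by positivity)
    _ = A ^ 2 * (ρ * (T0 + (k1 * P - B * Q - c * DX) + (lamu * W + lamv * G))) := by ring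
    _ ≤ _ := h5
    _ ≤ _ := h4

end

section

variable {V W M : Type*} [NormedAddCommGroup V] [InnerProductSpace ℝ V] [FiniteDimensional ℝ V]
  [NormedAddCommGroup W] [InnerProductSpace ℝ W] [FiniteDimensional ℝ W]
  [TopologicalSpace M] [ChartedSpace V M]
  [MeasurableSpace V] [BorelSpace V] [MeasurableSpace M] [BorelSpace M]
  [IsManifold 𝓘(ℝ, V) ∞ M] [CompactSpace M] [T2Space M] [ConnectedSpace M]
  [MeasurableSpace W] [BorelSpace W]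

/-- **The sharp bound and its equality case in odd dimension**, from the two certificates and the
scalar inequalities. -/
theorem core_K {m h : ℕ} (hmh : m = 2 * h + 1) (hm : 4 < m) (hV : finrank ℝ V = m)
    (hW : finrank ℝ W = finrank ℝ V + 2)
    {F : M → W} (hF : SphImm V F) (hmin : ∀ x n, IsUnitNormal V F x n → meanCurv V F x n = 0)
    (hng : ¬ ∃ a : W, a ≠ 0 ∧ ∀ x, ⟪F x, a⟫ = 0)
    {C Θ1 : ℝ} (hC2 : C < 2) (hΘ1 : 6 / 5 ≤ Θ1)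
    (hΘ : Θ1 * sphereVol m ≤ (volM V F).real univ)
    -- the constants of the Clifford configuration
    {α r w kr : ℝ} (hα : 0 < α) (hw : α ^ 2 = w) (hr : 0 < r)
    (hrα : ((m : ℝ) + 1) * α = 2 * r) (hkr : kr = 1 / r)
    {T0 k0 k1 B c q g1 g' a2 b2 c2 a1 c1 cc : ℝ} {cd : ℕ}
    (hB : B = ((m : ℝ) + 1) ^ 2 * w) (hq : q = ((m : ℝ) + 1) * w) (hg1 : g1 = (m : ℝ) + 2)
    (hg' : g' = 2 * ((m : ℝ) + 1) + ((m : ℝ) + 1) / (2 * r ^ 2))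
    (hc2 : c2 = w / ((m : ℝ) + 1)) (ha2 : a2 = 1 - c2) (hb2 : b2 = 2 * w)
    (hc1 : c1 = 1 / (w * ((m : ℝ) + 1))) (ha1 : a1 = 1 - c1)
    (hT0 : T0 = k0 * ((m : ℝ) + 1) ^ 2 + k1 * m) (hcc : c ≤ cc * (((m : ℝ) + 1) * α))
    -- the scalar inequalities
    {lamu lamv lams t1 κ1 t2 κ2 Z Z' : ℝ} (hκ1 : 0 < κ1) (hκ2 : 0 < κ2)
    (hst1 : ∀ d x : Fin (m + 2) → ℝ, (∀ i, q * x i ^ 2 ≤ d i - d i ^ 2) → ∑ i, d i = 1 →
      ∑ i, x i = 0 → ∑ i, d i * x i ≤ 0 →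
      T0 + (k1 * ∑ i, d i ^ 2 - B * ∑ i, x i ^ 2 - c * ∑ i, d i * x i)
        + ∑ i, (lamu * (d i - d i ^ 2 - q * x i ^ 2) + lamv * ((1 - g1 * d i - 2 * x i) ^ 2
          + g' * (d i - d i ^ 2 - q * x i ^ 2))) < t1 →
      (SO.Rt Z x).card = cd ∧
        κ1 * ∑ i, (if Z ≤ x i then a2 * d i - b2 * x i + c2 else a1 * d i + 2 * x i + c1)
        ≤ T0 + (k1 * ∑ i, d i ^ 2 - B * ∑ i, x i ^ 2 - c * ∑ i, d i * x i)
        + ∑ i, (lamu * (d i - d i ^ 2 - q * x i ^ 2) + lamv * ((1 - g1 * d i - 2 * x i) ^ 2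
          + g' * (d i - d i ^ 2 - q * x i ^ 2))))
    (hst2 : ∀ d x : Fin (m + 2) → ℝ, (∀ i, q * x i ^ 2 ≤ d i - d i ^ 2) → ∑ i, d i = 1 →
      ∑ i, x i = 0 → ∑ i, d i * x i ≤ 0 →
      T0 + (k1 * ∑ i, d i ^ 2 - B * ∑ i, x i ^ 2 - c * ∑ i, d i * x i)
        + ∑ i, lams * (d i - d i ^ 2 - q * x i ^ 2) < t2 →
      (SO.Rt Z' x).card = cd ∧
        κ2 * ∑ i, (if Z' ≤ x i then a2 * d i - b2 * x i + c2 else a1 * d i + 2 * x i + c1)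
        ≤ T0 + (k1 * ∑ i, d i ^ 2 - B * ∑ i, x i ^ 2 - c * ∑ i, d i * x i)
        + ∑ i, lams * (d i - d i ^ 2 - q * x i ^ 2))
    -- the certificate with a parameter
    {l : List SO.GT} (hr' : ∀ t ∈ l, t.Reg) (hok : ∀ t ∈ l, t.ok h)
    (hw' : ∀ t ∈ l, ∀ x N : W, ‖x‖ = 1 → ‖N‖ = 1 → ⟪x, N⟫ = 0 →
      t.w (dv x N x N 0) = 1)
    {Ro : ℝ → R9 → ℝ} (hRn : ∀ N : M → W, TwoG (volM V F) m F N → ∀ T ∈ Ioo (0 : ℝ) 1,
      Null (volM V F) F N 0 (Ro T))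
    {R0 : R9 → ℝ} (hR0 : ∀ N : M → W, TwoG (volM V F) m F N → Null (volM V F) F N 0 R0)
    (hposT : ∀ T ∈ Ioo (0 : ℝ) 1, ∀ x N y w : W, ‖x‖ = 1 → ‖N‖ = 1 → ‖y‖ = 1 → ‖w‖ = 1 →
      ⟪x, N⟫ = 0 → ⟪y, w⟫ = 0 → SO.gS' (l.map SO.GT.v) T (dv x N y w 0)
        ≤ Ro T (dv x N y w 0))
    {c0 ρ κ γ lu lv : ℝ} (hc0 : 0 < c0) (hρ : 0 < ρ) (hκ : 0 ≤ κ) (hγ : 0 < γ)
    (hl1 : lamu * ρ ≤ ((m : ℝ) + 1) / 2 * lu) (hl2 : lamv * ρ ≤ lv)
    (hl3 : (m + 1) * lu / 2 ≤ ρ * k1 + lv * (1 + ((m : ℝ) + 1) ^ 2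
      - ((m : ℝ) + 1) / (2 * r ^ 2)))
    (h0 : ∀ x N y w : W, ‖x‖ = 1 → ‖N‖ = 1 → ‖y‖ = 1 → ‖w‖ = 1 → ⟪x, N⟫ = 0 → ⟪y, w⟫ = 0 →
      (l.map fun t => t.φ 0 * t.Q (dv x N y w 0)).sum
        ≤ c0 * (1 + γ * dv x N y w (0 : W) 3
          - (ρ * RF k0 k1 (-cc) (dv x N y w 0)
            + κ * dv x N y w (0 : W) 0 ^ 3) + R0 (dv x N y w 0)
          - (lu * ((⟪x, w⟫ - ⟪N, y⟫) / 2) ^ 2
            + lv * (⟪N, w⟫ - ⟪x, y⟫ - kr * ((⟪x, w⟫ + ⟪N, y⟫) / 2)) ^ 2)))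
    (hfl : OT.fluxC m h l = c0 * C)
    -- the certificate with the mean normal
    {cs ρ2 κs lus : ℝ} (hcs : c ≤ cs * (((m : ℝ) + 1) * α)) (hρ2 : 0 < ρ2) (hκs : 0 ≤ κs)
    (hls0 : lams * ρ2 ≤ ((m : ℝ) + 1) / 2 * lus) (hls : (m + 1) * lus / 2 ≤ ρ2 * k1)
    {b0 b1 b2' b3 b4 b5 b6 b7 b8 : ℝ} {l2 : List (ℝ × HTerm)}
    (hl : ∀ cT ∈ l2, cT.2.ok m = true)
    (hpos : ∀ e x N y w : W, ‖e‖ ^ 2 ≤ 25 / 36 → ‖x‖ = 1 → ‖N‖ = 1 → ‖y‖ = 1 → ‖w‖ = 1 →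
      ⟪x, N⟫ = 0 → ⟪y, w⟫ = 0 → ⟪x, y⟫ < 1 → 0 ≤
        W9 b0 b1 b2' b3 b4 b5 b6 b7 b8 (dv x N y w e) + hsum m l2 (dv x N y w e)
        - (ρ2 * RF k0 k1 cs (dv x N y w e) + κs * dv x N y w e 0 ^ 3
          + lus * ((dv x N y w e 1 - dv x N y w e 2) / 2) ^ 2))
    {u0 gs : ℝ} (hgs : 0 ≤ gs)
    (hlaw : ∀ Θ u r : ℝ, Θ1 ≤ Θ → Θ ≤ C → u0 ≤ u → Θ ^ 2 * u ≤ 1 → u ^ 2 ≤ r → r ≤ u →
      Θ * (b0 + (b1 + b2' + b3) * u + (b4 + b7) * r + (b5 + b6) * u ^ 2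
        + b8 * ((u - r) / ((m : ℕ) + 1))) + KH m * hval m l2 u r ≤ Θ * gs)
    -- the bound of the mean normal
    {K : ℝ} (hK : 0 < K)
    (hone : ∀ N : M → W, TwoG (volM V F) m F N → ∀ (b : OrthonormalBasis (Fin (m + 2)) ℝ W)
      (S : Finset (Fin (m + 2))), S.card = cd →
      ‖∫ x, N x ∂(volM V F)‖ ≤ K * ∫ x, ‖devA α b S (F x) (N x)‖ ^ 2 ∂(volM V F))
    (hn1 : ((m : ℝ) + 1) ^ 2 * γ * u0 ≤ t1 * ρ)
    (hn2 : (((m : ℝ) + 1) ^ 2 * K * γ) ^ 2 * u0 ≤ (κ1 * ρ) ^ 2)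
    (hs1 : ((m : ℝ) + 1) ^ 2 * gs < t2 * ρ2)
    (hs2 : (((m : ℝ) + 1) ^ 2 * K * gs) ^ 2 < (κ2 * ρ2) ^ 2 * u0)
    (hle : (volM V F).real univ ≤ C * sphereVol m) :
    (volM V F).real univ = C * sphereVol m ∧ Injective F ∧
      ∃ (N : M → W) (b : OrthonormalBasis (Fin (m + 2)) ℝ W) (S : Finset (Fin (m + 2))),
        ContMDiff 𝓘(ℝ, V) 𝓘(ℝ, W) ∞ N ∧ (∀ x, IsUnitNormal V F x (N x)) ∧ S.card = cd ∧
        ∀ x, N x = ∑ i, ((if i ∈ S then α else -(1 / α)) * ⟪F x, b i⟫) • b i := by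
  have hE : finrank ℝ W = m + 2 := by omega
  have hm0 : m ≠ 0 := by omega
  have hfin : IsFiniteMeasure (volM V F) := isFiniteMeasure_volM hF
  have hne : Nonempty M := inferInstance
  have hS0 : 0 < sphereVol m := sphereVol_pos' _
  have hA0 : 0 < (volM V F).real univ := by
    have : 0 < Θ1 * sphereVol m := by positivity
    linarith
  have hM : (0 : ℝ) < (m : ℝ) + 1 := by positivity
  have hM2 : (0 : ℝ) < ((m : ℝ) + 1) ^ 2 := by positivity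
  set M2 : ℝ := ((m : ℝ) + 1) ^ 2 with hM2d
  refine core_odd hmh hm hV hW hF hmin hC2 hΘ1 hΘ hr' hok hw' hRn hR0 hposT hc0 hκ hγ
    (RT := fun d => ρ * RF k0 k1 (-cc) d
      + (lu * ((d 1 - d 2) / 2) ^ 2 + lv * (d 3 - d 0 - kr * ((d 1 + d 2) / 2)) ^ 2))
    (((continuous_RF _ _ _).const_mul ρ).add (by fun_prop))
    (fun x N y w a1 a2 a3 a4 a5 a6 => (h0 x N y w a1 a2 a3 a4 a5 a6).trans (le_of_eq (by
      have e0 : dv x N y w (0 : W) 0 = ⟪x, y⟫ := rfl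
      have e1 : dv x N y w (0 : W) 1 = ⟪x, w⟫ := rfl
      have e2 : dv x N y w (0 : W) 2 = ⟪N, y⟫ := rfl
      have e3 : dv x N y w (0 : W) 3 = ⟪N, w⟫ := rfl
      rw [← e0, ← e1, ← e2, ← e3]
      ring))) hfl hκs
    (RS := fun d => ρ2 * RF k0 k1 cs d + lus * ((d 1 - d 2) / 2) ^ 2)
    (((continuous_RF _ _ _).const_mul ρ2).add (by fun_prop)) hl
    (fun e x N y w a0 a1 a2 a3 a4 a5 a6 a7 => (hpos e x N y w a0 a1 a2 a3 a4 a5 a6 a7).trans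
      (le_of_eq (by ring))) hgs hlaw (α := α) (kT := κ1 * ρ / M2)
    (tT := t1 * ρ / M2) (kS := κ2 * ρ2 / M2) (tS := t2 * ρ2 / M2) (cd := cd)
    (by positivity) (by positivity) ?_ ?_ hK hone ?_ ?_ ?_ ?_ hle
  · intro N hG hor hR
    have e : ∫ q, (fun d : R9 => ρ * RF k0 k1 (-cc) d
          + (lu * ((d 1 - d 2) / 2) ^ 2 + lv * (d 3 - d 0 - kr * ((d 1 + d 2) / 2)) ^ 2))
          (dat F (fun x => -N x) (0 : W) q) ∂((volM V F).prod (volM V F))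
          = ∫ q : M × M, (ρ * (k0 + k1 * ⟪F q.1, F q.2⟫ ^ 2
              - ⟪F q.1, F q.2⟫ * ⟪N q.1, N q.2⟫
              + cc * (⟪F q.1, F q.2⟫ * ((⟪F q.1, N q.2⟫ + ⟪N q.1, F q.2⟫) / 2)))
            + lu * ((⟪F q.1, N q.2⟫ - ⟪N q.1, F q.2⟫) / 2) ^ 2
            + lv * (⟪N q.1, N q.2⟫ - ⟪F q.1, F q.2⟫
              + 1 / r * ((⟪F q.1, N q.2⟫ + ⟪N q.1, F q.2⟫) / 2)) ^ 2)
            ∂((volM V F).prod (volM V F)) := by
        refine integral_congr_ae (Eventually.of_forall fun q => ?_)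
        have e0 : dat F (fun x => -N x) (0 : W) q 0 = ⟪F q.1, F q.2⟫ := rfl
        have e1 : dat F (fun x => -N x) (0 : W) q 1 = ⟪F q.1, -N q.2⟫ := rfl
        have e2 : dat F (fun x => -N x) (0 : W) q 2 = ⟪-N q.1, F q.2⟫ := rfl
        have e3 : dat F (fun x => -N x) (0 : W) q 3 = ⟪-N q.1, -N q.2⟫ := rfl
        simp only [RF, e0, e1, e2, e3, inner_neg_left, inner_neg_right, hkr]
        ring
    rw [e] at hR ⊢
    obtain ⟨b, S, h1, h2⟩ := stabK hE hm0 hG (sp_of_hng hng) hor hA0 hα hw hr hrα hB hq hg1 hg'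
      hc2 ha2 hb2 hc1 ha1 hst1 hρ hT0 hcc hl1 hl2 hl3 (by
        have h3 := mul_lt_mul_of_pos_left hR hM2
        have h4 : M2 * (t1 * ρ / M2 * (volM V F).real univ ^ 2)
            = t1 * ρ * (volM V F).real univ ^ 2 := by field_simp
        rw [h4] at h3
        exact h3)
    refine ⟨b, S, h1, ?_⟩
    refine le_of_mul_le_mul_left (a := M2) ?_ hM2
    refine le_trans (le_of_eq ?_) h2
    field_simp
  · intro e N hG hor hR
    have e4 : ∫ q, (fun d : R9 => ρ2 * RF k0 k1 cs d + lus * ((d 1 - d 2) / 2) ^ 2)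
          (dat F N e q) ∂((volM V F).prod (volM V F))
          = ∫ q : M × M, (ρ2 * (k0 + k1 * ⟪F q.1, F q.2⟫ ^ 2
              - ⟪F q.1, F q.2⟫ * ⟪N q.1, N q.2⟫
              + cs * (⟪F q.1, F q.2⟫ * ((⟪F q.1, N q.2⟫ + ⟪N q.1, F q.2⟫) / 2)))
            + lus * ((⟪F q.1, N q.2⟫ - ⟪N q.1, F q.2⟫) / 2) ^ 2
            + 0 * (⟪N q.1, N q.2⟫ - ⟪F q.1, F q.2⟫
              + 1 / r * ((⟪F q.1, N q.2⟫ + ⟪N q.1, F q.2⟫) / 2)) ^ 2)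
            ∂((volM V F).prod (volM V F)) := by
        refine integral_congr_ae (Eventually.of_forall fun q => ?_)
        have e0 : dat F N e q 0 = ⟪F q.1, F q.2⟫ := rfl
        have e1 : dat F N e q 1 = ⟪F q.1, N q.2⟫ := rfl
        have e2 : dat F N e q 2 = ⟪N q.1, F q.2⟫ := rfl
        have e3 : dat F N e q 3 = ⟪N q.1, N q.2⟫ := rfl
        simp only [RF, e0, e1, e2, e3]
        ring
    rw [e4] at hR ⊢
    have hst2' : ∀ d x : Fin (m + 2) → ℝ, (∀ i, q * x i ^ 2 ≤ d i - d i ^ 2) → ∑ i, d i = 1 →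
      ∑ i, x i = 0 → ∑ i, d i * x i ≤ 0 →
      T0 + (k1 * ∑ i, d i ^ 2 - B * ∑ i, x i ^ 2 - c * ∑ i, d i * x i)
        + ∑ i, (lams * (d i - d i ^ 2 - q * x i ^ 2) + 0 * ((1 - g1 * d i - 2 * x i) ^ 2
          + g' * (d i - d i ^ 2 - q * x i ^ 2))) < t2 →
      (SO.Rt Z' x).card = cd ∧
        κ2 * ∑ i, (if Z' ≤ x i then a2 * d i - b2 * x i + c2 else a1 * d i + 2 * x i + c1)
        ≤ T0 + (k1 * ∑ i, d i ^ 2 - B * ∑ i, x i ^ 2 - c * ∑ i, d i * x i)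
        + ∑ i, (lams * (d i - d i ^ 2 - q * x i ^ 2) + 0 * ((1 - g1 * d i - 2 * x i) ^ 2
          + g' * (d i - d i ^ 2 - q * x i ^ 2))) := by
      intro d x p1 p2 p3 p4 p5
      simp only [zero_mul, add_zero] at p5 ⊢
      exact hst2 d x p1 p2 p3 p4 p5
    obtain ⟨b, S, h1, h2⟩ := stabK hE hm0 hG (sp_of_hng hng) hor hA0 hα hw hr hrα hB hq hg1 hg'
      hc2 ha2 hb2 hc1 ha1 hst2' hρ2 hT0 hcs hls0 (by rw [zero_mul])
      (by rw [zero_mul, add_zero]; exact hls) (by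
        have h3 := mul_lt_mul_of_pos_left hR hM2
        have h4 : M2 * (t2 * ρ2 / M2 * (volM V F).real univ ^ 2)
            = t2 * ρ2 * (volM V F).real univ ^ 2 := by field_simp
        rw [h4] at h3
        exact h3)
    refine ⟨b, S, h1, ?_⟩
    refine le_of_mul_le_mul_left (a := M2) ?_ hM2
    refine le_trans (le_of_eq ?_) h2
    field_simp
  · rw [le_div_iff₀ hM2]
    linarith
  · rw [div_pow, le_div_iff₀ (by positivity)]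
    refine le_trans (le_of_eq ?_) hn2
    ring
  · rw [lt_div_iff₀ hM2]
    linarith
  · rw [div_pow, div_mul_eq_mul_div, lt_div_iff₀ (by positivity)]
    refine lt_of_le_of_lt (le_of_eq ?_) hs2
    ring

end

end Vale.Agent.P224.PO
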