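import Vale.Agent.P224.PO.CoreK

/-!
Odd dimension: the core theorem with a weighted distance.
-/

namespace Vale.Agent.P224.PO

open MeasureTheory Set Filter Function Module Vale.Agent.P224 Vale.Agent.P224.UE
open Vale.Agent.P224.SM2 hiding ker
open scoped Topology RealInnerProductSpace ENNReal ContDiff Manifold

set_option linter.unusedSectionVars false

section

variable {V W M : Type*} [NormedAddCommGroup V] [InnerProductSpace ℝ V] [FiniteDimensional ℝ V]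
  [NormedAddCommGroup W] [InnerProductSpace ℝ W] [FiniteDimensional ℝ W]
  [TopologicalSpace M] [ChartedSpace V M]
  [MeasurableSpace V] [BorelSpace V] [MeasurableSpace M] [BorelSpace M]
  [IsManifold 𝓘(ℝ, V) ∞ M] [CompactSpace M] [T2Space M] [ConnectedSpace M]
  [MeasurableSpace W] [BorelSpace W]

/-- **The sharp bound and its equality case in odd dimension**, with an abstract distance. -/
theorem core_oddW {m h : ℕ} (hmh : m = 2 * h + 1) (hm : 4 < m) (hV : finrank ℝ V = m)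
    (hW : finrank ℝ W = finrank ℝ V + 2)
    {F : M → W} (hF : SphImm V F) (hmin : ∀ x n, IsUnitNormal V F x n → meanCurv V F x n = 0)
    {C Θ1 : ℝ} (hC2 : C < 2) (hΘ1 : 6 / 5 ≤ Θ1)
    (hΘ : Θ1 * sphereVol m ≤ (volM V F).real univ)
    -- the certificate with a parameter
    {l : List SO.GT} (hr : ∀ t ∈ l, t.Reg) (hok : ∀ t ∈ l, t.ok h)
    (hw : ∀ t ∈ l, ∀ x N : W, ‖x‖ = 1 → ‖N‖ = 1 → ⟪x, N⟫ = 0 →
      t.w (dv x N x N 0) = 1)
    {Ro : ℝ → R9 → ℝ} (hRn : ∀ N : M → W, TwoG (volM V F) m F N → ∀ T ∈ Ioo (0 : ℝ) 1,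
      Null (volM V F) F N 0 (Ro T))
    {R0 : R9 → ℝ} (hR0 : ∀ N : M → W, TwoG (volM V F) m F N → Null (volM V F) F N 0 R0)
    (hposT : ∀ T ∈ Ioo (0 : ℝ) 1, ∀ x N y w : W, ‖x‖ = 1 → ‖N‖ = 1 → ‖y‖ = 1 → ‖w‖ = 1 →
      ⟪x, N⟫ = 0 → ⟪y, w⟫ = 0 → SO.gS' (l.map SO.GT.v) T (dv x N y w 0)
        ≤ Ro T (dv x N y w 0))
    {c0 κ γ : ℝ} (hc0 : 0 < c0) (hκ : 0 ≤ κ) (hγ : 0 < γ)
    {RT : R9 → ℝ} (hRTc : Continuous RT)
    (h0 : ∀ x N y w : W, ‖x‖ = 1 → ‖N‖ = 1 → ‖y‖ = 1 → ‖w‖ = 1 → ⟪x, N⟫ = 0 → ⟪y, w⟫ = 0 →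
      (l.map fun t => t.φ 0 * t.Q (dv x N y w 0)).sum
        ≤ c0 * (1 + γ * dv x N y w (0 : W) 3
          - (RT (dv x N y w 0) + κ * dv x N y w (0 : W) 0 ^ 3) + R0 (dv x N y w 0)))
    (hfl : OT.fluxC m h l = c0 * C)
    -- the certificate with the mean normal
    {κ2 : ℝ} (hκ2 : 0 ≤ κ2) {RS : R9 → ℝ} (hRSc : Continuous RS)
    {b0 b1 b2 b3 b4 b5 b6 b7 b8 : ℝ} {l2 : List (ℝ × HTerm)}
    (hl : ∀ cT ∈ l2, cT.2.ok m = true)
    (hpos : ∀ e x N y w : W, ‖e‖ ^ 2 ≤ 25 / 36 → ‖x‖ = 1 → ‖N‖ = 1 → ‖y‖ = 1 → ‖w‖ = 1 →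
      ⟪x, N⟫ = 0 → ⟪y, w⟫ = 0 → ⟪x, y⟫ < 1 → 0 ≤
        W9 b0 b1 b2 b3 b4 b5 b6 b7 b8 (dv x N y w e) + hsum m l2 (dv x N y w e)
        - (RS (dv x N y w e) + κ2 * dv x N y w e 0 ^ 3))
    {u0 gs : ℝ} (hgs : 0 ≤ gs)
    (hlaw : ∀ Θ u r : ℝ, Θ1 ≤ Θ → Θ ≤ C → u0 ≤ u → Θ ^ 2 * u ≤ 1 → u ^ 2 ≤ r → r ≤ u →
      Θ * (b0 + (b1 + b2 + b3) * u + (b4 + b7) * r + (b5 + b6) * u ^ 2
        + b8 * ((u - r) / ((m : ℕ) + 1))) + KH m * hval m l2 u r ≤ Θ * gs)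
    -- the distance
    {α kT tT kS tS : ℝ} {cd : ℕ} (hkT : 0 < kT) (hkS : 0 < kS)
    {Dw : (M → W) → OrthonormalBasis (Fin (m + 2)) ℝ W → Finset (Fin (m + 2)) → ℝ}
    (hDw : ∀ (N : M → W), TwoG (volM V F) m F N → ∀ b S,
      ∫ x, ‖devA α b S (F x) (N x)‖ ^ 2 ∂(volM V F) ≤ Dw N b S)
    -- the stable resources
    (hsT : ∀ N : M → W, TwoG (volM V F) m F N → 0 ≤ ∫ q : M × M, ⟪F q.1, F q.2⟫
        * ⟪F q.1, N q.2⟫ ∂((volM V F).prod (volM V F)) →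
      ∫ q, RT (dat F (fun x => -N x) 0 q) ∂((volM V F).prod (volM V F))
        < tT * (volM V F).real univ ^ 2 →
      ∃ (b : OrthonormalBasis (Fin (m + 2)) ℝ W) (S : Finset (Fin (m + 2))), S.card = cd ∧
        kT * ((volM V F).real univ * Dw N b S)
          ≤ ∫ q, RT (dat F (fun x => -N x) 0 q) ∂((volM V F).prod (volM V F)))
    (hsS : ∀ (e : W) (N : M → W), TwoG (volM V F) m F N → 0 ≤ ∫ q : M × M, ⟪F q.1, F q.2⟫
        * ⟪F q.1, N q.2⟫ ∂((volM V F).prod (volM V F)) →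
      ∫ q, RS (dat F N e q) ∂((volM V F).prod (volM V F)) < tS * (volM V F).real univ ^ 2 →
      ∃ (b : OrthonormalBasis (Fin (m + 2)) ℝ W) (S : Finset (Fin (m + 2))), S.card = cd ∧
        kS * ((volM V F).real univ * Dw N b S)
          ≤ ∫ q, RS (dat F N e q) ∂((volM V F).prod (volM V F)))
    -- the bound of the mean normal
    {K : ℝ} (hK : 0 < K)
    (hone : ∀ N : M → W, TwoG (volM V F) m F N → ∀ (b : OrthonormalBasis (Fin (m + 2)) ℝ W)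
      (S : Finset (Fin (m + 2))), S.card = cd →
      ‖∫ x, N x ∂(volM V F)‖ ≤ K * Dw N b S)
    (hn1 : γ * u0 ≤ tT) (hn2 : (K * γ) ^ 2 * u0 ≤ kT ^ 2)
    (hs1 : gs < tS) (hs2 : (K * gs) ^ 2 < kS ^ 2 * u0)
    (hle : (volM V F).real univ ≤ C * sphereVol m) :
    (volM V F).real univ = C * sphereVol m ∧ Injective F ∧
      ∃ (N : M → W) (b : OrthonormalBasis (Fin (m + 2)) ℝ W) (S : Finset (Fin (m + 2))),
        ContMDiff 𝓘(ℝ, V) 𝓘(ℝ, W) ∞ N ∧ (∀ x, IsUnitNormal V F x (N x)) ∧ S.card = cd ∧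
        ∀ x, N x = ∑ i, ((if i ∈ S then α else -(1 / α)) * ⟪F x, b i⟫) • b i := by
  have hm0 : 0 < finrank ℝ V := by omega
  have hfin : IsFiniteMeasure (volM V F) := isFiniteMeasure_volM hF
  have hne : Nonempty M := inferInstance
  set A := (volM V F).real univ with hA
  set S := sphereVol m with hS
  have hS0 : 0 < S := sphereVol_pos' _
  have hSV : sphereVol (finrank ℝ V) = S := by rw [hV]
  have hA0 : 0 < A := by
    have : 0 < Θ1 * S := by positivity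
    linarith
  have hinj : Injective F := by
    by_contra hinj
    have h2 := TwoSide.two_le (by omega) hW hF hmin hinj
    rw [hSV] at h2
    have h3 := mul_lt_mul_of_pos_right hC2 hS0
    linarith
  obtain ⟨N, hNs, hN, htop, hor⟩ := exists_normal_or hW hm0 hF hinj
  rw [hSV] at htop
  obtain ⟨B, hE⟩ := embD_of_inj hm0 hW hF hmin hNs hN hinj
  rw [hSV, hV] at hE
  have hG := hE.toTwoG
  -- the opposite normal
  have hN' : ∀ x, IsUnitNormal V F x (-N x) := fun x =>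
    ⟨by rw [norm_neg]; exact (hN x).1, by rw [inner_neg_right, (hN x).2.1, neg_zero],
      fun i => by rw [inner_neg_right, (hN x).2.2 i, neg_zero]⟩
  obtain ⟨B', hE'⟩ := embD_of_inj hm0 hW hF hmin hNs.neg hN' hinj
  rw [hSV, hV] at hE'
  have hG' := hE'.toTwoG
  set e : W := A⁻¹ • ∫ x, N x ∂(volM V F) with he
  have he' : A • e = ∫ x, N x ∂(volM V F) := by
    rw [he, smul_smul, mul_inv_cancel₀ hA0.ne', one_smul]
  have hn : ‖∫ x, N x ∂(volM V F)‖ = A * ‖e‖ := by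
    rw [← he', norm_smul, Real.norm_eq_abs, abs_of_pos hA0]
  have hn' : ‖∫ x, -N x ∂(volM V F)‖ = A * ‖e‖ := by
    rw [integral_neg, norm_neg, hn]
  rw [hn] at htop
  set Θ := A / S with hΘd
  have hAS : A = Θ * S := by rw [hΘd]; field_simp
  have h1 : Θ1 ≤ Θ := by
    rw [hΘd, le_div_iff₀ hS0]
    exact hΘ
  have h2 : Θ ≤ C := by
    rw [hΘd, div_le_iff₀ hS0]
    exact hle
  have h3 : Θ * ‖e‖ ≤ 1 := by
    have : S * (Θ * ‖e‖) ≤ S * 1 := by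
      calc S * (Θ * ‖e‖) = A * ‖e‖ := by rw [hAS]; ring
        _ ≤ S := htop
        _ = S * 1 := (mul_one S).symm
    exact le_of_mul_le_mul_left this hS0
  have h4 : Θ ^ 2 * ‖e‖ ^ 2 ≤ 1 := by
    have h0 : 0 ≤ Θ * ‖e‖ := mul_nonneg (by linarith) (norm_nonneg _)
    calc Θ ^ 2 * ‖e‖ ^ 2 = (Θ * ‖e‖) ^ 2 := by ring
      _ ≤ 1 := pow_le_one₀ h0 h3
  have h5 : ‖e‖ ^ 2 ≤ 25 / 36 := by
    have h6 : (6 / 5 : ℝ) ^ 2 ≤ Θ ^ 2 := pow_le_pow_left₀ (by norm_num) (hΘ1.trans h1) 2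
    have h7 := mul_le_mul_of_nonneg_right h6 (sq_nonneg ‖e‖)
    linarith
  have hA2 : 0 < A ^ 2 := by positivity
  have hint : ∀ {H : R9 → ℝ} (n : M → W) (v : W), TwoG (volM V F) m F n → Continuous H →
      Integrable (fun q => H (dat F n v q)) ((volM V F).prod (volM V F)) :=
    fun n v hg hH => integrable_param _ (measurable_dat hg.toPts v) (isCompact_KE (bE v))
      (dat_mem hg.toPts v) hH.measurable hH.continuousOn
  -- the mean normal is small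
  have hu : ‖e‖ ^ 2 < u0 := by
    by_contra hu
    rw [not_lt] at hu
    have hRc : Continuous fun d : R9 => RS d + κ2 * d 0 ^ 3 := hRSc.add (by fun_prop)
    obtain ⟨r, hr1, hr2, hr3⟩ := lawS6 hE (by omega) he' hA0 hRc hl
      (fun x N y w hx hN hy hw hxN hyw hs => hpos e x N y w h5 hx hN hy hw hxN hyw hs)
    rw [← hA] at hr3
    have h8 := hlaw Θ (‖e‖ ^ 2) r h1 h2 hu h4 hr1 hr2
    have h10 : ∀ c : ℝ, A * c = S * (Θ * c) := fun c => by rw [hAS]; ring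
    have h9 := mul_le_mul_of_nonneg_left (mul_le_mul_of_nonneg_left h8 hS0.le) hA0.le
    have h11 : ∫ q, (RS (dat F N e q) + κ2 * dat F N e q 0 ^ 3)
        ∂((volM V F).prod (volM V F)) ≤ A ^ 2 * gs := by
      refine hr3.trans ?_
      rw [h10 (b0 + (b1 + b2 + b3) * ‖e‖ ^ 2 + (b4 + b7) * r
          + (b5 + b6) * (‖e‖ ^ 2) ^ 2 + b8 * ((‖e‖ ^ 2 - r) / ((m : ℝ) + 1)))]
      have h12 : A ^ 2 * gs = A * (S * (Θ * gs)) := by rw [← h10]; ring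
      rw [h12]
      refine le_trans (le_of_eq ?_) h9
      ring
    have iS3 : Integrable (fun q => dat F N e q 0 ^ 3) ((volM V F).prod (volM V F)) :=
      hint (H := fun d => d 0 ^ 3) N e hG (by fun_prop)
    have iRS : Integrable (fun q => RS (dat F N e q)) ((volM V F).prod (volM V F)) :=
      hint N e hG hRSc
    have hQ0 : 0 ≤ ∫ q, dat F N e q 0 ^ 3 ∂((volM V F).prod (volM V F)) :=
      SO.k00 (μ := volM V F) (p := F) ⟨hG.mp, hG.np⟩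
    have h13 : ∫ q, RS (dat F N e q) ∂((volM V F).prod (volM V F)) ≤ A ^ 2 * gs := by
      rw [integral_add iRS (iS3.const_mul κ2), integral_const_mul] at h11
      have := mul_nonneg hκ2 hQ0
      linarith
    have hRS1 : ∫ q, RS (dat F N e q) ∂((volM V F).prod (volM V F)) < tS * A ^ 2 := by
      have h15 := mul_lt_mul_of_pos_right hs1 hA2
      linarith
    obtain ⟨b, S', hS4, hD⟩ := hsS e N hG hor hRS1
    have hone' := hone N hG b S' hS4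
    rw [hn] at hone'
    exact arithSo hA0 hkS hK.le hgs (norm_nonneg e) h13 hD hone' hu hs2
  -- the law with a parameter
  have key2 := lawT_odd hmh hm hE' hA0 l hr hok (fun t ht _ => hw t ht) (hRn _ hG')
    (hR0 _ hG') hposT (R := fun d => RT d + κ * d 0 ^ 3) (hRTc.add (by fun_prop))
    (γ := γ) (c0 := c0) (fun x N y w a1 a2 a3 a4 a5 a6 => h0 x N y w a1 a2 a3 a4 a5 a6)
  rw [hfl, hn', ← hA] at key2
  have iS3 : Integrable (fun q => dat F (fun x => -N x) (0 : W) q 0 ^ 3)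
      ((volM V F).prod (volM V F)) :=
    hint (H := fun d => d 0 ^ 3) (fun x => -N x) 0 hG' (by fun_prop)
  have iRT : Integrable (fun q => RT (dat F (fun x => -N x) (0 : W) q))
      ((volM V F).prod (volM V F)) := hint (fun x => -N x) 0 hG' hRTc
  have hval : ∫ q, (RT (dat F (fun x => -N x) (0 : W) q)
      + κ * dat F (fun x => -N x) (0 : W) q 0 ^ 3) ∂((volM V F).prod (volM V F))
      = ∫ q, RT (dat F (fun x => -N x) (0 : W) q) ∂((volM V F).prod (volM V F))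
        + κ * ∫ q, dat F (fun x => -N x) (0 : W) q 0 ^ 3 ∂((volM V F).prod (volM V F)) := by
    rw [integral_add iRT (iS3.const_mul κ), integral_const_mul]
  rw [hval] at key2
  have hQ0 : 0 ≤ ∫ q, dat F (fun x => -N x) (0 : W) q 0 ^ 3 ∂((volM V F).prod (volM V F)) :=
    SO.k00 (μ := volM V F) (p := F) ⟨hG.mp, hG.np⟩
  set Q := ∫ q, dat F (fun x => -N x) (0 : W) q 0 ^ 3 ∂((volM V F).prod (volM V F)) with hQ
  set R := ∫ q, RT (dat F (fun x => -N x) (0 : W) q) ∂((volM V F).prod (volM V F)) with hR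
  have hκQ : 0 ≤ κ * Q := mul_nonneg hκ hQ0
  have hk3 : R ≤ γ * (‖e‖ ^ 2 * A ^ 2) - (C * S * A - A ^ 2) := by
    have h6 : (A * ‖e‖) ^ 2 = ‖e‖ ^ 2 * A ^ 2 := by ring
    rw [h6] at key2
    have h7 : c0 * (C * S * A + (R + κ * Q)) ≤ c0 * (A ^ 2 + γ * (‖e‖ ^ 2 * A ^ 2)) := by
      linarith
    have h8 := le_of_mul_le_mul_left h7 hc0
    linarith
  have hCA : A ^ 2 ≤ C * S * A := by
    have := mul_le_mul_of_nonneg_right hle hA0.le
    linarith [sq A]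
  have hk4 : R ≤ γ * (‖e‖ ^ 2 * A ^ 2) := by linarith
  have hRs : R < tT * A ^ 2 := by
    have h6 : ‖e‖ ^ 2 * A ^ 2 < u0 * A ^ 2 := mul_lt_mul_of_pos_right hu hA2
    have h7 := mul_lt_mul_of_pos_left h6 hγ
    have h9 := mul_le_mul_of_nonneg_right hn1 hA2.le
    linarith
  obtain ⟨b, S', hS4, hD⟩ := hsT N hG hor hRs
  set D := Dw N b S' with hDd
  set D' := ∫ x, ‖devA α b S' (F x) (N x)‖ ^ 2 ∂(volM V F) with hDd'
  have hD0' : 0 ≤ D' := integral_nonneg fun x => by positivity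
  have hD0 : 0 ≤ D := hD0'.trans (hDw N hG b S')
  have hone' := hone N hG b S' hS4
  rw [hn, ← hDd] at hone'
  -- the mean normal vanishes
  have he0 : ‖e‖ = 0 := arithTo hA0 hkT hK.le (norm_nonneg e) hk4 hD hone' hu hn2 hγ hK
  rw [he0] at hk3
  have hR0' : 0 ≤ R := by
    have : 0 ≤ kT * (A * D) := by positivity
    linarith
  have hAC : A = C * S := by
    have h7 : C * S * A - A ^ 2 ≤ 0 := by linarith
    have h8 : A * (C * S) ≤ A * A := by linarith [sq A]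
    exact le_antisymm hle (le_of_mul_le_mul_left h8 hA0)
  have hDz : D = 0 := by
    have h6 : (kT * A) * D ≤ (kT * A) * 0 := by
      have h9 : (kT * A) * D = kT * (A * D) := by ring
      rw [h9]
      rw [hAC] at hk3
      have h10 : R ≤ 0 := by linarith
      linarith
    exact le_antisymm (le_of_mul_le_mul_left h6 (by positivity)) hD0
  have hDz' : D' = 0 := le_antisymm ((hDw N hG b S').trans hDz.le) hD0'
  refine ⟨hAC, hinj, N, b, S', hNs, hN, hS4, fun x => ?_⟩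
  have hcF : Continuous F := hF.smooth.continuous
  have hcN : Continuous N := hNs.continuous
  have hop : (volM V F).IsOpenPosMeasure :=
    ⟨fun U hU hne => (volM_pos_of_isOpen hW hF hU hne).ne'⟩
  have hcd : Continuous fun x => ‖devA α b S' (F x) (N x)‖ ^ 2 := by
    unfold devA
    fun_prop
  have hi : Integrable (fun x => ‖devA α b S' (F x) (N x)‖ ^ 2) (volM V F) :=
    FV.integrable_of_cont (volM V F) hcd
  have hz := (integral_eq_zero_iff_of_nonneg (fun x => by positivity) hi).1 (hDd' ▸ hDz')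
  have hz2 : (fun x => ‖devA α b S' (F x) (N x)‖ ^ 2) = fun _ => (0 : ℝ) :=
    (Continuous.ae_eq_iff_eq (volM V F) hcd continuous_const).1 hz
  have h6 : ‖devA α b S' (F x) (N x)‖ ^ 2 = 0 := congrFun hz2 x
  rw [pow_eq_zero_iff two_ne_zero, norm_eq_zero] at h6
  unfold devA at h6
  exact sub_eq_zero.1 h6

end

section

variable {X : Type*} [MeasurableSpace X] {E : Type*} [NormedAddCommGroup E]
  [InnerProductSpace ℝ E] [FiniteDimensional ℝ E] [MeasurableSpace E] [BorelSpace E]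
  {μ : Measure X} [IsFiniteMeasure μ] {p n : X → E} {m : ℕ}

/-- the weighted distance from a Clifford configuration -/
noncomputable def devW {k : ℕ} (w0 α : ℝ) (b : OrthonormalBasis (Fin k) ℝ E) (S : Finset (Fin k))
    (x N : E) : ℝ :=
  ∑ i, (if i ∈ S then 1 else w0) * (⟪N, b i⟫ - (if i ∈ S then α else -(1 / α)) * ⟪x, b i⟫) ^ 2

lemma devA_le {k : ℕ} {w0 : ℝ} (h0 : 1 ≤ w0) (α : ℝ) (b : OrthonormalBasis (Fin k) ℝ E)
    (S : Finset (Fin k)) (x N : E) : ‖devA α b S x N‖ ^ 2 ≤ devW w0 α b S x N := by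
  rw [devA_sq]
  unfold devW
  refine Finset.sum_le_sum fun i _ => ?_
  have h1 : (1 : ℝ) ≤ (if i ∈ S then 1 else w0) := by split_ifs; exacts [le_rfl, h0]
  have h2 := mul_le_mul_of_nonneg_right h1
    (sq_nonneg (⟪N, b i⟫ - (if i ∈ S then α else -(1 / α)) * ⟪x, b i⟫))
  refine le_trans (le_of_eq ?_) h2
  ring

lemma integrable_devW (hp : SO.UF p) (hn : SO.UF n) {k : ℕ} (w0 α : ℝ)
    (b : OrthonormalBasis (Fin k) ℝ E) (S : Finset (Fin k)) :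
    Integrable (fun x => devW w0 α b S (p x) (n x)) μ ∧
    ∫ x, devW w0 α b S (p x) (n x) ∂μ = ∑ i, (if i ∈ S then 1 else w0) *
      (SO.mom μ n n (b i) (b i)
      - 2 * (if i ∈ S then α else -(1 / α)) * SO.mom μ p n (b i) (b i)
      + (if i ∈ S then α else -(1 / α)) ^ 2 * SO.mom μ p p (b i) (b i)) := by
  have i1 : ∀ i, Integrable (fun x => ⟪n x, b i⟫ * ⟪n x, b i⟫) μ :=
    fun i => hn.integrable_mul hn _ _
  have i2 : ∀ i, Integrable (fun x => 2 * (if i ∈ S then α else -(1 / α))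
      * (⟪p x, b i⟫ * ⟪n x, b i⟫)) μ :=
    fun i => (hp.integrable_mul hn _ _).const_mul _
  have i3 : ∀ i, Integrable (fun x => (if i ∈ S then α else -(1 / α)) ^ 2
      * (⟪p x, b i⟫ * ⟪p x, b i⟫)) μ :=
    fun i => (hp.integrable_mul hp _ _).const_mul _
  have i4 : ∀ i, Integrable (fun x => ⟪n x, b i⟫ * ⟪n x, b i⟫
      - 2 * (if i ∈ S then α else -(1 / α)) * (⟪p x, b i⟫ * ⟪n x, b i⟫)) μ :=
    fun i => (i1 i).sub (i2 i)
  have i5 : ∀ i, Integrable (fun x => ⟪n x, b i⟫ * ⟪n x, b i⟫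
      - 2 * (if i ∈ S then α else -(1 / α)) * (⟪p x, b i⟫ * ⟪n x, b i⟫)
      + (if i ∈ S then α else -(1 / α)) ^ 2 * (⟪p x, b i⟫ * ⟪p x, b i⟫)) μ :=
    fun i => (i4 i).add (i3 i)
  have e : ∀ x, devW w0 α b S (p x) (n x) = ∑ i, (if i ∈ S then 1 else w0)
      * (⟪n x, b i⟫ * ⟪n x, b i⟫
      - 2 * (if i ∈ S then α else -(1 / α)) * (⟪p x, b i⟫ * ⟪n x, b i⟫)
      + (if i ∈ S then α else -(1 / α)) ^ 2 * (⟪p x, b i⟫ * ⟪p x, b i⟫)) := by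
    intro x
    unfold devW
    refine Finset.sum_congr rfl fun i _ => ?_
    ring
  simp only [e]
  refine ⟨integrable_finsetSum _ fun i _ => (i5 i).const_mul _, ?_⟩
  rw [integral_finsetSum _ fun i _ => (i5 i).const_mul _]
  refine Finset.sum_congr rfl fun i _ => ?_
  rw [integral_const_mul, integral_add (i4 i) (i3 i), integral_sub (i1 i) (i2 i),
    integral_const_mul, integral_const_mul]
  rfl

/-- the stable resources from stable scalar inequalities, weighted -/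
theorem stabKW (hE : finrank ℝ E = m + 2) (hm : m ≠ 0) (h : TwoG μ m p n) [Nonempty X]
    (hsp : ∀ w, (∀ x, ⟪p x, w⟫ = 0) → w = 0)
    (hor : 0 ≤ ∫ q : X × X, ⟪p q.1, p q.2⟫ * ⟪p q.1, n q.2⟫ ∂(μ.prod μ))
    (hA : 0 < μ.real univ) {α r w w0 : ℝ} (hα : 0 < α) (hw : α ^ 2 = w) (hr : 0 < r)
    (hrα : ((m : ℝ) + 1) * α = 2 * r)
    -- the scalar inequality
    {T0 k1 B c q lamu lamv g1 g' t κ Z a2 b2 c2 a1 c1 : ℝ} {cd : ℕ}
    (hB : B = ((m : ℝ) + 1) ^ 2 * w) (hq : q = ((m : ℝ) + 1) * w) (hg1 : g1 = (m : ℝ) + 2)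
    (hg' : g' = 2 * ((m : ℝ) + 1) + ((m : ℝ) + 1) / (2 * r ^ 2))
    (hc2 : c2 = w / ((m : ℝ) + 1)) (ha2 : a2 = 1 - c2) (hb2 : b2 = 2 * w)
    (hc1 : c1 = 1 / (w * ((m : ℝ) + 1))) (ha1 : a1 = 1 - c1)
    (hst : ∀ d x : Fin (m + 2) → ℝ, (∀ i, q * x i ^ 2 ≤ d i - d i ^ 2) → ∑ i, d i = 1 →
      ∑ i, x i = 0 → ∑ i, d i * x i ≤ 0 →
      T0 + (k1 * ∑ i, d i ^ 2 - B * ∑ i, x i ^ 2 - c * ∑ i, d i * x i)
        + ∑ i, (lamu * (d i - d i ^ 2 - q * x i ^ 2) + lamv * ((1 - g1 * d i - 2 * x i) ^ 2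
          + g' * (d i - d i ^ 2 - q * x i ^ 2))) < t →
      (SO.Rt Z x).card = cd ∧
        κ * ∑ i, (if Z ≤ x i then a2 * d i - b2 * x i + c2 else w0 * (a1 * d i + 2 * x i + c1))
        ≤ T0 + (k1 * ∑ i, d i ^ 2 - B * ∑ i, x i ^ 2 - c * ∑ i, d i * x i)
        + ∑ i, (lamu * (d i - d i ^ 2 - q * x i ^ 2) + lamv * ((1 - g1 * d i - 2 * x i) ^ 2
          + g' * (d i - d i ^ 2 - q * x i ^ 2))))
    {ρ k0 cc lu lv : ℝ} (hρ : 0 < ρ) (hT0 : T0 = k0 * ((m : ℝ) + 1) ^ 2 + k1 * m)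
    (hcc : c ≤ cc * (((m : ℝ) + 1) * α))
    (h1 : lamu * ρ ≤ ((m : ℝ) + 1) / 2 * lu) (h2 : lamv * ρ ≤ lv)
    (h3 : (m + 1) * lu / 2 ≤ ρ * k1 + lv * (1 + ((m : ℝ) + 1) ^ 2
      - ((m : ℝ) + 1) / (2 * r ^ 2)))
    (hR : ((m : ℝ) + 1) ^ 2 * ∫ q : X × X, (ρ * (k0 + k1 * ⟪p q.1, p q.2⟫ ^ 2
              - ⟪p q.1, p q.2⟫ * ⟪n q.1, n q.2⟫
              + cc * (⟪p q.1, p q.2⟫ * ((⟪p q.1, n q.2⟫ + ⟪n q.1, p q.2⟫) / 2)))
            + lu * ((⟪p q.1, n q.2⟫ - ⟪n q.1, p q.2⟫) / 2) ^ 2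
            + lv * (⟪n q.1, n q.2⟫ - ⟪p q.1, p q.2⟫
              + 1 / r * ((⟪p q.1, n q.2⟫ + ⟪n q.1, p q.2⟫) / 2)) ^ 2) ∂(μ.prod μ)
        < t * ρ * μ.real univ ^ 2) :
    ∃ (b : OrthonormalBasis (Fin (m + 2)) ℝ E) (S : Finset (Fin (m + 2))), S.card = cd ∧
      κ * ρ * (μ.real univ * ∫ x, devW w0 α b S (p x) (n x) ∂μ)
        ≤ ((m : ℝ) + 1) ^ 2 * ∫ q : X × X, (ρ * (k0 + k1 * ⟪p q.1, p q.2⟫ ^ 2
              - ⟪p q.1, p q.2⟫ * ⟪n q.1, n q.2⟫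
              + cc * (⟪p q.1, p q.2⟫ * ((⟪p q.1, n q.2⟫ + ⟪n q.1, p q.2⟫) / 2)))
            + lu * ((⟪p q.1, n q.2⟫ - ⟪n q.1, p q.2⟫) / 2) ^ 2
            + lv * (⟪n q.1, n q.2⟫ - ⟪p q.1, p q.2⟫
              + 1 / r * ((⟪p q.1, n q.2⟫ + ⟪n q.1, p q.2⟫) / 2)) ^ 2) ∂(μ.prod μ) := by
  have hp : SO.UF p := ⟨h.mp, h.np⟩
  have hn : SO.UF n := ⟨h.mn, h.nn⟩
  have hM : (0 : ℝ) < (m : ℝ) + 1 := by positivity
  obtain ⟨b, d, x, hd, hd1, hx0, hDX, m1, m2, m3, hres⟩ := SO.resGV hE hm h hsp hor hA hα hr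
  have h4 := hres k0 k1 ρ cc lu lv h3
  set A := μ.real univ with hAd
  set M : ℝ := (m : ℝ) + 1 with hMd
  have hw0 : 0 < w := by rw [← hw]; positivity
  rw [hw] at hd h4
  have hqd : ∀ i, q * x i ^ 2 ≤ d i - d i ^ 2 := fun i => by rw [hq]; exact hd i
  have hW : 0 ≤ ∑ i, (d i - d i ^ 2 - q * x i ^ 2) :=
    Finset.sum_nonneg fun i _ => by linarith [hqd i]
  have hg'0 : 0 ≤ g' := by rw [hg']; positivity
  have hG : 0 ≤ ∑ i, ((1 - g1 * d i - 2 * x i) ^ 2 + g' * (d i - d i ^ 2 - q * x i ^ 2)) :=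
    Finset.sum_nonneg fun i _ => add_nonneg (sq_nonneg _)
      (mul_nonneg hg'0 (by linarith [hqd i]))
  -- the sums
  have eW : ∑ i, (d i - d i ^ 2 - q * x i ^ 2) = 1 - ∑ i, d i ^ 2 - q * ∑ i, x i ^ 2 := by
    rw [Finset.sum_sub_distrib, Finset.sum_sub_distrib, hd1, ← Finset.mul_sum]
  have eG : ∑ i, ((1 - g1 * d i - 2 * x i) ^ 2 + g' * (d i - d i ^ 2 - q * x i ^ 2))
      = (m + 2) - 2 * g1 + g1 ^ 2 * ∑ i, d i ^ 2 + 4 * ∑ i, x i ^ 2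
        + 4 * g1 * ∑ i, d i * x i + g' * (1 - ∑ i, d i ^ 2 - q * ∑ i, x i ^ 2) := by
    rw [Finset.sum_add_distrib, ← Finset.mul_sum, eW]
    have e1 : ∀ i, (1 - g1 * d i - 2 * x i) ^ 2 = 1 - 2 * g1 * d i - 4 * x i
        + g1 ^ 2 * d i ^ 2 + 4 * x i ^ 2 + 4 * g1 * (d i * x i) := fun i => by ring
    simp only [e1, Finset.sum_add_distrib, Finset.sum_sub_distrib, ← Finset.mul_sum, hd1, hx0,
      Finset.sum_const, Finset.card_univ, Fintype.card_fin, nsmul_eq_mul]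
    push_cast
    ring
  have eL : ∑ i, (lamu * (d i - d i ^ 2 - q * x i ^ 2) + lamv * ((1 - g1 * d i - 2 * x i) ^ 2
          + g' * (d i - d i ^ 2 - q * x i ^ 2)))
      = lamu * ∑ i, (d i - d i ^ 2 - q * x i ^ 2)
        + lamv * ∑ i, ((1 - g1 * d i - 2 * x i) ^ 2 + g' * (d i - d i ^ 2 - q * x i ^ 2)) := by
    rw [Finset.sum_add_distrib, Finset.mul_sum, Finset.mul_sum]
  set P := ∑ i, d i ^ 2 with hP
  set Q := ∑ i, x i ^ 2 with hQ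
  set DX := ∑ i, d i * x i with hDXd
  set W := ∑ i, (d i - d i ^ 2 - q * x i ^ 2) with hWd
  set G := ∑ i, ((1 - g1 * d i - 2 * x i) ^ 2 + g' * (d i - d i ^ 2 - q * x i ^ 2)) with hGd
  have hA2 : 0 < A ^ 2 := by positivity
  have hαr : α / r = 2 / M := by
    rw [div_eq_div_iff hr.ne' hM.ne']
    linarith
  have hr2 : r ^ 2 = M ^ 2 * w / 4 := by
    have h5 : r = M * α / 2 := by linarith
    rw [h5, ← hw]
    ring
  -- the comparison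
  have h5 : A ^ 2 * (ρ * (T0 + (k1 * P - B * Q - c * DX) + (lamu * W + lamv * G)))
      ≤ A ^ 2 * (ρ * (k0 * M ^ 2 + k1 * (m + P) - M ^ 2 * w * Q) - ρ * cc * (M * α) * DX
            + lu * (M / 2) * (1 - P - M * w * Q)
            + lv * ((m + P) + M ^ 2 * P - 2 * (M ^ 2 * w) * Q
              + M / (2 * r ^ 2) * (1 - P + M * w * Q)
              + 2 * M * (m + 2) * (α / r) * DX)) := by
    refine mul_le_mul_of_nonneg_left ?_ hA2.le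
    have h6 : ρ * (cc * (M * α)) * DX ≤ ρ * c * DX :=
      mul_le_mul_of_nonpos_right (mul_le_mul_of_nonneg_left hcc hρ.le) hDX
    have h7 := mul_le_mul_of_nonneg_right h1 hW
    have h8 := mul_le_mul_of_nonneg_right h2 hG
    have e2 : (m + P) + M ^ 2 * P - 2 * (M ^ 2 * w) * Q
              + M / (2 * r ^ 2) * (1 - P + M * w * Q)
              + 2 * M * (m + 2) * (α / r) * DX = G := by
      rw [eG, hαr, hg1, hg', hq, hr2]
      have hmM : (m : ℝ) = M - 1 := by rw [hMd]; ring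
      rw [hmM]
      field_simp
      ring
    have e3 : 1 - P - M * w * Q = W := by rw [eW, hq]
    rw [e2, e3, hT0, hB]
    rw [hB] at *
    linarith
  have hS : T0 + (k1 * P - B * Q - c * DX) + (lamu * W + lamv * G) < t := by
    refine lt_of_mul_lt_mul_left (a := A ^ 2 * ρ) ?_ (by positivity)
    calc A ^ 2 * ρ * (T0 + (k1 * P - B * Q - c * DX) + (lamu * W + lamv * G))
        = A ^ 2 * (ρ * (T0 + (k1 * P - B * Q - c * DX) + (lamu * W + lamv * G))) := by ring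
      _ ≤ _ := h5
      _ ≤ _ := h4
      _ < t * ρ * A ^ 2 := hR
      _ = A ^ 2 * ρ * t := by ring
  obtain ⟨q1, q2⟩ := hst d x hqd hd1 hx0 hDX (by rw [eL]; exact hS)
  rw [eL] at q2
  refine ⟨b, SO.Rt Z x, q1, ?_⟩
  have hdev : ∫ y, devW w0 α b (SO.Rt Z x) (p y) (n y) ∂μ
      = A * ∑ i, (if Z ≤ x i then a2 * d i - b2 * x i + c2 else w0 * (a1 * d i + 2 * x i + c1)) := by
    rw [(integrable_devW hp hn w0 α b (SO.Rt Z x)).2, Finset.mul_sum]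
    refine Finset.sum_congr rfl fun i _ => ?_
    rw [m1, m2, m3]
    by_cases hi : Z ≤ x i
    · rw [if_pos hi, if_pos (SO.mem_Rt.2 hi), if_pos (SO.mem_Rt.2 hi), ha2, hb2, hc2, ← hw]
      field_simp
      ring
    · rw [if_neg hi, if_neg (fun hh => hi (SO.mem_Rt.1 hh)), if_neg (fun hh => hi (SO.mem_Rt.1 hh)),
        ha1, hc1, ← hw]
      field_simp
      ring
  rw [hdev]
  calc κ * ρ * (A * (A * ∑ i, (if Z ≤ x i then a2 * d i - b2 * x i + c2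
        else w0 * (a1 * d i + 2 * x i + c1))))
      = A ^ 2 * ρ * (κ * ∑ i, (if Z ≤ x i then a2 * d i - b2 * x i + c2
        else w0 * (a1 * d i + 2 * x i + c1))) := by ring
    _ ≤ A ^ 2 * ρ * (T0 + (k1 * P - B * Q - c * DX) + (lamu * W + lamv * G)) :=
        mul_le_mul_of_nonneg_left q2 (by positivity)
    _ = A ^ 2 * (ρ * (T0 + (k1 * P - B * Q - c * DX) + (lamu * W + lamv * G))) := by ring
    _ ≤ _ := h5
    _ ≤ _ := h4

end

section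

variable {V W M : Type*} [NormedAddCommGroup V] [InnerProductSpace ℝ V] [FiniteDimensional ℝ V]
  [NormedAddCommGroup W] [InnerProductSpace ℝ W] [FiniteDimensional ℝ W]
  [TopologicalSpace M] [ChartedSpace V M]
  [MeasurableSpace V] [BorelSpace V] [MeasurableSpace M] [BorelSpace M]
  [IsManifold 𝓘(ℝ, V) ∞ M] [CompactSpace M] [T2Space M] [ConnectedSpace M]
  [MeasurableSpace W] [BorelSpace W]

/-- **The sharp bound and its equality case in odd dimension**, from the two certificates and the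
scalar inequalities, with a weight on the small block. -/
theorem core_KW {m h : ℕ} (hmh : m = 2 * h + 1) (hm : 4 < m) (hV : finrank ℝ V = m)
    (hW : finrank ℝ W = finrank ℝ V + 2)
    {F : M → W} (hF : SphImm V F) (hmin : ∀ x n, IsUnitNormal V F x n → meanCurv V F x n = 0)
    (hng : ¬ ∃ a : W, a ≠ 0 ∧ ∀ x, ⟪F x, a⟫ = 0)
    {C Θ1 : ℝ} (hC2 : C < 2) (hΘ1 : 6 / 5 ≤ Θ1)
    (hΘ : Θ1 * sphereVol m ≤ (volM V F).real univ)
    -- the constants of the Clifford configuration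
    {α r w kr w0 : ℝ} (hw0 : 1 ≤ w0) (hα : 0 < α) (hw : α ^ 2 = w) (hr : 0 < r)
    (hrα : ((m : ℝ) + 1) * α = 2 * r) (hkr : kr = 1 / r)
    {T0 k0 k1 B c q g1 g' a2 b2 c2 a1 c1 cc : ℝ} {cd : ℕ}
    (hB : B = ((m : ℝ) + 1) ^ 2 * w) (hq : q = ((m : ℝ) + 1) * w) (hg1 : g1 = (m : ℝ) + 2)
    (hg' : g' = 2 * ((m : ℝ) + 1) + ((m : ℝ) + 1) / (2 * r ^ 2))
    (hc2 : c2 = w / ((m : ℝ) + 1)) (ha2 : a2 = 1 - c2) (hb2 : b2 = 2 * w)
    (hc1 : c1 = 1 / (w * ((m : ℝ) + 1))) (ha1 : a1 = 1 - c1)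
    (hT0 : T0 = k0 * ((m : ℝ) + 1) ^ 2 + k1 * m) (hcc : c ≤ cc * (((m : ℝ) + 1) * α))
    -- the scalar inequalities
    {lamu lamv lams t1 κ1 t2 κ2 Z Z' : ℝ} (hκ1 : 0 < κ1) (hκ2 : 0 < κ2)
    (hst1 : ∀ d x : Fin (m + 2) → ℝ, (∀ i, q * x i ^ 2 ≤ d i - d i ^ 2) → ∑ i, d i = 1 →
      ∑ i, x i = 0 → ∑ i, d i * x i ≤ 0 →
      T0 + (k1 * ∑ i, d i ^ 2 - B * ∑ i, x i ^ 2 - c * ∑ i, d i * x i)
        + ∑ i, (lamu * (d i - d i ^ 2 - q * x i ^ 2) + lamv * ((1 - g1 * d i - 2 * x i) ^ 2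
          + g' * (d i - d i ^ 2 - q * x i ^ 2))) < t1 →
      (SO.Rt Z x).card = cd ∧
        κ1 * ∑ i, (if Z ≤ x i then a2 * d i - b2 * x i + c2 else w0 * (a1 * d i + 2 * x i + c1))
        ≤ T0 + (k1 * ∑ i, d i ^ 2 - B * ∑ i, x i ^ 2 - c * ∑ i, d i * x i)
        + ∑ i, (lamu * (d i - d i ^ 2 - q * x i ^ 2) + lamv * ((1 - g1 * d i - 2 * x i) ^ 2
          + g' * (d i - d i ^ 2 - q * x i ^ 2))))
    (hst2 : ∀ d x : Fin (m + 2) → ℝ, (∀ i, q * x i ^ 2 ≤ d i - d i ^ 2) → ∑ i, d i = 1 →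
      ∑ i, x i = 0 → ∑ i, d i * x i ≤ 0 →
      T0 + (k1 * ∑ i, d i ^ 2 - B * ∑ i, x i ^ 2 - c * ∑ i, d i * x i)
        + ∑ i, lams * (d i - d i ^ 2 - q * x i ^ 2) < t2 →
      (SO.Rt Z' x).card = cd ∧
        κ2 * ∑ i, (if Z' ≤ x i then a2 * d i - b2 * x i + c2 else w0 * (a1 * d i + 2 * x i + c1))
        ≤ T0 + (k1 * ∑ i, d i ^ 2 - B * ∑ i, x i ^ 2 - c * ∑ i, d i * x i)
        + ∑ i, lams * (d i - d i ^ 2 - q * x i ^ 2))
    -- the certificate with a parameter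
    {l : List SO.GT} (hr' : ∀ t ∈ l, t.Reg) (hok : ∀ t ∈ l, t.ok h)
    (hw' : ∀ t ∈ l, ∀ x N : W, ‖x‖ = 1 → ‖N‖ = 1 → ⟪x, N⟫ = 0 →
      t.w (dv x N x N 0) = 1)
    {Ro : ℝ → R9 → ℝ} (hRn : ∀ N : M → W, TwoG (volM V F) m F N → ∀ T ∈ Ioo (0 : ℝ) 1,
      Null (volM V F) F N 0 (Ro T))
    {R0 : R9 → ℝ} (hR0 : ∀ N : M → W, TwoG (volM V F) m F N → Null (volM V F) F N 0 R0)
    (hposT : ∀ T ∈ Ioo (0 : ℝ) 1, ∀ x N y w : W, ‖x‖ = 1 → ‖N‖ = 1 → ‖y‖ = 1 → ‖w‖ = 1 →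
      ⟪x, N⟫ = 0 → ⟪y, w⟫ = 0 → SO.gS' (l.map SO.GT.v) T (dv x N y w 0)
        ≤ Ro T (dv x N y w 0))
    {c0 ρ κ γ lu lv : ℝ} (hc0 : 0 < c0) (hρ : 0 < ρ) (hκ : 0 ≤ κ) (hγ : 0 < γ)
    (hl1 : lamu * ρ ≤ ((m : ℝ) + 1) / 2 * lu) (hl2 : lamv * ρ ≤ lv)
    (hl3 : (m + 1) * lu / 2 ≤ ρ * k1 + lv * (1 + ((m : ℝ) + 1) ^ 2
      - ((m : ℝ) + 1) / (2 * r ^ 2)))
    (h0 : ∀ x N y w : W, ‖x‖ = 1 → ‖N‖ = 1 → ‖y‖ = 1 → ‖w‖ = 1 → ⟪x, N⟫ = 0 → ⟪y, w⟫ = 0 →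
      (l.map fun t => t.φ 0 * t.Q (dv x N y w 0)).sum
        ≤ c0 * (1 + γ * dv x N y w (0 : W) 3
          - (ρ * RF k0 k1 (-cc) (dv x N y w 0)
            + κ * dv x N y w (0 : W) 0 ^ 3) + R0 (dv x N y w 0)
          - (lu * ((⟪x, w⟫ - ⟪N, y⟫) / 2) ^ 2
            + lv * (⟪N, w⟫ - ⟪x, y⟫ - kr * ((⟪x, w⟫ + ⟪N, y⟫) / 2)) ^ 2)))
    (hfl : OT.fluxC m h l = c0 * C)
    -- the certificate with the mean normal
    {cs ρ2 κs lus : ℝ} (hcs : c ≤ cs * (((m : ℝ) + 1) * α)) (hρ2 : 0 < ρ2) (hκs : 0 ≤ κs)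
    (hls0 : lams * ρ2 ≤ ((m : ℝ) + 1) / 2 * lus) (hls : (m + 1) * lus / 2 ≤ ρ2 * k1)
    {b0 b1 b2' b3 b4 b5 b6 b7 b8 : ℝ} {l2 : List (ℝ × HTerm)}
    (hl : ∀ cT ∈ l2, cT.2.ok m = true)
    (hpos : ∀ e x N y w : W, ‖e‖ ^ 2 ≤ 25 / 36 → ‖x‖ = 1 → ‖N‖ = 1 → ‖y‖ = 1 → ‖w‖ = 1 →
      ⟪x, N⟫ = 0 → ⟪y, w⟫ = 0 → ⟪x, y⟫ < 1 → 0 ≤
        W9 b0 b1 b2' b3 b4 b5 b6 b7 b8 (dv x N y w e) + hsum m l2 (dv x N y w e)
        - (ρ2 * RF k0 k1 cs (dv x N y w e) + κs * dv x N y w e 0 ^ 3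
          + lus * ((dv x N y w e 1 - dv x N y w e 2) / 2) ^ 2))
    {u0 gs : ℝ} (hgs : 0 ≤ gs)
    (hlaw : ∀ Θ u r : ℝ, Θ1 ≤ Θ → Θ ≤ C → u0 ≤ u → Θ ^ 2 * u ≤ 1 → u ^ 2 ≤ r → r ≤ u →
      Θ * (b0 + (b1 + b2' + b3) * u + (b4 + b7) * r + (b5 + b6) * u ^ 2
        + b8 * ((u - r) / ((m : ℕ) + 1))) + KH m * hval m l2 u r ≤ Θ * gs)
    -- the bound of the mean normal
    {K : ℝ} (hK : 0 < K)
    (hone : ∀ N : M → W, TwoG (volM V F) m F N → ∀ (b : OrthonormalBasis (Fin (m + 2)) ℝ W)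
      (S : Finset (Fin (m + 2))), S.card = cd →
      ‖∫ x, N x ∂(volM V F)‖ ≤ K * ∫ x, devW w0 α b S (F x) (N x) ∂(volM V F))
    (hn1 : ((m : ℝ) + 1) ^ 2 * γ * u0 ≤ t1 * ρ)
    (hn2 : (((m : ℝ) + 1) ^ 2 * K * γ) ^ 2 * u0 ≤ (κ1 * ρ) ^ 2)
    (hs1 : ((m : ℝ) + 1) ^ 2 * gs < t2 * ρ2)
    (hs2 : (((m : ℝ) + 1) ^ 2 * K * gs) ^ 2 < (κ2 * ρ2) ^ 2 * u0)
    (hle : (volM V F).real univ ≤ C * sphereVol m) :
    (volM V F).real univ = C * sphereVol m ∧ Injective F ∧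
      ∃ (N : M → W) (b : OrthonormalBasis (Fin (m + 2)) ℝ W) (S : Finset (Fin (m + 2))),
        ContMDiff 𝓘(ℝ, V) 𝓘(ℝ, W) ∞ N ∧ (∀ x, IsUnitNormal V F x (N x)) ∧ S.card = cd ∧
        ∀ x, N x = ∑ i, ((if i ∈ S then α else -(1 / α)) * ⟪F x, b i⟫) • b i := by
  have hE : finrank ℝ W = m + 2 := by omega
  have hm0 : m ≠ 0 := by omega
  have hfin : IsFiniteMeasure (volM V F) := isFiniteMeasure_volM hF
  have hne : Nonempty M := inferInstance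
  have hS0 : 0 < sphereVol m := sphereVol_pos' _
  have hA0 : 0 < (volM V F).real univ := by
    have : 0 < Θ1 * sphereVol m := by positivity
    linarith
  have hM : (0 : ℝ) < (m : ℝ) + 1 := by positivity
  have hM2 : (0 : ℝ) < ((m : ℝ) + 1) ^ 2 := by positivity
  set M2 : ℝ := ((m : ℝ) + 1) ^ 2 with hM2d
  refine core_oddW hmh hm hV hW hF hmin hC2 hΘ1 hΘ hr' hok hw' hRn hR0 hposT hc0 hκ hγ
    (RT := fun d => ρ * RF k0 k1 (-cc) d
      + (lu * ((d 1 - d 2) / 2) ^ 2 + lv * (d 3 - d 0 - kr * ((d 1 + d 2) / 2)) ^ 2))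
    (((continuous_RF _ _ _).const_mul ρ).add (by fun_prop))
    (fun x N y w a1 a2 a3 a4 a5 a6 => (h0 x N y w a1 a2 a3 a4 a5 a6).trans (le_of_eq (by
      have e0 : dv x N y w (0 : W) 0 = ⟪x, y⟫ := rfl
      have e1 : dv x N y w (0 : W) 1 = ⟪x, w⟫ := rfl
      have e2 : dv x N y w (0 : W) 2 = ⟪N, y⟫ := rfl
      have e3 : dv x N y w (0 : W) 3 = ⟪N, w⟫ := rfl
      rw [← e0, ← e1, ← e2, ← e3]
      ring))) hfl hκs
    (RS := fun d => ρ2 * RF k0 k1 cs d + lus * ((d 1 - d 2) / 2) ^ 2)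
    (((continuous_RF _ _ _).const_mul ρ2).add (by fun_prop)) hl
    (fun e x N y w a0 a1 a2 a3 a4 a5 a6 a7 => (hpos e x N y w a0 a1 a2 a3 a4 a5 a6 a7).trans
      (le_of_eq (by ring))) hgs hlaw (α := α) (kT := κ1 * ρ / M2)
    (tT := t1 * ρ / M2) (kS := κ2 * ρ2 / M2) (tS := t2 * ρ2 / M2) (cd := cd)
    (by positivity) (by positivity)
    (Dw := fun N b S => ∫ x, devW w0 α b S (F x) (N x) ∂(volM V F)) ?_ ?_ ?_ hK hone
    ?_ ?_ ?_ ?_ hle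
  · intro N hG b S
    refine integral_mono ?_ (integrable_devW ⟨hG.mp, hG.np⟩ ⟨hG.mn, hG.nn⟩ w0 α b S).1
      fun x => devA_le hw0 α b S (F x) (N x)
    refine (integrable_devW ⟨hG.mp, hG.np⟩ ⟨hG.mn, hG.nn⟩ 1 α b S).1.congr
      (Eventually.of_forall fun x => ?_)
    simp only [devA_sq]
    unfold devW
    refine Finset.sum_congr rfl fun i _ => ?_
    rw [ite_self]
    ring
  · intro N hG hor hR
    have e : ∫ q, (fun d : R9 => ρ * RF k0 k1 (-cc) d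
          + (lu * ((d 1 - d 2) / 2) ^ 2 + lv * (d 3 - d 0 - kr * ((d 1 + d 2) / 2)) ^ 2))
          (dat F (fun x => -N x) (0 : W) q) ∂((volM V F).prod (volM V F))
          = ∫ q : M × M, (ρ * (k0 + k1 * ⟪F q.1, F q.2⟫ ^ 2
              - ⟪F q.1, F q.2⟫ * ⟪N q.1, N q.2⟫
              + cc * (⟪F q.1, F q.2⟫ * ((⟪F q.1, N q.2⟫ + ⟪N q.1, F q.2⟫) / 2)))
            + lu * ((⟪F q.1, N q.2⟫ - ⟪N q.1, F q.2⟫) / 2) ^ 2
            + lv * (⟪N q.1, N q.2⟫ - ⟪F q.1, F q.2⟫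
              + 1 / r * ((⟪F q.1, N q.2⟫ + ⟪N q.1, F q.2⟫) / 2)) ^ 2)
            ∂((volM V F).prod (volM V F)) := by
        refine integral_congr_ae (Eventually.of_forall fun q => ?_)
        have e0 : dat F (fun x => -N x) (0 : W) q 0 = ⟪F q.1, F q.2⟫ := rfl
        have e1 : dat F (fun x => -N x) (0 : W) q 1 = ⟪F q.1, -N q.2⟫ := rfl
        have e2 : dat F (fun x => -N x) (0 : W) q 2 = ⟪-N q.1, F q.2⟫ := rfl
        have e3 : dat F (fun x => -N x) (0 : W) q 3 = ⟪-N q.1, -N q.2⟫ := rfl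
        simp only [RF, e0, e1, e2, e3, inner_neg_left, inner_neg_right, hkr]
        ring
    rw [e] at hR ⊢
    obtain ⟨b, S, h1, h2⟩ := stabKW hE hm0 hG (sp_of_hng hng) hor hA0 hα hw hr hrα hB hq hg1 hg'
      hc2 ha2 hb2 hc1 ha1 hst1 hρ hT0 hcc hl1 hl2 hl3 (by
        have h3 := mul_lt_mul_of_pos_left hR hM2
        have h4 : M2 * (t1 * ρ / M2 * (volM V F).real univ ^ 2)
            = t1 * ρ * (volM V F).real univ ^ 2 := by field_simp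
        rw [h4] at h3
        exact h3)
    refine ⟨b, S, h1, ?_⟩
    refine le_of_mul_le_mul_left (a := M2) ?_ hM2
    refine le_trans (le_of_eq ?_) h2
    field_simp
  · intro e N hG hor hR
    have e4 : ∫ q, (fun d : R9 => ρ2 * RF k0 k1 cs d + lus * ((d 1 - d 2) / 2) ^ 2)
          (dat F N e q) ∂((volM V F).prod (volM V F))
          = ∫ q : M × M, (ρ2 * (k0 + k1 * ⟪F q.1, F q.2⟫ ^ 2
              - ⟪F q.1, F q.2⟫ * ⟪N q.1, N q.2⟫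
              + cs * (⟪F q.1, F q.2⟫ * ((⟪F q.1, N q.2⟫ + ⟪N q.1, F q.2⟫) / 2)))
            + lus * ((⟪F q.1, N q.2⟫ - ⟪N q.1, F q.2⟫) / 2) ^ 2
            + 0 * (⟪N q.1, N q.2⟫ - ⟪F q.1, F q.2⟫
              + 1 / r * ((⟪F q.1, N q.2⟫ + ⟪N q.1, F q.2⟫) / 2)) ^ 2)
            ∂((volM V F).prod (volM V F)) := by
        refine integral_congr_ae (Eventually.of_forall fun q => ?_)
        have e0 : dat F N e q 0 = ⟪F q.1, F q.2⟫ := rfl
        have e1 : dat F N e q 1 = ⟪F q.1, N q.2⟫ := rfl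
        have e2 : dat F N e q 2 = ⟪N q.1, F q.2⟫ := rfl
        have e3 : dat F N e q 3 = ⟪N q.1, N q.2⟫ := rfl
        simp only [RF, e0, e1, e2, e3]
        ring
    rw [e4] at hR ⊢
    have hst2' : ∀ d x : Fin (m + 2) → ℝ, (∀ i, q * x i ^ 2 ≤ d i - d i ^ 2) → ∑ i, d i = 1 →
      ∑ i, x i = 0 → ∑ i, d i * x i ≤ 0 →
      T0 + (k1 * ∑ i, d i ^ 2 - B * ∑ i, x i ^ 2 - c * ∑ i, d i * x i)
        + ∑ i, (lams * (d i - d i ^ 2 - q * x i ^ 2) + 0 * ((1 - g1 * d i - 2 * x i) ^ 2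
          + g' * (d i - d i ^ 2 - q * x i ^ 2))) < t2 →
      (SO.Rt Z' x).card = cd ∧
        κ2 * ∑ i, (if Z' ≤ x i then a2 * d i - b2 * x i + c2 else w0 * (a1 * d i + 2 * x i + c1))
        ≤ T0 + (k1 * ∑ i, d i ^ 2 - B * ∑ i, x i ^ 2 - c * ∑ i, d i * x i)
        + ∑ i, (lams * (d i - d i ^ 2 - q * x i ^ 2) + 0 * ((1 - g1 * d i - 2 * x i) ^ 2
          + g' * (d i - d i ^ 2 - q * x i ^ 2))) := by
      intro d x p1 p2 p3 p4 p5
      simp only [zero_mul, add_zero] at p5 ⊢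
      exact hst2 d x p1 p2 p3 p4 p5
    obtain ⟨b, S, h1, h2⟩ := stabKW hE hm0 hG (sp_of_hng hng) hor hA0 hα hw hr hrα hB hq hg1 hg'
      hc2 ha2 hb2 hc1 ha1 hst2' hρ2 hT0 hcs hls0 (by rw [zero_mul])
      (by rw [zero_mul, add_zero]; exact hls) (by
        have h3 := mul_lt_mul_of_pos_left hR hM2
        have h4 : M2 * (t2 * ρ2 / M2 * (volM V F).real univ ^ 2)
            = t2 * ρ2 * (volM V F).real univ ^ 2 := by field_simp
        rw [h4] at h3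
        exact h3)
    refine ⟨b, S, h1, ?_⟩
    refine le_of_mul_le_mul_left (a := M2) ?_ hM2
    refine le_trans (le_of_eq ?_) h2
    field_simp
  · rw [le_div_iff₀ hM2]
    linarith
  · rw [div_pow, le_div_iff₀ (by positivity)]
    refine le_trans (le_of_eq ?_) hn2
    ring
  · rw [lt_div_iff₀ hM2]
    linarith
  · rw [div_pow, div_mul_eq_mul_div, lt_div_iff₀ (by positivity)]
    refine lt_of_le_of_lt (le_of_eq ?_) hs2
    ring

end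

end Vale.Agent.P224.PO
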