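import Vale.Agent.P224.PO.CoreW

/-!
Odd dimension: the core theorem with a weighted distance and three regions of the mean normal.

For a small mean normal the law with a parameter alone gives the conclusion; for a large one the
static law alone is contradictory; in between the law with a parameter gives the number of points
on the right (a classification with a larger bound), and the static law the rest.
-/

namespace Vale.Agent.P224.PO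

open MeasureTheory Set Filter Function Module Vale.Agent.P224 Vale.Agent.P224.UE
open Vale.Agent.P224.SM2 hiding ker
open scoped Topology RealInnerProductSpace ENNReal ContDiff Manifold

set_option linter.unusedSectionVars false

section

variable {V W M : Type*} [NormedAddCommGroup V] [InnerProductSpace ℝ V] [FiniteDimensional ℝ V]
  [NormedAddCommGroup W] [InnerProductSpace ℝ W] [FiniteDimensional ℝ W]
  [TopologicalSpace M] [ChartedSpace V M]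
  [MeasurableSpace V] [BorelSpace V] [MeasurableSpace M] [BorelSpace M]
  [IsManifold 𝓘(ℝ, V) ∞ M] [CompactSpace M] [T2Space M] [ConnectedSpace M]
  [MeasurableSpace W] [BorelSpace W]

/-- the value of the static functional -/
theorem stat_bound {m : ℕ} (hm : 4 < m) {F N : M → W} {μ : Measure M} [IsFiniteMeasure μ] {B S : ℝ}
    (hE : EmbD μ m F N B S) {e : W}
    (he' : μ.real univ • e = ∫ x, N x ∂μ) (hS0 : 0 < S)
    {C Θ1 : ℝ} (hΘ1 : 6 / 5 ≤ Θ1) (h1' : Θ1 * S ≤ μ.real univ) (h2' : μ.real univ ≤ C * S)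
    (h3' : μ.real univ * ‖e‖ ≤ S) (h5 : ‖e‖ ^ 2 ≤ 25 / 36)
    {κ2 : ℝ} (hκ2 : 0 ≤ κ2) {RS : R9 → ℝ} (hRSc : Continuous RS)
    {b0 b1 b2 b3 b4 b5 b6 b7 b8 : ℝ} {l2 : List (ℝ × HTerm)}
    (hl : ∀ cT ∈ l2, cT.2.ok m = true)
    (hpos : ∀ e x N y w : W, ‖e‖ ^ 2 ≤ 25 / 36 → ‖x‖ = 1 → ‖N‖ = 1 → ‖y‖ = 1 → ‖w‖ = 1 →
      ⟪x, N⟫ = 0 → ⟪y, w⟫ = 0 → ⟪x, y⟫ < 1 → 0 ≤
        W9 b0 b1 b2 b3 b4 b5 b6 b7 b8 (dv x N y w e) + hsum m l2 (dv x N y w e)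
        - (RS (dv x N y w e) + κ2 * dv x N y w e 0 ^ 3))
    {u0 gs : ℝ}
    (hlaw : ∀ Θ u r : ℝ, Θ1 ≤ Θ → Θ ≤ C → u0 ≤ u → Θ ^ 2 * u ≤ 1 → u ^ 2 ≤ r → r ≤ u →
      Θ * (b0 + (b1 + b2 + b3) * u + (b4 + b7) * r + (b5 + b6) * u ^ 2
        + b8 * ((u - r) / ((m : ℕ) + 1))) + KH m * hval m l2 u r ≤ Θ * gs)
    (hu : u0 ≤ ‖e‖ ^ 2) :
    ∫ q, RS (dat F N e q) ∂(μ.prod μ) ≤ μ.real univ ^ 2 * gs := by
  have hne : Nonempty M := inferInstance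
  have hG := hE.toTwoG
  set A := μ.real univ with hA
  have hA0 : 0 < A := by
    have : 0 < Θ1 * S := by positivity
    linarith
  set Θ := A / S with hΘd
  have hAS : A = Θ * S := by rw [hΘd]; field_simp
  have h1 : Θ1 ≤ Θ := by
    rw [hΘd, le_div_iff₀ hS0]
    exact h1'
  have h2 : Θ ≤ C := by
    rw [hΘd, div_le_iff₀ hS0]
    exact h2'
  have h3 : Θ * ‖e‖ ≤ 1 := by
    have : S * (Θ * ‖e‖) ≤ S * 1 := by
      calc S * (Θ * ‖e‖) = A * ‖e‖ := by rw [hAS]; ring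
        _ ≤ S := h3'
        _ = S * 1 := (mul_one S).symm
    exact le_of_mul_le_mul_left this hS0
  have h4 : Θ ^ 2 * ‖e‖ ^ 2 ≤ 1 := by
    have h0 : 0 ≤ Θ * ‖e‖ := mul_nonneg (by linarith) (norm_nonneg _)
    calc Θ ^ 2 * ‖e‖ ^ 2 = (Θ * ‖e‖) ^ 2 := by ring
      _ ≤ 1 := pow_le_one₀ h0 h3
  have hA2 : 0 < A ^ 2 := by positivity
  have hint : ∀ {H : R9 → ℝ}, Continuous H →
      Integrable (fun q => H (dat F N e q)) (μ.prod μ) :=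
    fun hH => integrable_param _ (measurable_dat hG.toPts e) (isCompact_KE (bE e))
      (dat_mem hG.toPts e) hH.measurable hH.continuousOn
  have hRc : Continuous fun d : R9 => RS d + κ2 * d 0 ^ 3 := hRSc.add (by fun_prop)
  obtain ⟨r, hr1, hr2, hr3⟩ := lawS6 hE (by omega) he' hA0 hRc hl
    (fun x N y w hx hN hy hw hxN hyw hs => hpos e x N y w h5 hx hN hy hw hxN hyw hs)
  rw [← hA] at hr3
  have h8 := hlaw Θ (‖e‖ ^ 2) r h1 h2 hu h4 hr1 hr2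
  have h10 : ∀ c : ℝ, A * c = S * (Θ * c) := fun c => by rw [hAS]; ring
  have h9 := mul_le_mul_of_nonneg_left (mul_le_mul_of_nonneg_left h8 hS0.le) hA0.le
  have h11 : ∫ q, (RS (dat F N e q) + κ2 * dat F N e q 0 ^ 3) ∂(μ.prod μ) ≤ A ^ 2 * gs := by
    refine hr3.trans ?_
    rw [h10 (b0 + (b1 + b2 + b3) * ‖e‖ ^ 2 + (b4 + b7) * r
        + (b5 + b6) * (‖e‖ ^ 2) ^ 2 + b8 * ((‖e‖ ^ 2 - r) / ((m : ℝ) + 1)))]
    have h12 : A ^ 2 * gs = A * (S * (Θ * gs)) := by rw [← h10]; ring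
    rw [h12]
    refine le_trans (le_of_eq ?_) h9
    ring
  have iS3 : Integrable (fun q => dat F N e q 0 ^ 3) (μ.prod μ) :=
    hint (H := fun d => d 0 ^ 3) (by fun_prop)
  have iRS : Integrable (fun q => RS (dat F N e q)) (μ.prod μ) := hint hRSc
  have hQ0 : 0 ≤ ∫ q, dat F N e q 0 ^ 3 ∂(μ.prod μ) :=
    SO.k00 (μ := μ) (p := F) ⟨hG.mp, hG.np⟩
  rw [integral_add iRS (iS3.const_mul κ2), integral_const_mul] at h11
  have := mul_nonneg hκ2 hQ0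
  linarith

/-- **The sharp bound and its equality case in odd dimension**, with an abstract distance and three
regions of the mean normal. -/
theorem core_odd3 {m h : ℕ} (hmh : m = 2 * h + 1) (hm : 4 < m) (hV : finrank ℝ V = m)
    (hW : finrank ℝ W = finrank ℝ V + 2)
    {F : M → W} (hF : SphImm V F) (hmin : ∀ x n, IsUnitNormal V F x n → meanCurv V F x n = 0)
    {C Θ1 : ℝ} (hC2 : C < 2) (hΘ1 : 6 / 5 ≤ Θ1)
    (hΘ : Θ1 * sphereVol m ≤ (volM V F).real univ)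
    -- the certificate with a parameter
    {l : List SO.GT} (hr : ∀ t ∈ l, t.Reg) (hok : ∀ t ∈ l, t.ok h)
    (hw : ∀ t ∈ l, ∀ x N : W, ‖x‖ = 1 → ‖N‖ = 1 → ⟪x, N⟫ = 0 →
      t.w (dv x N x N 0) = 1)
    {Ro : ℝ → R9 → ℝ} (hRn : ∀ N : M → W, TwoG (volM V F) m F N → ∀ T ∈ Ioo (0 : ℝ) 1,
      Null (volM V F) F N 0 (Ro T))
    {R0 : R9 → ℝ} (hR0 : ∀ N : M → W, TwoG (volM V F) m F N → Null (volM V F) F N 0 R0)
    (hposT : ∀ T ∈ Ioo (0 : ℝ) 1, ∀ x N y w : W, ‖x‖ = 1 → ‖N‖ = 1 → ‖y‖ = 1 → ‖w‖ = 1 →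
      ⟪x, N⟫ = 0 → ⟪y, w⟫ = 0 → SO.gS' (l.map SO.GT.v) T (dv x N y w 0)
        ≤ Ro T (dv x N y w 0))
    {c0 κ γ : ℝ} (hc0 : 0 < c0) (hκ : 0 ≤ κ) (hγ : 0 < γ)
    {RT : R9 → ℝ} (hRTc : Continuous RT)
    (h0 : ∀ x N y w : W, ‖x‖ = 1 → ‖N‖ = 1 → ‖y‖ = 1 → ‖w‖ = 1 → ⟪x, N⟫ = 0 → ⟪y, w⟫ = 0 →
      (l.map fun t => t.φ 0 * t.Q (dv x N y w 0)).sum
        ≤ c0 * (1 + γ * dv x N y w (0 : W) 3
          - (RT (dv x N y w 0) + κ * dv x N y w (0 : W) 0 ^ 3) + R0 (dv x N y w 0)))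
    (hfl : OT.fluxC m h l = c0 * C)
    -- the static bounds
    {u0 u1 gs0 gs1 : ℝ} (hgs0 : 0 ≤ gs0) (hgs1 : 0 ≤ gs1) {RB RS : R9 → ℝ}
    (hstB : ∀ (N : M → W) (B : ℝ) (e : W), EmbD (volM V F) m F N B (sphereVol m) →
      (volM V F).real univ • e = ∫ x, N x ∂(volM V F) →
      (volM V F).real univ * ‖e‖ ≤ sphereVol m → ‖e‖ ^ 2 ≤ 25 / 36 → u0 ≤ ‖e‖ ^ 2 →
      ∫ q, RB (dat F N e q) ∂((volM V F).prod (volM V F)) ≤ (volM V F).real univ ^ 2 * gs0)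
    (hstS : ∀ (N : M → W) (B : ℝ) (e : W), EmbD (volM V F) m F N B (sphereVol m) →
      (volM V F).real univ • e = ∫ x, N x ∂(volM V F) →
      (volM V F).real univ * ‖e‖ ≤ sphereVol m → ‖e‖ ^ 2 ≤ 25 / 36 → u1 ≤ ‖e‖ ^ 2 →
      ∫ q, RS (dat F N e q) ∂((volM V F).prod (volM V F)) ≤ (volM V F).real univ ^ 2 * gs1)
    -- the distance
    {α kT tT tT' kB tB kS tS : ℝ} {cd : ℕ} (hkT : 0 < kT) (hkB : 0 < kB) (hkS : 0 < kS)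
    {Dw : (M → W) → OrthonormalBasis (Fin (m + 2)) ℝ W → Finset (Fin (m + 2)) → ℝ}
    (hDw : ∀ (N : M → W), TwoG (volM V F) m F N → ∀ b S,
      ∫ x, ‖devA α b S (F x) (N x)‖ ^ 2 ∂(volM V F) ≤ Dw N b S)
    -- the stable resources
    (hsT : ∀ N : M → W, TwoG (volM V F) m F N → 0 ≤ ∫ q : M × M, ⟪F q.1, F q.2⟫
        * ⟪F q.1, N q.2⟫ ∂((volM V F).prod (volM V F)) →
      ∫ q, RT (dat F (fun x => -N x) 0 q) ∂((volM V F).prod (volM V F))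
        < tT * (volM V F).real univ ^ 2 →
      ∃ (b : OrthonormalBasis (Fin (m + 2)) ℝ W) (S : Finset (Fin (m + 2))), S.card = cd ∧
        kT * ((volM V F).real univ * Dw N b S)
          ≤ ∫ q, RT (dat F (fun x => -N x) 0 q) ∂((volM V F).prod (volM V F)))
    (hsB : ∀ (e : W) (N : M → W), TwoG (volM V F) m F N → 0 ≤ ∫ q : M × M, ⟪F q.1, F q.2⟫
        * ⟪F q.1, N q.2⟫ ∂((volM V F).prod (volM V F)) →
      ∫ q, RT (dat F (fun x => -N x) 0 q) ∂((volM V F).prod (volM V F))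
        < tT' * (volM V F).real univ ^ 2 →
      ∫ q, RB (dat F N e q) ∂((volM V F).prod (volM V F)) < tB * (volM V F).real univ ^ 2 →
      ∃ (b : OrthonormalBasis (Fin (m + 2)) ℝ W) (S : Finset (Fin (m + 2))), S.card = cd ∧
        kB * ((volM V F).real univ * Dw N b S)
          ≤ ∫ q, RB (dat F N e q) ∂((volM V F).prod (volM V F)))
    (hsS : ∀ (e : W) (N : M → W), TwoG (volM V F) m F N → 0 ≤ ∫ q : M × M, ⟪F q.1, F q.2⟫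
        * ⟪F q.1, N q.2⟫ ∂((volM V F).prod (volM V F)) →
      ∫ q, RS (dat F N e q) ∂((volM V F).prod (volM V F)) < tS * (volM V F).real univ ^ 2 →
      ∃ (b : OrthonormalBasis (Fin (m + 2)) ℝ W) (S : Finset (Fin (m + 2))), S.card = cd ∧
        kS * ((volM V F).real univ * Dw N b S)
          ≤ ∫ q, RS (dat F N e q) ∂((volM V F).prod (volM V F)))
    -- the bound of the mean normal
    {K : ℝ} (hK : 0 < K)
    (hone : ∀ N : M → W, TwoG (volM V F) m F N → ∀ (b : OrthonormalBasis (Fin (m + 2)) ℝ W)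
      (S : Finset (Fin (m + 2))), S.card = cd →
      ‖∫ x, N x ∂(volM V F)‖ ≤ K * Dw N b S)
    (hn1 : γ * u0 ≤ tT) (hn2 : (K * γ) ^ 2 * u0 ≤ kT ^ 2)
    (hb1 : γ * u1 ≤ tT') (hb2 : gs0 < tB) (hb3 : (K * gs0) ^ 2 < kB ^ 2 * u0)
    (hs1 : gs1 < tS) (hs2 : (K * gs1) ^ 2 < kS ^ 2 * u1)
    (hle : (volM V F).real univ ≤ C * sphereVol m) :
    (volM V F).real univ = C * sphereVol m ∧ Injective F ∧
      ∃ (N : M → W) (b : OrthonormalBasis (Fin (m + 2)) ℝ W) (S : Finset (Fin (m + 2))),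
        ContMDiff 𝓘(ℝ, V) 𝓘(ℝ, W) ∞ N ∧ (∀ x, IsUnitNormal V F x (N x)) ∧ S.card = cd ∧
        ∀ x, N x = ∑ i, ((if i ∈ S then α else -(1 / α)) * ⟪F x, b i⟫) • b i := by
  have hm0 : 0 < finrank ℝ V := by omega
  have hfin : IsFiniteMeasure (volM V F) := isFiniteMeasure_volM hF
  have hne : Nonempty M := inferInstance
  set A := (volM V F).real univ with hA
  set S := sphereVol m with hS
  have hS0 : 0 < S := sphereVol_pos' _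
  have hSV : sphereVol (finrank ℝ V) = S := by rw [hV]
  have hA0 : 0 < A := by
    have : 0 < Θ1 * S := by positivity
    linarith
  have hinj : Injective F := by
    by_contra hinj
    have h2 := TwoSide.two_le (by omega) hW hF hmin hinj
    rw [hSV] at h2
    have h3 := mul_lt_mul_of_pos_right hC2 hS0
    linarith
  obtain ⟨N, hNs, hN, htop, hor⟩ := exists_normal_or hW hm0 hF hinj
  rw [hSV] at htop
  obtain ⟨B, hE⟩ := embD_of_inj hm0 hW hF hmin hNs hN hinj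
  rw [hSV, hV] at hE
  have hG := hE.toTwoG
  -- the opposite normal
  have hN' : ∀ x, IsUnitNormal V F x (-N x) := fun x =>
    ⟨by rw [norm_neg]; exact (hN x).1, by rw [inner_neg_right, (hN x).2.1, neg_zero],
      fun i => by rw [inner_neg_right, (hN x).2.2 i, neg_zero]⟩
  obtain ⟨B', hE'⟩ := embD_of_inj hm0 hW hF hmin hNs.neg hN' hinj
  rw [hSV, hV] at hE'
  have hG' := hE'.toTwoG
  set e : W := A⁻¹ • ∫ x, N x ∂(volM V F) with he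
  have he' : A • e = ∫ x, N x ∂(volM V F) := by
    rw [he, smul_smul, mul_inv_cancel₀ hA0.ne', one_smul]
  have hn : ‖∫ x, N x ∂(volM V F)‖ = A * ‖e‖ := by
    rw [← he', norm_smul, Real.norm_eq_abs, abs_of_pos hA0]
  have hn' : ‖∫ x, -N x ∂(volM V F)‖ = A * ‖e‖ := by
    rw [integral_neg, norm_neg, hn]
  rw [hn] at htop
  set Θ := A / S with hΘd
  have hAS : A = Θ * S := by rw [hΘd]; field_simp
  have h1 : Θ1 ≤ Θ := by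
    rw [hΘd, le_div_iff₀ hS0]
    exact hΘ
  have h2 : Θ ≤ C := by
    rw [hΘd, div_le_iff₀ hS0]
    exact hle
  have h3 : Θ * ‖e‖ ≤ 1 := by
    have : S * (Θ * ‖e‖) ≤ S * 1 := by
      calc S * (Θ * ‖e‖) = A * ‖e‖ := by rw [hAS]; ring
        _ ≤ S := htop
        _ = S * 1 := (mul_one S).symm
    exact le_of_mul_le_mul_left this hS0
  have h4 : Θ ^ 2 * ‖e‖ ^ 2 ≤ 1 := by
    have h0 : 0 ≤ Θ * ‖e‖ := mul_nonneg (by linarith) (norm_nonneg _)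
    calc Θ ^ 2 * ‖e‖ ^ 2 = (Θ * ‖e‖) ^ 2 := by ring
      _ ≤ 1 := pow_le_one₀ h0 h3
  have h5 : ‖e‖ ^ 2 ≤ 25 / 36 := by
    have h6 : (6 / 5 : ℝ) ^ 2 ≤ Θ ^ 2 := pow_le_pow_left₀ (by norm_num) (hΘ1.trans h1) 2
    have h7 := mul_le_mul_of_nonneg_right h6 (sq_nonneg ‖e‖)
    linarith
  have hA2 : 0 < A ^ 2 := by positivity
  have hint : ∀ {H : R9 → ℝ} (n : M → W) (v : W), TwoG (volM V F) m F n → Continuous H →
      Integrable (fun q => H (dat F n v q)) ((volM V F).prod (volM V F)) :=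
    fun n v hg hH => integrable_param _ (measurable_dat hg.toPts v) (isCompact_KE (bE v))
      (dat_mem hg.toPts v) hH.measurable hH.continuousOn
  -- the law with a parameter
  have key2 := lawT_odd hmh hm hE' hA0 l hr hok (fun t ht _ => hw t ht) (hRn _ hG')
    (hR0 _ hG') hposT (R := fun d => RT d + κ * d 0 ^ 3) (hRTc.add (by fun_prop))
    (γ := γ) (c0 := c0) (fun x N y w a1 a2 a3 a4 a5 a6 => h0 x N y w a1 a2 a3 a4 a5 a6)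
  rw [hfl, hn', ← hA] at key2
  have iS3 : Integrable (fun q => dat F (fun x => -N x) (0 : W) q 0 ^ 3)
      ((volM V F).prod (volM V F)) :=
    hint (H := fun d => d 0 ^ 3) (fun x => -N x) 0 hG' (by fun_prop)
  have iRT : Integrable (fun q => RT (dat F (fun x => -N x) (0 : W) q))
      ((volM V F).prod (volM V F)) := hint (fun x => -N x) 0 hG' hRTc
  have hval : ∫ q, (RT (dat F (fun x => -N x) (0 : W) q)
      + κ * dat F (fun x => -N x) (0 : W) q 0 ^ 3) ∂((volM V F).prod (volM V F))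
      = ∫ q, RT (dat F (fun x => -N x) (0 : W) q) ∂((volM V F).prod (volM V F))
        + κ * ∫ q, dat F (fun x => -N x) (0 : W) q 0 ^ 3 ∂((volM V F).prod (volM V F)) := by
    rw [integral_add iRT (iS3.const_mul κ), integral_const_mul]
  rw [hval] at key2
  have hQ0 : 0 ≤ ∫ q, dat F (fun x => -N x) (0 : W) q 0 ^ 3 ∂((volM V F).prod (volM V F)) :=
    SO.k00 (μ := volM V F) (p := F) ⟨hG.mp, hG.np⟩
  set Q := ∫ q, dat F (fun x => -N x) (0 : W) q 0 ^ 3 ∂((volM V F).prod (volM V F)) with hQ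
  set R := ∫ q, RT (dat F (fun x => -N x) (0 : W) q) ∂((volM V F).prod (volM V F)) with hR
  have hκQ : 0 ≤ κ * Q := mul_nonneg hκ hQ0
  have hk3 : R ≤ γ * (‖e‖ ^ 2 * A ^ 2) - (C * S * A - A ^ 2) := by
    have h6 : (A * ‖e‖) ^ 2 = ‖e‖ ^ 2 * A ^ 2 := by ring
    rw [h6] at key2
    have h7 : c0 * (C * S * A + (R + κ * Q)) ≤ c0 * (A ^ 2 + γ * (‖e‖ ^ 2 * A ^ 2)) := by
      linarith
    have h8 := le_of_mul_le_mul_left h7 hc0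
    linarith
  have hCA : A ^ 2 ≤ C * S * A := by
    have := mul_le_mul_of_nonneg_right hle hA0.le
    linarith [sq A]
  have hk4 : R ≤ γ * (‖e‖ ^ 2 * A ^ 2) := by linarith
  -- the mean normal is small
  have hu1 : ‖e‖ ^ 2 < u1 := by
    by_contra hu
    rw [not_lt] at hu
    have h13 := hstS N B e hE he' htop h5 hu
    have hRS1 : ∫ q, RS (dat F N e q) ∂((volM V F).prod (volM V F)) < tS * A ^ 2 := by
      have h15 := mul_lt_mul_of_pos_right hs1 hA2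
      linarith
    obtain ⟨b, S', hS4, hD⟩ := hsS e N hG hor hRS1
    have hone' := hone N hG b S' hS4
    rw [hn] at hone'
    exact arithSo hA0 hkS hK.le hgs1 (norm_nonneg e) h13 hD hone' hu hs2
  have hu : ‖e‖ ^ 2 < u0 := by
    by_contra hu
    rw [not_lt] at hu
    have h13 := hstB N B e hE he' htop h5 hu
    have hRB1 : ∫ q, RB (dat F N e q) ∂((volM V F).prod (volM V F)) < tB * A ^ 2 := by
      have h15 := mul_lt_mul_of_pos_right hb2 hA2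
      linarith
    have hRs' : R < tT' * A ^ 2 := by
      have h6 : ‖e‖ ^ 2 * A ^ 2 < u1 * A ^ 2 := mul_lt_mul_of_pos_right hu1 hA2
      have h7 := mul_lt_mul_of_pos_left h6 hγ
      have h9 := mul_le_mul_of_nonneg_right hb1 hA2.le
      linarith
    obtain ⟨b, S', hS4, hD⟩ := hsB e N hG hor hRs' hRB1
    have hone' := hone N hG b S' hS4
    rw [hn] at hone'
    exact arithSo hA0 hkB hK.le hgs0 (norm_nonneg e) h13 hD hone' hu hb3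
  have hRs : R < tT * A ^ 2 := by
    have h6 : ‖e‖ ^ 2 * A ^ 2 < u0 * A ^ 2 := mul_lt_mul_of_pos_right hu hA2
    have h7 := mul_lt_mul_of_pos_left h6 hγ
    have h9 := mul_le_mul_of_nonneg_right hn1 hA2.le
    linarith
  obtain ⟨b, S', hS4, hD⟩ := hsT N hG hor hRs
  set D := Dw N b S' with hDd
  set D' := ∫ x, ‖devA α b S' (F x) (N x)‖ ^ 2 ∂(volM V F) with hDd'
  have hD0' : 0 ≤ D' := integral_nonneg fun x => by positivity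
  have hD0 : 0 ≤ D := hD0'.trans (hDw N hG b S')
  have hone' := hone N hG b S' hS4
  rw [hn, ← hDd] at hone'
  -- the mean normal vanishes
  have he0 : ‖e‖ = 0 := arithTo hA0 hkT hK.le (norm_nonneg e) hk4 hD hone' hu hn2 hγ hK
  rw [he0] at hk3
  have hR0' : 0 ≤ R := by
    have : 0 ≤ kT * (A * D) := by positivity
    linarith
  have hAC : A = C * S := by
    have h7 : C * S * A - A ^ 2 ≤ 0 := by linarith
    have h8 : A * (C * S) ≤ A * A := by linarith [sq A]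
    exact le_antisymm hle (le_of_mul_le_mul_left h8 hA0)
  have hDz : D = 0 := by
    have h6 : (kT * A) * D ≤ (kT * A) * 0 := by
      have h9 : (kT * A) * D = kT * (A * D) := by ring
      rw [h9]
      rw [hAC] at hk3
      have h10 : R ≤ 0 := by linarith
      linarith
    exact le_antisymm (le_of_mul_le_mul_left h6 (by positivity)) hD0
  have hDz' : D' = 0 := le_antisymm ((hDw N hG b S').trans hDz.le) hD0'
  refine ⟨hAC, hinj, N, b, S', hNs, hN, hS4, fun x => ?_⟩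
  have hcF : Continuous F := hF.smooth.continuous
  have hcN : Continuous N := hNs.continuous
  have hop : (volM V F).IsOpenPosMeasure :=
    ⟨fun U hU hne => (volM_pos_of_isOpen hW hF hU hne).ne'⟩
  have hcd : Continuous fun x => ‖devA α b S' (F x) (N x)‖ ^ 2 := by
    unfold devA
    fun_prop
  have hi : Integrable (fun x => ‖devA α b S' (F x) (N x)‖ ^ 2) (volM V F) :=
    FV.integrable_of_cont (volM V F) hcd
  have hz := (integral_eq_zero_iff_of_nonneg (fun x => by positivity) hi).1 (hDd' ▸ hDz')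
  have hz2 : (fun x => ‖devA α b S' (F x) (N x)‖ ^ 2) = fun _ => (0 : ℝ) :=
    (Continuous.ae_eq_iff_eq (volM V F) hcd continuous_const).1 hz
  have h6 : ‖devA α b S' (F x) (N x)‖ ^ 2 = 0 := congrFun hz2 x
  rw [pow_eq_zero_iff two_ne_zero, norm_eq_zero] at h6
  unfold devA at h6
  exact sub_eq_zero.1 h6

end

section

variable {X : Type*} [MeasurableSpace X] {E : Type*} [NormedAddCommGroup E]
  [InnerProductSpace ℝ E] [FiniteDimensional ℝ E] [MeasurableSpace E] [BorelSpace E]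
  {μ : Measure X} [IsFiniteMeasure μ] {p n : X → E} {m : ℕ}

/-- the scalar data of a configuration, with all the functionals at once -/
theorem stabData (hE : finrank ℝ E = m + 2) (hm : m ≠ 0) (h : TwoG μ m p n) [Nonempty X]
    (hsp : ∀ w, (∀ x, ⟪p x, w⟫ = 0) → w = 0)
    (hor : 0 ≤ ∫ q : X × X, ⟪p q.1, p q.2⟫ * ⟪p q.1, n q.2⟫ ∂(μ.prod μ))
    (hA : 0 < μ.real univ) {α r w : ℝ} (w0 : ℝ) (hα : 0 < α) (hw : α ^ 2 = w) (hr : 0 < r)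
    (hrα : ((m : ℝ) + 1) * α = 2 * r)
    {B q g1 g' a2 b2 c2 a1 c1 : ℝ}
    (hB : B = ((m : ℝ) + 1) ^ 2 * w) (hq : q = ((m : ℝ) + 1) * w) (hg1 : g1 = (m : ℝ) + 2)
    (hg' : g' = 2 * ((m : ℝ) + 1) + ((m : ℝ) + 1) / (2 * r ^ 2))
    (hc2 : c2 = w / ((m : ℝ) + 1)) (ha2 : a2 = 1 - c2) (hb2 : b2 = 2 * w)
    (hc1 : c1 = 1 / (w * ((m : ℝ) + 1))) (ha1 : a1 = 1 - c1) :
    ∃ (b : OrthonormalBasis (Fin (m + 2)) ℝ E) (d x : Fin (m + 2) → ℝ),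
      (∀ i, q * x i ^ 2 ≤ d i - d i ^ 2) ∧ ∑ i, d i = 1 ∧ ∑ i, x i = 0 ∧
      ∑ i, d i * x i ≤ 0 ∧
      (∀ Z : ℝ, ∫ y, devW w0 α b (SO.Rt Z x) (p y) (n y) ∂μ = μ.real univ * ∑ i,
        (if Z ≤ x i then a2 * d i - b2 * x i + c2 else w0 * (a1 * d i + 2 * x i + c1))) ∧
      (∀ T0 k0 k1 c lamu lamv ρ cc lu lv : ℝ, 0 < ρ → T0 = k0 * ((m : ℝ) + 1) ^ 2 + k1 * m →
        c ≤ cc * (((m : ℝ) + 1) * α) → lamu * ρ ≤ ((m : ℝ) + 1) / 2 * lu → lamv * ρ ≤ lv →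
        (m + 1) * lu / 2 ≤ ρ * k1 + lv * (1 + ((m : ℝ) + 1) ^ 2
          - ((m : ℝ) + 1) / (2 * r ^ 2)) →
        μ.real univ ^ 2 * (ρ * (T0 + (k1 * ∑ i, d i ^ 2 - B * ∑ i, x i ^ 2 - c * ∑ i, d i * x i)
          + ∑ i, (lamu * (d i - d i ^ 2 - q * x i ^ 2) + lamv * ((1 - g1 * d i - 2 * x i) ^ 2
            + g' * (d i - d i ^ 2 - q * x i ^ 2)))))
        ≤ ((m : ℝ) + 1) ^ 2 * ∫ q : X × X, (ρ * (k0 + k1 * ⟪p q.1, p q.2⟫ ^ 2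
              - ⟪p q.1, p q.2⟫ * ⟪n q.1, n q.2⟫
              + cc * (⟪p q.1, p q.2⟫ * ((⟪p q.1, n q.2⟫ + ⟪n q.1, p q.2⟫) / 2)))
            + lu * ((⟪p q.1, n q.2⟫ - ⟪n q.1, p q.2⟫) / 2) ^ 2
            + lv * (⟪n q.1, n q.2⟫ - ⟪p q.1, p q.2⟫
              + 1 / r * ((⟪p q.1, n q.2⟫ + ⟪n q.1, p q.2⟫) / 2)) ^ 2) ∂(μ.prod μ)) := by
  have hp : SO.UF p := ⟨h.mp, h.np⟩
  have hn : SO.UF n := ⟨h.mn, h.nn⟩
  have hM : (0 : ℝ) < (m : ℝ) + 1 := by positivity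
  obtain ⟨b, d, x, hd, hd1, hx0, hDX, m1, m2, m3, hres⟩ := SO.resGV hE hm h hsp hor hA hα hr
  set A := μ.real univ with hAd
  set M : ℝ := (m : ℝ) + 1 with hMd
  have hw0 : 0 < w := by rw [← hw]; positivity
  rw [hw] at hd
  have hqd : ∀ i, q * x i ^ 2 ≤ d i - d i ^ 2 := fun i => by rw [hq]; exact hd i
  have hg'0 : 0 ≤ g' := by rw [hg']; positivity
  refine ⟨b, d, x, hqd, hd1, hx0, hDX, ?_, ?_⟩
  · intro Z
    rw [(integrable_devW hp hn w0 α b (SO.Rt Z x)).2, Finset.mul_sum]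
    refine Finset.sum_congr rfl fun i _ => ?_
    rw [m1, m2, m3]
    by_cases hi : Z ≤ x i
    · rw [if_pos hi, if_pos (SO.mem_Rt.2 hi), if_pos (SO.mem_Rt.2 hi), ha2, hb2, hc2, ← hw]
      field_simp
      ring
    · rw [if_neg hi, if_neg (fun hh => hi (SO.mem_Rt.1 hh)), if_neg (fun hh => hi (SO.mem_Rt.1 hh)),
        ha1, hc1, ← hw]
      field_simp
      ring
  intro T0 k0 k1 c lamu lamv ρ cc lu lv hρ hT0 hcc h1 h2 h3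
  have h4 := hres k0 k1 ρ cc lu lv h3
  rw [hw] at h4
  have hW : 0 ≤ ∑ i, (d i - d i ^ 2 - q * x i ^ 2) :=
    Finset.sum_nonneg fun i _ => by linarith [hqd i]
  have hG : 0 ≤ ∑ i, ((1 - g1 * d i - 2 * x i) ^ 2 + g' * (d i - d i ^ 2 - q * x i ^ 2)) :=
    Finset.sum_nonneg fun i _ => add_nonneg (sq_nonneg _)
      (mul_nonneg hg'0 (by linarith [hqd i]))
  -- the sums
  have eW : ∑ i, (d i - d i ^ 2 - q * x i ^ 2) = 1 - ∑ i, d i ^ 2 - q * ∑ i, x i ^ 2 := by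
    rw [Finset.sum_sub_distrib, Finset.sum_sub_distrib, hd1, ← Finset.mul_sum]
  have eG : ∑ i, ((1 - g1 * d i - 2 * x i) ^ 2 + g' * (d i - d i ^ 2 - q * x i ^ 2))
      = (m + 2) - 2 * g1 + g1 ^ 2 * ∑ i, d i ^ 2 + 4 * ∑ i, x i ^ 2
        + 4 * g1 * ∑ i, d i * x i + g' * (1 - ∑ i, d i ^ 2 - q * ∑ i, x i ^ 2) := by
    rw [Finset.sum_add_distrib, ← Finset.mul_sum, eW]
    have e1 : ∀ i, (1 - g1 * d i - 2 * x i) ^ 2 = 1 - 2 * g1 * d i - 4 * x i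
        + g1 ^ 2 * d i ^ 2 + 4 * x i ^ 2 + 4 * g1 * (d i * x i) := fun i => by ring
    simp only [e1, Finset.sum_add_distrib, Finset.sum_sub_distrib, ← Finset.mul_sum, hd1, hx0,
      Finset.sum_const, Finset.card_univ, Fintype.card_fin, nsmul_eq_mul]
    push_cast
    ring
  have eL : ∑ i, (lamu * (d i - d i ^ 2 - q * x i ^ 2) + lamv * ((1 - g1 * d i - 2 * x i) ^ 2
          + g' * (d i - d i ^ 2 - q * x i ^ 2)))
      = lamu * ∑ i, (d i - d i ^ 2 - q * x i ^ 2)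
        + lamv * ∑ i, ((1 - g1 * d i - 2 * x i) ^ 2 + g' * (d i - d i ^ 2 - q * x i ^ 2)) := by
    rw [Finset.sum_add_distrib, Finset.mul_sum, Finset.mul_sum]
  set P := ∑ i, d i ^ 2 with hP
  set Q := ∑ i, x i ^ 2 with hQ
  set DX := ∑ i, d i * x i with hDXd
  set W := ∑ i, (d i - d i ^ 2 - q * x i ^ 2) with hWd
  set G := ∑ i, ((1 - g1 * d i - 2 * x i) ^ 2 + g' * (d i - d i ^ 2 - q * x i ^ 2)) with hGd
  have hA2 : 0 < A ^ 2 := by positivity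
  have hαr : α / r = 2 / M := by
    rw [div_eq_div_iff hr.ne' hM.ne']
    linarith
  have hr2 : r ^ 2 = M ^ 2 * w / 4 := by
    have h5 : r = M * α / 2 := by linarith
    rw [h5, ← hw]
    ring
  -- the comparison
  have h5 : A ^ 2 * (ρ * (T0 + (k1 * P - B * Q - c * DX) + (lamu * W + lamv * G)))
      ≤ A ^ 2 * (ρ * (k0 * M ^ 2 + k1 * (m + P) - M ^ 2 * w * Q) - ρ * cc * (M * α) * DX
            + lu * (M / 2) * (1 - P - M * w * Q)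
            + lv * ((m + P) + M ^ 2 * P - 2 * (M ^ 2 * w) * Q
              + M / (2 * r ^ 2) * (1 - P + M * w * Q)
              + 2 * M * (m + 2) * (α / r) * DX)) := by
    refine mul_le_mul_of_nonneg_left ?_ hA2.le
    have h6 : ρ * (cc * (M * α)) * DX ≤ ρ * c * DX :=
      mul_le_mul_of_nonpos_right (mul_le_mul_of_nonneg_left hcc hρ.le) hDX
    have h7 := mul_le_mul_of_nonneg_right h1 hW
    have h8 := mul_le_mul_of_nonneg_right h2 hG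
    have e2 : (m + P) + M ^ 2 * P - 2 * (M ^ 2 * w) * Q
              + M / (2 * r ^ 2) * (1 - P + M * w * Q)
              + 2 * M * (m + 2) * (α / r) * DX = G := by
      rw [eG, hαr, hg1, hg', hq, hr2]
      have hmM : (m : ℝ) = M - 1 := by rw [hMd]; ring
      rw [hmM]
      field_simp
      ring
    have e3 : 1 - P - M * w * Q = W := by rw [eW, hq]
    rw [e2, e3, hT0, hB]
    rw [hB] at *
    linarith
  rw [eL]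
  exact h5.trans h4

end

/-- arithmetic -/
lemma ar1 {A ρ V M2 I t : ℝ} (hA : 0 < A) (hρ : 0 < ρ) (hM : 0 < M2)
    (h : A ^ 2 * (ρ * V) ≤ M2 * I) (hI : I < t * ρ / M2 * A ^ 2) : V < t := by
  have h3 := mul_lt_mul_of_pos_left hI hM
  have h4 : M2 * (t * ρ / M2 * A ^ 2) = A ^ 2 * ρ * t := by field_simp
  rw [h4] at h3
  refine lt_of_mul_lt_mul_left (a := A ^ 2 * ρ) ?_ (by positivity)
  linarith

/-- arithmetic -/
lemma ar2 {A ρ V M2 I κ s D : ℝ} (hρ : 0 < ρ) (hM : 0 < M2)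
    (h : A ^ 2 * (ρ * V) ≤ M2 * I) (hk : κ * s ≤ V) (hD : D = A * s) :
    κ * ρ / M2 * (A * D) ≤ I := by
  refine le_of_mul_le_mul_left (a := M2) ?_ hM
  refine le_trans (le_of_eq ?_) ((mul_le_mul_of_nonneg_left (mul_le_mul_of_nonneg_left hk hρ.le)
    (sq_nonneg A)).trans h)
  rw [hD]
  field_simp


section

variable {V W M : Type*} [NormedAddCommGroup V] [InnerProductSpace ℝ V] [FiniteDimensional ℝ V]
  [NormedAddCommGroup W] [InnerProductSpace ℝ W] [FiniteDimensional ℝ W]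
  [TopologicalSpace M] [ChartedSpace V M]
  [MeasurableSpace V] [BorelSpace V] [MeasurableSpace M] [BorelSpace M]
  [IsManifold 𝓘(ℝ, V) ∞ M] [CompactSpace M] [T2Space M] [ConnectedSpace M]
  [MeasurableSpace W] [BorelSpace W]

/-- **The sharp bound and its equality case in odd dimension**, three regions of the mean normal,
with two static certificates. -/
theorem core_KW33 {m h : ℕ} (hmh : m = 2 * h + 1) (hm : 4 < m) (hV : finrank ℝ V = m)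
    (hW : finrank ℝ W = finrank ℝ V + 2)
    {F : M → W} (hF : SphImm V F) (hmin : ∀ x n, IsUnitNormal V F x n → meanCurv V F x n = 0)
    (hng : ¬ ∃ a : W, a ≠ 0 ∧ ∀ x, ⟪F x, a⟫ = 0)
    {C Θ1 : ℝ} (hC2 : C < 2) (hΘ1 : 6 / 5 ≤ Θ1)
    (hΘ : Θ1 * sphereVol m ≤ (volM V F).real univ)
    -- the constants of the Clifford configuration
    {α r w kr w0 : ℝ} (hw0 : 1 ≤ w0) (hα : 0 < α) (hw : α ^ 2 = w) (hr : 0 < r)
    (hrα : ((m : ℝ) + 1) * α = 2 * r) (hkr : kr = 1 / r)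
    {T0 k0 k1 B c q g1 g' a2 b2 c2 a1 c1 cc : ℝ} {cd : ℕ}
    (hB : B = ((m : ℝ) + 1) ^ 2 * w) (hq : q = ((m : ℝ) + 1) * w) (hg1 : g1 = (m : ℝ) + 2)
    (hg' : g' = 2 * ((m : ℝ) + 1) + ((m : ℝ) + 1) / (2 * r ^ 2))
    (hc2 : c2 = w / ((m : ℝ) + 1)) (ha2 : a2 = 1 - c2) (hb2 : b2 = 2 * w)
    (hc1 : c1 = 1 / (w * ((m : ℝ) + 1))) (ha1 : a1 = 1 - c1)
    (hT0 : T0 = k0 * ((m : ℝ) + 1) ^ 2 + k1 * m) (hcc : c ≤ cc * (((m : ℝ) + 1) * α))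
    -- the scalar inequalities
    {lamu lamv t1 t1' κ1 Z : ℝ} (ht1 : t1 ≤ t1') (hκ1 : 0 < κ1)
    (hcl1 : ∀ d x : Fin (m + 2) → ℝ, (∀ i, q * x i ^ 2 ≤ d i - d i ^ 2) → ∑ i, d i = 1 →
      ∑ i, x i = 0 → ∑ i, d i * x i ≤ 0 →
      T0 + (k1 * ∑ i, d i ^ 2 - B * ∑ i, x i ^ 2 - c * ∑ i, d i * x i)
        + ∑ i, (lamu * (d i - d i ^ 2 - q * x i ^ 2) + lamv * ((1 - g1 * d i - 2 * x i) ^ 2
          + g' * (d i - d i ^ 2 - q * x i ^ 2))) < t1' → (SO.Rt Z x).card = cd)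
    (hnear1 : ∀ d x : Fin (m + 2) → ℝ, (∀ i, q * x i ^ 2 ≤ d i - d i ^ 2) → ∑ i, d i = 1 →
      ∑ i, x i = 0 → ∑ i, d i * x i ≤ 0 →
      (SO.Rt Z x).card = cd →
      T0 + (k1 * ∑ i, d i ^ 2 - B * ∑ i, x i ^ 2 - c * ∑ i, d i * x i)
        + ∑ i, (lamu * (d i - d i ^ 2 - q * x i ^ 2) + lamv * ((1 - g1 * d i - 2 * x i) ^ 2
          + g' * (d i - d i ^ 2 - q * x i ^ 2))) < t1 →
      κ1 * ∑ i, (if Z ≤ x i then a2 * d i - b2 * x i + c2 else w0 * (a1 * d i + 2 * x i + c1))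
        ≤ T0 + (k1 * ∑ i, d i ^ 2 - B * ∑ i, x i ^ 2 - c * ∑ i, d i * x i)
        + ∑ i, (lamu * (d i - d i ^ 2 - q * x i ^ 2) + lamv * ((1 - g1 * d i - 2 * x i) ^ 2
          + g' * (d i - d i ^ 2 - q * x i ^ 2))))
    {lamus lamvs tB κB : ℝ} (hκB : 0 < κB)
    (hnearB : ∀ d x : Fin (m + 2) → ℝ, (∀ i, q * x i ^ 2 ≤ d i - d i ^ 2) → ∑ i, d i = 1 →
      ∑ i, x i = 0 → ∑ i, d i * x i ≤ 0 →
      (SO.Rt Z x).card = cd →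
      T0 + (k1 * ∑ i, d i ^ 2 - B * ∑ i, x i ^ 2 - c * ∑ i, d i * x i)
        + ∑ i, (lamus * (d i - d i ^ 2 - q * x i ^ 2) + lamvs * ((1 - g1 * d i - 2 * x i) ^ 2
          + g' * (d i - d i ^ 2 - q * x i ^ 2))) < tB →
      κB * ∑ i, (if Z ≤ x i then a2 * d i - b2 * x i + c2 else w0 * (a1 * d i + 2 * x i + c1))
        ≤ T0 + (k1 * ∑ i, d i ^ 2 - B * ∑ i, x i ^ 2 - c * ∑ i, d i * x i)
        + ∑ i, (lamus * (d i - d i ^ 2 - q * x i ^ 2) + lamvs * ((1 - g1 * d i - 2 * x i) ^ 2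
          + g' * (d i - d i ^ 2 - q * x i ^ 2))))
    {lamus' lamvs' tS κS : ℝ} (hκS : 0 < κS)
    (hclS : ∀ d x : Fin (m + 2) → ℝ, (∀ i, q * x i ^ 2 ≤ d i - d i ^ 2) → ∑ i, d i = 1 →
      ∑ i, x i = 0 → ∑ i, d i * x i ≤ 0 →
      T0 + (k1 * ∑ i, d i ^ 2 - B * ∑ i, x i ^ 2 - c * ∑ i, d i * x i)
        + ∑ i, (lamus' * (d i - d i ^ 2 - q * x i ^ 2) + lamvs' * ((1 - g1 * d i - 2 * x i) ^ 2
          + g' * (d i - d i ^ 2 - q * x i ^ 2))) < tS → (SO.Rt Z x).card = cd)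
    (hnearS : ∀ d x : Fin (m + 2) → ℝ, (∀ i, q * x i ^ 2 ≤ d i - d i ^ 2) → ∑ i, d i = 1 →
      ∑ i, x i = 0 → ∑ i, d i * x i ≤ 0 →
      (SO.Rt Z x).card = cd →
      T0 + (k1 * ∑ i, d i ^ 2 - B * ∑ i, x i ^ 2 - c * ∑ i, d i * x i)
        + ∑ i, (lamus' * (d i - d i ^ 2 - q * x i ^ 2) + lamvs' * ((1 - g1 * d i - 2 * x i) ^ 2
          + g' * (d i - d i ^ 2 - q * x i ^ 2))) < tS →
      κS * ∑ i, (if Z ≤ x i then a2 * d i - b2 * x i + c2 else w0 * (a1 * d i + 2 * x i + c1))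
        ≤ T0 + (k1 * ∑ i, d i ^ 2 - B * ∑ i, x i ^ 2 - c * ∑ i, d i * x i)
        + ∑ i, (lamus' * (d i - d i ^ 2 - q * x i ^ 2) + lamvs' * ((1 - g1 * d i - 2 * x i) ^ 2
          + g' * (d i - d i ^ 2 - q * x i ^ 2))))
    -- the certificate with a parameter
    {l : List SO.GT} (hr' : ∀ t ∈ l, t.Reg) (hok : ∀ t ∈ l, t.ok h)
    (hw' : ∀ t ∈ l, ∀ x N : W, ‖x‖ = 1 → ‖N‖ = 1 → ⟪x, N⟫ = 0 →
      t.w (dv x N x N 0) = 1)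
    {Ro : ℝ → R9 → ℝ} (hRn : ∀ N : M → W, TwoG (volM V F) m F N → ∀ T ∈ Ioo (0 : ℝ) 1,
      Null (volM V F) F N 0 (Ro T))
    {R0 : R9 → ℝ} (hR0 : ∀ N : M → W, TwoG (volM V F) m F N → Null (volM V F) F N 0 R0)
    (hposT : ∀ T ∈ Ioo (0 : ℝ) 1, ∀ x N y w : W, ‖x‖ = 1 → ‖N‖ = 1 → ‖y‖ = 1 → ‖w‖ = 1 →
      ⟪x, N⟫ = 0 → ⟪y, w⟫ = 0 → SO.gS' (l.map SO.GT.v) T (dv x N y w 0)
        ≤ Ro T (dv x N y w 0))
    {c0 ρ κ γ lu lv : ℝ} (hc0 : 0 < c0) (hρ : 0 < ρ) (hκ : 0 ≤ κ) (hγ : 0 < γ)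
    (hl1 : lamu * ρ ≤ ((m : ℝ) + 1) / 2 * lu) (hl2 : lamv * ρ ≤ lv)
    (hl3 : (m + 1) * lu / 2 ≤ ρ * k1 + lv * (1 + ((m : ℝ) + 1) ^ 2
      - ((m : ℝ) + 1) / (2 * r ^ 2)))
    (h0 : ∀ x N y w : W, ‖x‖ = 1 → ‖N‖ = 1 → ‖y‖ = 1 → ‖w‖ = 1 → ⟪x, N⟫ = 0 → ⟪y, w⟫ = 0 →
      (l.map fun t => t.φ 0 * t.Q (dv x N y w 0)).sum
        ≤ c0 * (1 + γ * dv x N y w (0 : W) 3
          - (ρ * RF k0 k1 (-cc) (dv x N y w 0)
            + κ * dv x N y w (0 : W) 0 ^ 3) + R0 (dv x N y w 0)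
          - (lu * ((⟪x, w⟫ - ⟪N, y⟫) / 2) ^ 2
            + lv * (⟪N, w⟫ - ⟪x, y⟫ - kr * ((⟪x, w⟫ + ⟪N, y⟫) / 2)) ^ 2)))
    (hfl : OT.fluxC m h l = c0 * C)
    -- the static certificates
    {cs ρ2 κs lus lvs : ℝ} (hcs : c ≤ cs * (((m : ℝ) + 1) * α)) (hρ2 : 0 < ρ2)
    (hκs : 0 ≤ κs) (hls0 : lamus * ρ2 ≤ ((m : ℝ) + 1) / 2 * lus)
    (hls1 : lamvs * ρ2 ≤ lvs)
    (hls : (m + 1) * lus / 2 ≤ ρ2 * k1 + lvs * (1 + ((m : ℝ) + 1) ^ 2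
      - ((m : ℝ) + 1) / (2 * r ^ 2)))
    {b0 b1 b2' b3 b4 b5 b6 b7 b8 : ℝ} {l2 : List (ℝ × HTerm)}
    (hl : ∀ cT ∈ l2, cT.2.ok m = true)
    (hpos : ∀ e x N y w : W, ‖e‖ ^ 2 ≤ 25 / 36 → ‖x‖ = 1 → ‖N‖ = 1 → ‖y‖ = 1 → ‖w‖ = 1 →
      ⟪x, N⟫ = 0 → ⟪y, w⟫ = 0 → ⟪x, y⟫ < 1 → 0 ≤
        W9 b0 b1 b2' b3 b4 b5 b6 b7 b8 (dv x N y w e)
        + hsum m l2 (dv x N y w e)
        - (ρ2 * RF k0 k1 cs (dv x N y w e) + κs * dv x N y w e 0 ^ 3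
          + lus * ((dv x N y w e 1 - dv x N y w e 2) / 2) ^ 2
          + lvs * (dv x N y w e 3 - dv x N y w e 0
            + kr * ((dv x N y w e 1 + dv x N y w e 2) / 2)) ^ 2))
    {cst ρ2t κst lust lvst : ℝ} (hcst : c ≤ cst * (((m : ℝ) + 1) * α)) (hρ2t : 0 < ρ2t)
    (hκst : 0 ≤ κst) (hls0t : lamus' * ρ2t ≤ ((m : ℝ) + 1) / 2 * lust)
    (hls1t : lamvs' * ρ2t ≤ lvst)
    (hlst : (m + 1) * lust / 2 ≤ ρ2t * k1 + lvst * (1 + ((m : ℝ) + 1) ^ 2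
      - ((m : ℝ) + 1) / (2 * r ^ 2)))
    {b0t b1t b2't b3t b4t b5t b6t b7t b8t : ℝ} {l2t : List (ℝ × HTerm)}
    (hlt : ∀ cT ∈ l2t, cT.2.ok m = true)
    (hpost : ∀ e x N y w : W, ‖e‖ ^ 2 ≤ 25 / 36 → ‖x‖ = 1 → ‖N‖ = 1 → ‖y‖ = 1 → ‖w‖ = 1 →
      ⟪x, N⟫ = 0 → ⟪y, w⟫ = 0 → ⟪x, y⟫ < 1 → 0 ≤
        W9 b0t b1t b2't b3t b4t b5t b6t b7t b8t (dv x N y w e)
        + hsum m l2t (dv x N y w e)
        - (ρ2t * RF k0 k1 cst (dv x N y w e) + κst * dv x N y w e 0 ^ 3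
          + lust * ((dv x N y w e 1 - dv x N y w e 2) / 2) ^ 2
          + lvst * (dv x N y w e 3 - dv x N y w e 0
            + kr * ((dv x N y w e 1 + dv x N y w e 2) / 2)) ^ 2))
    {u0 u1 gs0 gs1 : ℝ} (hgs0 : 0 ≤ gs0) (hgs1 : 0 ≤ gs1)
    (hlaw0 : ∀ Θ u r : ℝ, Θ1 ≤ Θ → Θ ≤ C → u0 ≤ u → Θ ^ 2 * u ≤ 1 → u ^ 2 ≤ r → r ≤ u →
      Θ * (b0 + (b1 + b2' + b3) * u + (b4 + b7) * r + (b5 + b6) * u ^ 2
        + b8 * ((u - r) / ((m : ℕ) + 1))) + KH m * hval m l2 u r ≤ Θ * gs0)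
    (hlaw1 : ∀ Θ u r : ℝ, Θ1 ≤ Θ → Θ ≤ C → u1 ≤ u → Θ ^ 2 * u ≤ 1 → u ^ 2 ≤ r → r ≤ u →
      Θ * (b0t + (b1t + b2't + b3t) * u + (b4t + b7t) * r + (b5t + b6t) * u ^ 2
        + b8t * ((u - r) / ((m : ℕ) + 1))) + KH m * hval m l2t u r ≤ Θ * gs1)
    -- the bound of the mean normal
    {K : ℝ} (hK : 0 < K)
    (hone : ∀ N : M → W, TwoG (volM V F) m F N → ∀ (b : OrthonormalBasis (Fin (m + 2)) ℝ W)
      (S : Finset (Fin (m + 2))), S.card = cd →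
      ‖∫ x, N x ∂(volM V F)‖ ≤ K * ∫ x, devW w0 α b S (F x) (N x) ∂(volM V F))
    (hn1 : ((m : ℝ) + 1) ^ 2 * γ * u0 ≤ t1 * ρ)
    (hn2 : (((m : ℝ) + 1) ^ 2 * K * γ) ^ 2 * u0 ≤ (κ1 * ρ) ^ 2)
    (hm1 : ((m : ℝ) + 1) ^ 2 * γ * u1 ≤ t1' * ρ)
    (hm2 : ((m : ℝ) + 1) ^ 2 * gs0 < tB * ρ2)
    (hm3 : (((m : ℝ) + 1) ^ 2 * K * gs0) ^ 2 < (κB * ρ2) ^ 2 * u0)
    (hs1 : ((m : ℝ) + 1) ^ 2 * gs1 < tS * ρ2t)
    (hs2 : (((m : ℝ) + 1) ^ 2 * K * gs1) ^ 2 < (κS * ρ2t) ^ 2 * u1)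
    (hle : (volM V F).real univ ≤ C * sphereVol m) :
    (volM V F).real univ = C * sphereVol m ∧ Injective F ∧
      ∃ (N : M → W) (b : OrthonormalBasis (Fin (m + 2)) ℝ W) (S : Finset (Fin (m + 2))),
        ContMDiff 𝓘(ℝ, V) 𝓘(ℝ, W) ∞ N ∧ (∀ x, IsUnitNormal V F x (N x)) ∧ S.card = cd ∧
        ∀ x, N x = ∑ i, ((if i ∈ S then α else -(1 / α)) * ⟪F x, b i⟫) • b i := by
  have hE : finrank ℝ W = m + 2 := by omega
  have hm0 : m ≠ 0 := by omega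
  have hfin : IsFiniteMeasure (volM V F) := isFiniteMeasure_volM hF
  have hne : Nonempty M := inferInstance
  have hS0 : 0 < sphereVol m := sphereVol_pos' _
  have hA0 : 0 < (volM V F).real univ := by
    have : 0 < Θ1 * sphereVol m := by positivity
    linarith
  have hM : (0 : ℝ) < (m : ℝ) + 1 := by positivity
  have hM2 : (0 : ℝ) < ((m : ℝ) + 1) ^ 2 := by positivity
  -- the integrals
  have eT : ∀ N : M → W, ∫ q, (fun d : R9 => ρ * RF k0 k1 (-cc) d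
          + (lu * ((d 1 - d 2) / 2) ^ 2 + lv * (d 3 - d 0 - kr * ((d 1 + d 2) / 2)) ^ 2))
          (dat F (fun x => -N x) (0 : W) q) ∂((volM V F).prod (volM V F))
          = ∫ q : M × M, (ρ * (k0 + k1 * ⟪F q.1, F q.2⟫ ^ 2
              - ⟪F q.1, F q.2⟫ * ⟪N q.1, N q.2⟫
              + cc * (⟪F q.1, F q.2⟫ * ((⟪F q.1, N q.2⟫ + ⟪N q.1, F q.2⟫) / 2)))
            + lu * ((⟪F q.1, N q.2⟫ - ⟪N q.1, F q.2⟫) / 2) ^ 2
            + lv * (⟪N q.1, N q.2⟫ - ⟪F q.1, F q.2⟫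
              + 1 / r * ((⟪F q.1, N q.2⟫ + ⟪N q.1, F q.2⟫) / 2)) ^ 2)
            ∂((volM V F).prod (volM V F)) := by
    intro N
    refine integral_congr_ae (Eventually.of_forall fun q => ?_)
    have e0 : dat F (fun x => -N x) (0 : W) q 0 = ⟪F q.1, F q.2⟫ := rfl
    have e1 : dat F (fun x => -N x) (0 : W) q 1 = ⟪F q.1, -N q.2⟫ := rfl
    have e2 : dat F (fun x => -N x) (0 : W) q 2 = ⟪-N q.1, F q.2⟫ := rfl
    have e3 : dat F (fun x => -N x) (0 : W) q 3 = ⟪-N q.1, -N q.2⟫ := rfl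
    simp only [RF, e0, e1, e2, e3, inner_neg_left, inner_neg_right, hkr]
    ring
  have eS0 : ∀ (e : W) (N : M → W), ∫ q, (fun d : R9 => ρ2 * RF k0 k1 cs d + lus * ((d 1 - d 2) / 2) ^ 2
      + lvs * (d 3 - d 0 + kr * ((d 1 + d 2) / 2)) ^ 2)
          (dat F N e q) ∂((volM V F).prod (volM V F))
          = ∫ q : M × M, (ρ2 * (k0 + k1 * ⟪F q.1, F q.2⟫ ^ 2
              - ⟪F q.1, F q.2⟫ * ⟪N q.1, N q.2⟫
              + cs * (⟪F q.1, F q.2⟫ * ((⟪F q.1, N q.2⟫ + ⟪N q.1, F q.2⟫) / 2)))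
            + lus * ((⟪F q.1, N q.2⟫ - ⟪N q.1, F q.2⟫) / 2) ^ 2
            + lvs * (⟪N q.1, N q.2⟫ - ⟪F q.1, F q.2⟫
              + 1 / r * ((⟪F q.1, N q.2⟫ + ⟪N q.1, F q.2⟫) / 2)) ^ 2)
            ∂((volM V F).prod (volM V F)) := by
    intro e N
    refine integral_congr_ae (Eventually.of_forall fun q => ?_)
    have e0 : dat F N e q 0 = ⟪F q.1, F q.2⟫ := rfl
    have e1 : dat F N e q 1 = ⟪F q.1, N q.2⟫ := rfl
    have e2 : dat F N e q 2 = ⟪N q.1, F q.2⟫ := rfl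
    have e3 : dat F N e q 3 = ⟪N q.1, N q.2⟫ := rfl
    simp only [RF, e0, e1, e2, e3, hkr]
  have eSt : ∀ (e : W) (N : M → W), ∫ q, (fun d : R9 => ρ2t * RF k0 k1 cst d + lust * ((d 1 - d 2) / 2) ^ 2
      + lvst * (d 3 - d 0 + kr * ((d 1 + d 2) / 2)) ^ 2)
          (dat F N e q) ∂((volM V F).prod (volM V F))
          = ∫ q : M × M, (ρ2t * (k0 + k1 * ⟪F q.1, F q.2⟫ ^ 2
              - ⟪F q.1, F q.2⟫ * ⟪N q.1, N q.2⟫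
              + cst * (⟪F q.1, F q.2⟫ * ((⟪F q.1, N q.2⟫ + ⟪N q.1, F q.2⟫) / 2)))
            + lust * ((⟪F q.1, N q.2⟫ - ⟪N q.1, F q.2⟫) / 2) ^ 2
            + lvst * (⟪N q.1, N q.2⟫ - ⟪F q.1, F q.2⟫
              + 1 / r * ((⟪F q.1, N q.2⟫ + ⟪N q.1, F q.2⟫) / 2)) ^ 2)
            ∂((volM V F).prod (volM V F)) := by
    intro e N
    refine integral_congr_ae (Eventually.of_forall fun q => ?_)
    have e0 : dat F N e q 0 = ⟪F q.1, F q.2⟫ := rfl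
    have e1 : dat F N e q 1 = ⟪F q.1, N q.2⟫ := rfl
    have e2 : dat F N e q 2 = ⟪N q.1, F q.2⟫ := rfl
    have e3 : dat F N e q 3 = ⟪N q.1, N q.2⟫ := rfl
    simp only [RF, e0, e1, e2, e3, hkr]
  set M2 : ℝ := ((m : ℝ) + 1) ^ 2 with hM2d
  refine core_odd3 hmh hm hV hW hF hmin hC2 hΘ1 hΘ hr' hok hw' hRn hR0 hposT hc0 hκ hγ
    (RT := fun d => ρ * RF k0 k1 (-cc) d
      + (lu * ((d 1 - d 2) / 2) ^ 2 + lv * (d 3 - d 0 - kr * ((d 1 + d 2) / 2)) ^ 2))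
    (((continuous_RF _ _ _).const_mul ρ).add (by fun_prop))
    (fun x N y w a1 a2 a3 a4 a5 a6 => (h0 x N y w a1 a2 a3 a4 a5 a6).trans (le_of_eq (by
      have e0 : dv x N y w (0 : W) 0 = ⟪x, y⟫ := rfl
      have e1 : dv x N y w (0 : W) 1 = ⟪x, w⟫ := rfl
      have e2 : dv x N y w (0 : W) 2 = ⟪N, y⟫ := rfl
      have e3 : dv x N y w (0 : W) 3 = ⟪N, w⟫ := rfl
      rw [← e0, ← e1, ← e2, ← e3]
      ring))) hfl hgs0 hgs1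
    (RB := fun d => ρ2 * RF k0 k1 cs d + lus * ((d 1 - d 2) / 2) ^ 2
      + lvs * (d 3 - d 0 + kr * ((d 1 + d 2) / 2)) ^ 2)
    (RS := fun d => ρ2t * RF k0 k1 cst d + lust * ((d 1 - d 2) / 2) ^ 2
      + lvst * (d 3 - d 0 + kr * ((d 1 + d 2) / 2)) ^ 2)
    (fun N B' e hEb he' h3 h5 hu => stat_bound (RS := fun d => ρ2 * RF k0 k1 cs d + lus * ((d 1 - d 2) / 2) ^ 2
      + lvs * (d 3 - d 0 + kr * ((d 1 + d 2) / 2)) ^ 2) hm hEb he' hS0 hΘ1 hΘ hle h3 h5 hκs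
      ((((continuous_RF _ _ _).const_mul ρ2).add (by fun_prop)).add (by fun_prop)) hl
      (fun e x N y w a0 a1 a2 a3 a4 a5 a6 a7 => (hpos e x N y w a0 a1 a2 a3 a4 a5 a6 a7).trans
        (le_of_eq (by ring))) hlaw0 hu)
    (fun N B' e hEb he' h3 h5 hu => stat_bound (RS := fun d => ρ2t * RF k0 k1 cst d + lust * ((d 1 - d 2) / 2) ^ 2
      + lvst * (d 3 - d 0 + kr * ((d 1 + d 2) / 2)) ^ 2) hm hEb he' hS0 hΘ1 hΘ hle h3 h5 hκst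
      ((((continuous_RF _ _ _).const_mul ρ2t).add (by fun_prop)).add (by fun_prop)) hlt
      (fun e x N y w a0 a1 a2 a3 a4 a5 a6 a7 => (hpost e x N y w a0 a1 a2 a3 a4 a5 a6 a7).trans
        (le_of_eq (by ring))) hlaw1 hu)
    (α := α) (kT := κ1 * ρ / M2) (tT := t1 * ρ / M2) (tT' := t1' * ρ / M2)
    (kB := κB * ρ2 / M2) (tB := tB * ρ2 / M2) (kS := κS * ρ2t / M2) (tS := tS * ρ2t / M2)
    (cd := cd) (by positivity) (by positivity) (by positivity)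
    (Dw := fun N b S => ∫ x, devW w0 α b S (F x) (N x) ∂(volM V F)) ?_ ?_ ?_ ?_ hK hone
    ?_ ?_ ?_ ?_ ?_ ?_ ?_ hle
  · intro N hG b S
    refine integral_mono ?_ (integrable_devW ⟨hG.mp, hG.np⟩ ⟨hG.mn, hG.nn⟩ w0 α b S).1
      fun x => devA_le hw0 α b S (F x) (N x)
    refine (integrable_devW ⟨hG.mp, hG.np⟩ ⟨hG.mn, hG.nn⟩ 1 α b S).1.congr
      (Eventually.of_forall fun x => ?_)
    simp only [devA_sq]
    unfold devW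
    refine Finset.sum_congr rfl fun i _ => ?_
    rw [ite_self]
    ring
  · intro N hG hor hR
    rw [eT N] at hR ⊢
    obtain ⟨b, d, x, p1, p2, p3, p4, hdev, hcmp⟩ := stabData hE hm0 hG (sp_of_hng hng) hor hA0 w0
      hα hw hr hrα hB hq hg1 hg' hc2 ha2 hb2 hc1 ha1
    have cT := hcmp T0 k0 k1 c lamu lamv ρ cc lu lv hρ hT0 hcc hl1 hl2 hl3
    have hv := ar1 hA0 hρ hM2 cT hR
    have hc := hcl1 d x p1 p2 p3 p4 (hv.trans_le ht1)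
    exact ⟨b, SO.Rt Z x, hc, ar2 hρ hM2 cT (hnear1 d x p1 p2 p3 p4 hc hv) (hdev Z)⟩
  · intro e N hG hor hR hR'
    rw [eT N] at hR
    rw [eS0 e N] at hR' ⊢
    obtain ⟨b, d, x, p1, p2, p3, p4, hdev, hcmp⟩ := stabData hE hm0 hG (sp_of_hng hng) hor hA0 w0
      hα hw hr hrα hB hq hg1 hg' hc2 ha2 hb2 hc1 ha1
    have cT := hcmp T0 k0 k1 c lamu lamv ρ cc lu lv hρ hT0 hcc hl1 hl2 hl3
    have hc := hcl1 d x p1 p2 p3 p4 (ar1 hA0 hρ hM2 cT hR)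
    have cS := hcmp T0 k0 k1 c lamus lamvs ρ2 cs lus lvs hρ2 hT0 hcs hls0 hls1 hls
    have hv := ar1 hA0 hρ2 hM2 cS hR'
    exact ⟨b, SO.Rt Z x, hc, ar2 hρ2 hM2 cS (hnearB d x p1 p2 p3 p4 hc hv) (hdev Z)⟩
  · intro e N hG hor hR'
    rw [eSt e N] at hR' ⊢
    obtain ⟨b, d, x, p1, p2, p3, p4, hdev, hcmp⟩ := stabData hE hm0 hG (sp_of_hng hng) hor hA0 w0
      hα hw hr hrα hB hq hg1 hg' hc2 ha2 hb2 hc1 ha1
    have cS := hcmp T0 k0 k1 c lamus' lamvs' ρ2t cst lust lvst hρ2t hT0 hcst hls0t hls1t hlst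
    have hv := ar1 hA0 hρ2t hM2 cS hR'
    have hc := hclS d x p1 p2 p3 p4 hv
    exact ⟨b, SO.Rt Z x, hc, ar2 hρ2t hM2 cS (hnearS d x p1 p2 p3 p4 hc hv) (hdev Z)⟩
  · rw [le_div_iff₀ hM2]
    linarith
  · rw [div_pow, le_div_iff₀ (by positivity)]
    refine le_trans (le_of_eq ?_) hn2
    ring
  · rw [le_div_iff₀ hM2]
    linarith
  · rw [lt_div_iff₀ hM2]
    linarith
  · rw [div_pow, div_mul_eq_mul_div, lt_div_iff₀ (by positivity)]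
    refine lt_of_le_of_lt (le_of_eq ?_) hm3
    ring
  · rw [lt_div_iff₀ hM2]
    linarith
  · rw [div_pow, div_mul_eq_mul_div, lt_div_iff₀ (by positivity)]
    refine lt_of_le_of_lt (le_of_eq ?_) hs2
    ring

/-- **The sharp bound and its equality case in odd dimension**, three regions of the mean normal,
with one static certificate. -/
theorem core_KW3 {m h : ℕ} (hmh : m = 2 * h + 1) (hm : 4 < m) (hV : finrank ℝ V = m)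
    (hW : finrank ℝ W = finrank ℝ V + 2)
    {F : M → W} (hF : SphImm V F) (hmin : ∀ x n, IsUnitNormal V F x n → meanCurv V F x n = 0)
    (hng : ¬ ∃ a : W, a ≠ 0 ∧ ∀ x, ⟪F x, a⟫ = 0)
    {C Θ1 : ℝ} (hC2 : C < 2) (hΘ1 : 6 / 5 ≤ Θ1)
    (hΘ : Θ1 * sphereVol m ≤ (volM V F).real univ)
    -- the constants of the Clifford configuration
    {α r w kr w0 : ℝ} (hw0 : 1 ≤ w0) (hα : 0 < α) (hw : α ^ 2 = w) (hr : 0 < r)
    (hrα : ((m : ℝ) + 1) * α = 2 * r) (hkr : kr = 1 / r)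
    {T0 k0 k1 B c q g1 g' a2 b2 c2 a1 c1 cc : ℝ} {cd : ℕ}
    (hB : B = ((m : ℝ) + 1) ^ 2 * w) (hq : q = ((m : ℝ) + 1) * w) (hg1 : g1 = (m : ℝ) + 2)
    (hg' : g' = 2 * ((m : ℝ) + 1) + ((m : ℝ) + 1) / (2 * r ^ 2))
    (hc2 : c2 = w / ((m : ℝ) + 1)) (ha2 : a2 = 1 - c2) (hb2 : b2 = 2 * w)
    (hc1 : c1 = 1 / (w * ((m : ℝ) + 1))) (ha1 : a1 = 1 - c1)
    (hT0 : T0 = k0 * ((m : ℝ) + 1) ^ 2 + k1 * m) (hcc : c ≤ cc * (((m : ℝ) + 1) * α))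
    -- the scalar inequalities
    {lamu lamv t1 t1' κ1 Z : ℝ} (ht1 : t1 ≤ t1') (hκ1 : 0 < κ1)
    (hcl1 : ∀ d x : Fin (m + 2) → ℝ, (∀ i, q * x i ^ 2 ≤ d i - d i ^ 2) → ∑ i, d i = 1 →
      ∑ i, x i = 0 → ∑ i, d i * x i ≤ 0 →
      T0 + (k1 * ∑ i, d i ^ 2 - B * ∑ i, x i ^ 2 - c * ∑ i, d i * x i)
        + ∑ i, (lamu * (d i - d i ^ 2 - q * x i ^ 2) + lamv * ((1 - g1 * d i - 2 * x i) ^ 2
          + g' * (d i - d i ^ 2 - q * x i ^ 2))) < t1' → (SO.Rt Z x).card = cd)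
    (hnear1 : ∀ d x : Fin (m + 2) → ℝ, (∀ i, q * x i ^ 2 ≤ d i - d i ^ 2) → ∑ i, d i = 1 →
      ∑ i, x i = 0 → ∑ i, d i * x i ≤ 0 →
      (SO.Rt Z x).card = cd →
      T0 + (k1 * ∑ i, d i ^ 2 - B * ∑ i, x i ^ 2 - c * ∑ i, d i * x i)
        + ∑ i, (lamu * (d i - d i ^ 2 - q * x i ^ 2) + lamv * ((1 - g1 * d i - 2 * x i) ^ 2
          + g' * (d i - d i ^ 2 - q * x i ^ 2))) < t1 →
      κ1 * ∑ i, (if Z ≤ x i then a2 * d i - b2 * x i + c2 else w0 * (a1 * d i + 2 * x i + c1))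
        ≤ T0 + (k1 * ∑ i, d i ^ 2 - B * ∑ i, x i ^ 2 - c * ∑ i, d i * x i)
        + ∑ i, (lamu * (d i - d i ^ 2 - q * x i ^ 2) + lamv * ((1 - g1 * d i - 2 * x i) ^ 2
          + g' * (d i - d i ^ 2 - q * x i ^ 2))))
    {lamus lamvs t2 t2' κ2 : ℝ} (ht2 : t2 ≤ t2') (hκ2 : 0 < κ2)
    (hcl2 : ∀ d x : Fin (m + 2) → ℝ, (∀ i, q * x i ^ 2 ≤ d i - d i ^ 2) → ∑ i, d i = 1 →
      ∑ i, x i = 0 → ∑ i, d i * x i ≤ 0 →
      T0 + (k1 * ∑ i, d i ^ 2 - B * ∑ i, x i ^ 2 - c * ∑ i, d i * x i)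
        + ∑ i, (lamus * (d i - d i ^ 2 - q * x i ^ 2) + lamvs * ((1 - g1 * d i - 2 * x i) ^ 2
          + g' * (d i - d i ^ 2 - q * x i ^ 2))) < t2 → (SO.Rt Z x).card = cd)
    (hnear2 : ∀ d x : Fin (m + 2) → ℝ, (∀ i, q * x i ^ 2 ≤ d i - d i ^ 2) → ∑ i, d i = 1 →
      ∑ i, x i = 0 → ∑ i, d i * x i ≤ 0 →
      (SO.Rt Z x).card = cd →
      T0 + (k1 * ∑ i, d i ^ 2 - B * ∑ i, x i ^ 2 - c * ∑ i, d i * x i)
        + ∑ i, (lamus * (d i - d i ^ 2 - q * x i ^ 2) + lamvs * ((1 - g1 * d i - 2 * x i) ^ 2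
          + g' * (d i - d i ^ 2 - q * x i ^ 2))) < t2' →
      κ2 * ∑ i, (if Z ≤ x i then a2 * d i - b2 * x i + c2 else w0 * (a1 * d i + 2 * x i + c1))
        ≤ T0 + (k1 * ∑ i, d i ^ 2 - B * ∑ i, x i ^ 2 - c * ∑ i, d i * x i)
        + ∑ i, (lamus * (d i - d i ^ 2 - q * x i ^ 2) + lamvs * ((1 - g1 * d i - 2 * x i) ^ 2
          + g' * (d i - d i ^ 2 - q * x i ^ 2))))
    -- the certificate with a parameter
    {l : List SO.GT} (hr' : ∀ t ∈ l, t.Reg) (hok : ∀ t ∈ l, t.ok h)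
    (hw' : ∀ t ∈ l, ∀ x N : W, ‖x‖ = 1 → ‖N‖ = 1 → ⟪x, N⟫ = 0 →
      t.w (dv x N x N 0) = 1)
    {Ro : ℝ → R9 → ℝ} (hRn : ∀ N : M → W, TwoG (volM V F) m F N → ∀ T ∈ Ioo (0 : ℝ) 1,
      Null (volM V F) F N 0 (Ro T))
    {R0 : R9 → ℝ} (hR0 : ∀ N : M → W, TwoG (volM V F) m F N → Null (volM V F) F N 0 R0)
    (hposT : ∀ T ∈ Ioo (0 : ℝ) 1, ∀ x N y w : W, ‖x‖ = 1 → ‖N‖ = 1 → ‖y‖ = 1 → ‖w‖ = 1 →
      ⟪x, N⟫ = 0 → ⟪y, w⟫ = 0 → SO.gS' (l.map SO.GT.v) T (dv x N y w 0)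
        ≤ Ro T (dv x N y w 0))
    {c0 ρ κ γ lu lv : ℝ} (hc0 : 0 < c0) (hρ : 0 < ρ) (hκ : 0 ≤ κ) (hγ : 0 < γ)
    (hl1 : lamu * ρ ≤ ((m : ℝ) + 1) / 2 * lu) (hl2 : lamv * ρ ≤ lv)
    (hl3 : (m + 1) * lu / 2 ≤ ρ * k1 + lv * (1 + ((m : ℝ) + 1) ^ 2
      - ((m : ℝ) + 1) / (2 * r ^ 2)))
    (h0 : ∀ x N y w : W, ‖x‖ = 1 → ‖N‖ = 1 → ‖y‖ = 1 → ‖w‖ = 1 → ⟪x, N⟫ = 0 → ⟪y, w⟫ = 0 →
      (l.map fun t => t.φ 0 * t.Q (dv x N y w 0)).sum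
        ≤ c0 * (1 + γ * dv x N y w (0 : W) 3
          - (ρ * RF k0 k1 (-cc) (dv x N y w 0)
            + κ * dv x N y w (0 : W) 0 ^ 3) + R0 (dv x N y w 0)
          - (lu * ((⟪x, w⟫ - ⟪N, y⟫) / 2) ^ 2
            + lv * (⟪N, w⟫ - ⟪x, y⟫ - kr * ((⟪x, w⟫ + ⟪N, y⟫) / 2)) ^ 2)))
    (hfl : OT.fluxC m h l = c0 * C)
    -- the certificate with the mean normal
    {cs ρ2 κs lus lvs : ℝ} (hcs : c ≤ cs * (((m : ℝ) + 1) * α)) (hρ2 : 0 < ρ2)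
    (hκs : 0 ≤ κs) (hls0 : lamus * ρ2 ≤ ((m : ℝ) + 1) / 2 * lus)
    (hls1 : lamvs * ρ2 ≤ lvs)
    (hls : (m + 1) * lus / 2 ≤ ρ2 * k1 + lvs * (1 + ((m : ℝ) + 1) ^ 2
      - ((m : ℝ) + 1) / (2 * r ^ 2)))
    {b0 b1 b2' b3 b4 b5 b6 b7 b8 : ℝ} {l2 : List (ℝ × HTerm)}
    (hl : ∀ cT ∈ l2, cT.2.ok m = true)
    (hpos : ∀ e x N y w : W, ‖e‖ ^ 2 ≤ 25 / 36 → ‖x‖ = 1 → ‖N‖ = 1 → ‖y‖ = 1 → ‖w‖ = 1 →
      ⟪x, N⟫ = 0 → ⟪y, w⟫ = 0 → ⟪x, y⟫ < 1 → 0 ≤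
        W9 b0 b1 b2' b3 b4 b5 b6 b7 b8 (dv x N y w e)
        + hsum m l2 (dv x N y w e)
        - (ρ2 * RF k0 k1 cs (dv x N y w e) + κs * dv x N y w e 0 ^ 3
          + lus * ((dv x N y w e 1 - dv x N y w e 2) / 2) ^ 2
          + lvs * (dv x N y w e 3 - dv x N y w e 0
            + kr * ((dv x N y w e 1 + dv x N y w e 2) / 2)) ^ 2))
    {u0 u1 gs0 gs1 : ℝ} (hgs0 : 0 ≤ gs0) (hgs1 : 0 ≤ gs1)
    (hlaw0 : ∀ Θ u r : ℝ, Θ1 ≤ Θ → Θ ≤ C → u0 ≤ u → Θ ^ 2 * u ≤ 1 → u ^ 2 ≤ r → r ≤ u →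
      Θ * (b0 + (b1 + b2' + b3) * u + (b4 + b7) * r + (b5 + b6) * u ^ 2
        + b8 * ((u - r) / ((m : ℕ) + 1))) + KH m * hval m l2 u r ≤ Θ * gs0)
    (hlaw1 : ∀ Θ u r : ℝ, Θ1 ≤ Θ → Θ ≤ C → u1 ≤ u → Θ ^ 2 * u ≤ 1 → u ^ 2 ≤ r → r ≤ u →
      Θ * (b0 + (b1 + b2' + b3) * u + (b4 + b7) * r + (b5 + b6) * u ^ 2
        + b8 * ((u - r) / ((m : ℕ) + 1))) + KH m * hval m l2 u r ≤ Θ * gs1)
    -- the bound of the mean normal
    {K : ℝ} (hK : 0 < K)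
    (hone : ∀ N : M → W, TwoG (volM V F) m F N → ∀ (b : OrthonormalBasis (Fin (m + 2)) ℝ W)
      (S : Finset (Fin (m + 2))), S.card = cd →
      ‖∫ x, N x ∂(volM V F)‖ ≤ K * ∫ x, devW w0 α b S (F x) (N x) ∂(volM V F))
    (hn1 : ((m : ℝ) + 1) ^ 2 * γ * u0 ≤ t1 * ρ)
    (hn2 : (((m : ℝ) + 1) ^ 2 * K * γ) ^ 2 * u0 ≤ (κ1 * ρ) ^ 2)
    (hm1 : ((m : ℝ) + 1) ^ 2 * γ * u1 ≤ t1' * ρ)
    (hm2 : ((m : ℝ) + 1) ^ 2 * gs0 < t2' * ρ2)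
    (hm3 : (((m : ℝ) + 1) ^ 2 * K * gs0) ^ 2 < (κ2 * ρ2) ^ 2 * u0)
    (hs1 : ((m : ℝ) + 1) ^ 2 * gs1 < t2 * ρ2)
    (hs2 : (((m : ℝ) + 1) ^ 2 * K * gs1) ^ 2 < (κ2 * ρ2) ^ 2 * u1)
    (hle : (volM V F).real univ ≤ C * sphereVol m) :
    (volM V F).real univ = C * sphereVol m ∧ Injective F ∧
      ∃ (N : M → W) (b : OrthonormalBasis (Fin (m + 2)) ℝ W) (S : Finset (Fin (m + 2))),
        ContMDiff 𝓘(ℝ, V) 𝓘(ℝ, W) ∞ N ∧ (∀ x, IsUnitNormal V F x (N x)) ∧ S.card = cd ∧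
        ∀ x, N x = ∑ i, ((if i ∈ S then α else -(1 / α)) * ⟪F x, b i⟫) • b i := by
  exact core_KW33 hmh hm hV hW hF hmin hng hC2 hΘ1 hΘ hw0 hα hw hr hrα hkr hB hq hg1 hg' hc2 ha2 hb2
    hc1 ha1 hT0 hcc ht1 hκ1 hcl1 hnear1 hκ2 hnear2 hκ2 hcl2
    (fun d x p1 p2 p3 p4 p5 p6 => hnear2 d x p1 p2 p3 p4 p5 (p6.trans_le ht2))
    hr' hok hw' hRn hR0 hposT hc0 hρ hκ hγ hl1 hl2 hl3 h0 hfl
    hcs hρ2 hκs hls0 hls1 hls hl hpos hcs hρ2 hκs hls0 hls1 hls hl hpos hgs0 hgs1 hlaw0 hlaw1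
    hK hone hn1 hn2 hm1 hm2 hm3 hs1 hs2 hle

/-- **The sharp bound and its equality case in odd dimension**, three regions of the mean normal,
with one static certificate without the second slack. -/
theorem core_KW3s {m h : ℕ} (hmh : m = 2 * h + 1) (hm : 4 < m) (hV : finrank ℝ V = m)
    (hW : finrank ℝ W = finrank ℝ V + 2)
    {F : M → W} (hF : SphImm V F) (hmin : ∀ x n, IsUnitNormal V F x n → meanCurv V F x n = 0)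
    (hng : ¬ ∃ a : W, a ≠ 0 ∧ ∀ x, ⟪F x, a⟫ = 0)
    {C Θ1 : ℝ} (hC2 : C < 2) (hΘ1 : 6 / 5 ≤ Θ1)
    (hΘ : Θ1 * sphereVol m ≤ (volM V F).real univ)
    -- the constants of the Clifford configuration
    {α r w kr w0 : ℝ} (hw0 : 1 ≤ w0) (hα : 0 < α) (hw : α ^ 2 = w) (hr : 0 < r)
    (hrα : ((m : ℝ) + 1) * α = 2 * r) (hkr : kr = 1 / r)
    {T0 k0 k1 B c q g1 g' a2 b2 c2 a1 c1 cc : ℝ} {cd : ℕ}
    (hB : B = ((m : ℝ) + 1) ^ 2 * w) (hq : q = ((m : ℝ) + 1) * w) (hg1 : g1 = (m : ℝ) + 2)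
    (hg' : g' = 2 * ((m : ℝ) + 1) + ((m : ℝ) + 1) / (2 * r ^ 2))
    (hc2 : c2 = w / ((m : ℝ) + 1)) (ha2 : a2 = 1 - c2) (hb2 : b2 = 2 * w)
    (hc1 : c1 = 1 / (w * ((m : ℝ) + 1))) (ha1 : a1 = 1 - c1)
    (hT0 : T0 = k0 * ((m : ℝ) + 1) ^ 2 + k1 * m) (hcc : c ≤ cc * (((m : ℝ) + 1) * α))
    -- the scalar inequalities
    {lamu lamv t1 t1' κ1 Z : ℝ} (ht1 : t1 ≤ t1') (hκ1 : 0 < κ1)
    (hcl1 : ∀ d x : Fin (m + 2) → ℝ, (∀ i, q * x i ^ 2 ≤ d i - d i ^ 2) → ∑ i, d i = 1 →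
      ∑ i, x i = 0 → ∑ i, d i * x i ≤ 0 →
      T0 + (k1 * ∑ i, d i ^ 2 - B * ∑ i, x i ^ 2 - c * ∑ i, d i * x i)
        + ∑ i, (lamu * (d i - d i ^ 2 - q * x i ^ 2) + lamv * ((1 - g1 * d i - 2 * x i) ^ 2
          + g' * (d i - d i ^ 2 - q * x i ^ 2))) < t1' → (SO.Rt Z x).card = cd)
    (hnear1 : ∀ d x : Fin (m + 2) → ℝ, (∀ i, q * x i ^ 2 ≤ d i - d i ^ 2) → ∑ i, d i = 1 →
      ∑ i, x i = 0 → ∑ i, d i * x i ≤ 0 →
      (SO.Rt Z x).card = cd →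
      T0 + (k1 * ∑ i, d i ^ 2 - B * ∑ i, x i ^ 2 - c * ∑ i, d i * x i)
        + ∑ i, (lamu * (d i - d i ^ 2 - q * x i ^ 2) + lamv * ((1 - g1 * d i - 2 * x i) ^ 2
          + g' * (d i - d i ^ 2 - q * x i ^ 2))) < t1 →
      κ1 * ∑ i, (if Z ≤ x i then a2 * d i - b2 * x i + c2 else w0 * (a1 * d i + 2 * x i + c1))
        ≤ T0 + (k1 * ∑ i, d i ^ 2 - B * ∑ i, x i ^ 2 - c * ∑ i, d i * x i)
        + ∑ i, (lamu * (d i - d i ^ 2 - q * x i ^ 2) + lamv * ((1 - g1 * d i - 2 * x i) ^ 2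
          + g' * (d i - d i ^ 2 - q * x i ^ 2))))
    {lams t2 t2' κ2 : ℝ} (ht2 : t2 ≤ t2') (hκ2 : 0 < κ2)
    (hcl2 : ∀ d x : Fin (m + 2) → ℝ, (∀ i, q * x i ^ 2 ≤ d i - d i ^ 2) → ∑ i, d i = 1 →
      ∑ i, x i = 0 → ∑ i, d i * x i ≤ 0 →
      T0 + (k1 * ∑ i, d i ^ 2 - B * ∑ i, x i ^ 2 - c * ∑ i, d i * x i)
        + ∑ i, lams * (d i - d i ^ 2 - q * x i ^ 2) < t2 → (SO.Rt Z x).card = cd)
    (hnear2 : ∀ d x : Fin (m + 2) → ℝ, (∀ i, q * x i ^ 2 ≤ d i - d i ^ 2) → ∑ i, d i = 1 →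
      ∑ i, x i = 0 → ∑ i, d i * x i ≤ 0 →
      (SO.Rt Z x).card = cd →
      T0 + (k1 * ∑ i, d i ^ 2 - B * ∑ i, x i ^ 2 - c * ∑ i, d i * x i)
        + ∑ i, lams * (d i - d i ^ 2 - q * x i ^ 2) < t2' →
      κ2 * ∑ i, (if Z ≤ x i then a2 * d i - b2 * x i + c2 else w0 * (a1 * d i + 2 * x i + c1))
        ≤ T0 + (k1 * ∑ i, d i ^ 2 - B * ∑ i, x i ^ 2 - c * ∑ i, d i * x i)
        + ∑ i, lams * (d i - d i ^ 2 - q * x i ^ 2))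
    -- the certificate with a parameter
    {l : List SO.GT} (hr' : ∀ t ∈ l, t.Reg) (hok : ∀ t ∈ l, t.ok h)
    (hw' : ∀ t ∈ l, ∀ x N : W, ‖x‖ = 1 → ‖N‖ = 1 → ⟪x, N⟫ = 0 →
      t.w (dv x N x N 0) = 1)
    {Ro : ℝ → R9 → ℝ} (hRn : ∀ N : M → W, TwoG (volM V F) m F N → ∀ T ∈ Ioo (0 : ℝ) 1,
      Null (volM V F) F N 0 (Ro T))
    {R0 : R9 → ℝ} (hR0 : ∀ N : M → W, TwoG (volM V F) m F N → Null (volM V F) F N 0 R0)
    (hposT : ∀ T ∈ Ioo (0 : ℝ) 1, ∀ x N y w : W, ‖x‖ = 1 → ‖N‖ = 1 → ‖y‖ = 1 → ‖w‖ = 1 →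
      ⟪x, N⟫ = 0 → ⟪y, w⟫ = 0 → SO.gS' (l.map SO.GT.v) T (dv x N y w 0)
        ≤ Ro T (dv x N y w 0))
    {c0 ρ κ γ lu lv : ℝ} (hc0 : 0 < c0) (hρ : 0 < ρ) (hκ : 0 ≤ κ) (hγ : 0 < γ)
    (hl1 : lamu * ρ ≤ ((m : ℝ) + 1) / 2 * lu) (hl2 : lamv * ρ ≤ lv)
    (hl3 : (m + 1) * lu / 2 ≤ ρ * k1 + lv * (1 + ((m : ℝ) + 1) ^ 2
      - ((m : ℝ) + 1) / (2 * r ^ 2)))
    (h0 : ∀ x N y w : W, ‖x‖ = 1 → ‖N‖ = 1 → ‖y‖ = 1 → ‖w‖ = 1 → ⟪x, N⟫ = 0 → ⟪y, w⟫ = 0 →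
      (l.map fun t => t.φ 0 * t.Q (dv x N y w 0)).sum
        ≤ c0 * (1 + γ * dv x N y w (0 : W) 3
          - (ρ * RF k0 k1 (-cc) (dv x N y w 0)
            + κ * dv x N y w (0 : W) 0 ^ 3) + R0 (dv x N y w 0)
          - (lu * ((⟪x, w⟫ - ⟪N, y⟫) / 2) ^ 2
            + lv * (⟪N, w⟫ - ⟪x, y⟫ - kr * ((⟪x, w⟫ + ⟪N, y⟫) / 2)) ^ 2)))
    (hfl : OT.fluxC m h l = c0 * C)
    -- the certificate with the mean normal
    {cs ρ2 κs lus : ℝ} (hcs : c ≤ cs * (((m : ℝ) + 1) * α)) (hρ2 : 0 < ρ2)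
    (hκs : 0 ≤ κs) (hls0 : lams * ρ2 ≤ ((m : ℝ) + 1) / 2 * lus)
    (hls : (m + 1) * lus / 2 ≤ ρ2 * k1)
    {b0 b1 b2' b3 b4 b5 b6 b7 b8 : ℝ} {l2 : List (ℝ × HTerm)}
    (hl : ∀ cT ∈ l2, cT.2.ok m = true)
    (hpos : ∀ e x N y w : W, ‖e‖ ^ 2 ≤ 25 / 36 → ‖x‖ = 1 → ‖N‖ = 1 → ‖y‖ = 1 → ‖w‖ = 1 →
      ⟪x, N⟫ = 0 → ⟪y, w⟫ = 0 → ⟪x, y⟫ < 1 → 0 ≤
        W9 b0 b1 b2' b3 b4 b5 b6 b7 b8 (dv x N y w e)
        + hsum m l2 (dv x N y w e)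
        - (ρ2 * RF k0 k1 cs (dv x N y w e) + κs * dv x N y w e 0 ^ 3
          + lus * ((dv x N y w e 1 - dv x N y w e 2) / 2) ^ 2))
    {u0 u1 gs0 gs1 : ℝ} (hgs0 : 0 ≤ gs0) (hgs1 : 0 ≤ gs1)
    (hlaw0 : ∀ Θ u r : ℝ, Θ1 ≤ Θ → Θ ≤ C → u0 ≤ u → Θ ^ 2 * u ≤ 1 → u ^ 2 ≤ r → r ≤ u →
      Θ * (b0 + (b1 + b2' + b3) * u + (b4 + b7) * r + (b5 + b6) * u ^ 2
        + b8 * ((u - r) / ((m : ℕ) + 1))) + KH m * hval m l2 u r ≤ Θ * gs0)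
    (hlaw1 : ∀ Θ u r : ℝ, Θ1 ≤ Θ → Θ ≤ C → u1 ≤ u → Θ ^ 2 * u ≤ 1 → u ^ 2 ≤ r → r ≤ u →
      Θ * (b0 + (b1 + b2' + b3) * u + (b4 + b7) * r + (b5 + b6) * u ^ 2
        + b8 * ((u - r) / ((m : ℕ) + 1))) + KH m * hval m l2 u r ≤ Θ * gs1)
    -- the bound of the mean normal
    {K : ℝ} (hK : 0 < K)
    (hone : ∀ N : M → W, TwoG (volM V F) m F N → ∀ (b : OrthonormalBasis (Fin (m + 2)) ℝ W)
      (S : Finset (Fin (m + 2))), S.card = cd →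
      ‖∫ x, N x ∂(volM V F)‖ ≤ K * ∫ x, devW w0 α b S (F x) (N x) ∂(volM V F))
    (hn1 : ((m : ℝ) + 1) ^ 2 * γ * u0 ≤ t1 * ρ)
    (hn2 : (((m : ℝ) + 1) ^ 2 * K * γ) ^ 2 * u0 ≤ (κ1 * ρ) ^ 2)
    (hm1 : ((m : ℝ) + 1) ^ 2 * γ * u1 ≤ t1' * ρ)
    (hm2 : ((m : ℝ) + 1) ^ 2 * gs0 < t2' * ρ2)
    (hm3 : (((m : ℝ) + 1) ^ 2 * K * gs0) ^ 2 < (κ2 * ρ2) ^ 2 * u0)
    (hs1 : ((m : ℝ) + 1) ^ 2 * gs1 < t2 * ρ2)
    (hs2 : (((m : ℝ) + 1) ^ 2 * K * gs1) ^ 2 < (κ2 * ρ2) ^ 2 * u1)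
    (hle : (volM V F).real univ ≤ C * sphereVol m) :
    (volM V F).real univ = C * sphereVol m ∧ Injective F ∧
      ∃ (N : M → W) (b : OrthonormalBasis (Fin (m + 2)) ℝ W) (S : Finset (Fin (m + 2))),
        ContMDiff 𝓘(ℝ, V) 𝓘(ℝ, W) ∞ N ∧ (∀ x, IsUnitNormal V F x (N x)) ∧ S.card = cd ∧
        ∀ x, N x = ∑ i, ((if i ∈ S then α else -(1 / α)) * ⟪F x, b i⟫) • b i := by
  refine core_KW3 hmh hm hV hW hF hmin hng hC2 hΘ1 hΘ hw0 hα hw hr hrα hkr hB hq hg1 hg' hc2 ha2 hb2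
    hc1 ha1 hT0 hcc ht1 hκ1 hcl1 hnear1 (lamus := lams) (lamvs := 0) ht2 hκ2 ?_ ?_
    hr' hok hw' hRn hR0 hposT hc0 hρ hκ hγ hl1 hl2 hl3 h0 hfl
    (lus := lus) (lvs := 0) hcs hρ2 hκs hls0 (by rw [zero_mul])
    (by rw [zero_mul, add_zero]; exact hls) hl
    (fun e x N y w a0 a1 a2 a3 a4 a5 a6 a7 => (hpos e x N y w a0 a1 a2 a3 a4 a5 a6 a7).trans
      (le_of_eq (by ring))) hgs0 hgs1 hlaw0 hlaw1
    hK hone hn1 hn2 hm1 hm2 hm3 hs1 hs2 hle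
  · intro d x p1 p2 p3 p4 p5
    simp only [zero_mul, add_zero] at p5
    exact hcl2 d x p1 p2 p3 p4 p5
  · intro d x p1 p2 p3 p4 p5 p6
    simp only [zero_mul, add_zero] at p6 ⊢
    exact hnear2 d x p1 p2 p3 p4 p5 p6

end

end Vale.Agent.P224.PO
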