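import Vale.Agent.P224.PO.CoreW3

/-!
Odd dimension: the core theorem with a weighted distance and three regions of the mean normal,
with a scalar functional of its own for the static certificate.

For a small mean normal the law with a parameter alone gives the conclusion; for a large one the
static law alone is contradictory; in between the law with a parameter gives the number of points
on the right (a classification with a larger bound), and the static law the rest.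
-/

namespace Vale.Agent.P224.PO

open MeasureTheory Set Filter Function Module Vale.Agent.P224 Vale.Agent.P224.UE
open Vale.Agent.P224.SM2 hiding ker
open scoped Topology RealInnerProductSpace ENNReal ContDiff Manifold

set_option linter.unusedSectionVars false

section

variable {V W M : Type*} [NormedAddCommGroup V] [InnerProductSpace ℝ V] [FiniteDimensional ℝ V]
  [NormedAddCommGroup W] [InnerProductSpace ℝ W] [FiniteDimensional ℝ W]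
  [TopologicalSpace M] [ChartedSpace V M]
  [MeasurableSpace V] [BorelSpace V] [MeasurableSpace M] [BorelSpace M]
  [IsManifold 𝓘(ℝ, V) ∞ M] [CompactSpace M] [T2Space M] [ConnectedSpace M]
  [MeasurableSpace W] [BorelSpace W]

/-- **The sharp bound and its equality case in odd dimension**, three regions of the mean normal,
with two static certificates, each with its own scalar functional. -/
theorem core_KW4 {m h : ℕ} (hmh : m = 2 * h + 1) (hm : 4 < m) (hV : finrank ℝ V = m)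
    (hW : finrank ℝ W = finrank ℝ V + 2)
    {F : M → W} (hF : SphImm V F) (hmin : ∀ x n, IsUnitNormal V F x n → meanCurv V F x n = 0)
    (hng : ¬ ∃ a : W, a ≠ 0 ∧ ∀ x, ⟪F x, a⟫ = 0)
    {C Θ1 : ℝ} (hC2 : C < 2) (hΘ1 : 6 / 5 ≤ Θ1)
    (hΘ : Θ1 * sphereVol m ≤ (volM V F).real univ)
    -- the constants of the Clifford configuration
    {α r w kr w0 : ℝ} (hw0 : 1 ≤ w0) (hα : 0 < α) (hw : α ^ 2 = w) (hr : 0 < r)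
    (hrα : ((m : ℝ) + 1) * α = 2 * r) (hkr : kr = 1 / r)
    {T0 k0 k1 B c q g1 g' a2 b2 c2 a1 c1 cc : ℝ} {cd : ℕ}
    (hB : B = ((m : ℝ) + 1) ^ 2 * w) (hq : q = ((m : ℝ) + 1) * w) (hg1 : g1 = (m : ℝ) + 2)
    (hg' : g' = 2 * ((m : ℝ) + 1) + ((m : ℝ) + 1) / (2 * r ^ 2))
    (hc2 : c2 = w / ((m : ℝ) + 1)) (ha2 : a2 = 1 - c2) (hb2 : b2 = 2 * w)
    (hc1 : c1 = 1 / (w * ((m : ℝ) + 1))) (ha1 : a1 = 1 - c1)
    (hT0 : T0 = k0 * ((m : ℝ) + 1) ^ 2 + k1 * m) (hcc : c ≤ cc * (((m : ℝ) + 1) * α))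
    -- the scalar inequalities
    {lamu lamv t1 t1' κ1 Z : ℝ} (ht1 : t1 ≤ t1') (hκ1 : 0 < κ1)
    (hcl1 : ∀ d x : Fin (m + 2) → ℝ, (∀ i, q * x i ^ 2 ≤ d i - d i ^ 2) → ∑ i, d i = 1 →
      ∑ i, x i = 0 → ∑ i, d i * x i ≤ 0 →
      T0 + (k1 * ∑ i, d i ^ 2 - B * ∑ i, x i ^ 2 - c * ∑ i, d i * x i)
        + ∑ i, (lamu * (d i - d i ^ 2 - q * x i ^ 2) + lamv * ((1 - g1 * d i - 2 * x i) ^ 2
          + g' * (d i - d i ^ 2 - q * x i ^ 2))) < t1' → (SO.Rt Z x).card = cd)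
    (hnear1 : ∀ d x : Fin (m + 2) → ℝ, (∀ i, q * x i ^ 2 ≤ d i - d i ^ 2) → ∑ i, d i = 1 →
      ∑ i, x i = 0 → ∑ i, d i * x i ≤ 0 →
      (SO.Rt Z x).card = cd →
      T0 + (k1 * ∑ i, d i ^ 2 - B * ∑ i, x i ^ 2 - c * ∑ i, d i * x i)
        + ∑ i, (lamu * (d i - d i ^ 2 - q * x i ^ 2) + lamv * ((1 - g1 * d i - 2 * x i) ^ 2
          + g' * (d i - d i ^ 2 - q * x i ^ 2))) < t1 →
      κ1 * ∑ i, (if Z ≤ x i then a2 * d i - b2 * x i + c2 else w0 * (a1 * d i + 2 * x i + c1))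
        ≤ T0 + (k1 * ∑ i, d i ^ 2 - B * ∑ i, x i ^ 2 - c * ∑ i, d i * x i)
        + ∑ i, (lamu * (d i - d i ^ 2 - q * x i ^ 2) + lamv * ((1 - g1 * d i - 2 * x i) ^ 2
          + g' * (d i - d i ^ 2 - q * x i ^ 2))))
    {T0s k0s k1s cS T0t k0t k1t cT : ℝ} (hT0s : T0s = k0s * ((m : ℝ) + 1) ^ 2 + k1s * m)
    (hT0t : T0t = k0t * ((m : ℝ) + 1) ^ 2 + k1t * m)
    {lamus lamvs tB κB : ℝ} (hκB : 0 < κB)
    (hnearB : ∀ d x : Fin (m + 2) → ℝ, (∀ i, q * x i ^ 2 ≤ d i - d i ^ 2) → ∑ i, d i = 1 →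
      ∑ i, x i = 0 → ∑ i, d i * x i ≤ 0 →
      (SO.Rt Z x).card = cd →
      T0s + (k1s * ∑ i, d i ^ 2 - B * ∑ i, x i ^ 2 - cS * ∑ i, d i * x i)
        + ∑ i, (lamus * (d i - d i ^ 2 - q * x i ^ 2) + lamvs * ((1 - g1 * d i - 2 * x i) ^ 2
          + g' * (d i - d i ^ 2 - q * x i ^ 2))) < tB →
      κB * ∑ i, (if Z ≤ x i then a2 * d i - b2 * x i + c2 else w0 * (a1 * d i + 2 * x i + c1))
        ≤ T0s + (k1s * ∑ i, d i ^ 2 - B * ∑ i, x i ^ 2 - cS * ∑ i, d i * x i)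
        + ∑ i, (lamus * (d i - d i ^ 2 - q * x i ^ 2) + lamvs * ((1 - g1 * d i - 2 * x i) ^ 2
          + g' * (d i - d i ^ 2 - q * x i ^ 2))))
    {lamus' lamvs' tS κS : ℝ} (hκS : 0 < κS)
    (hclS : ∀ d x : Fin (m + 2) → ℝ, (∀ i, q * x i ^ 2 ≤ d i - d i ^ 2) → ∑ i, d i = 1 →
      ∑ i, x i = 0 → ∑ i, d i * x i ≤ 0 →
      T0t + (k1t * ∑ i, d i ^ 2 - B * ∑ i, x i ^ 2 - cT * ∑ i, d i * x i)
        + ∑ i, (lamus' * (d i - d i ^ 2 - q * x i ^ 2) + lamvs' * ((1 - g1 * d i - 2 * x i) ^ 2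
          + g' * (d i - d i ^ 2 - q * x i ^ 2))) < tS → (SO.Rt Z x).card = cd)
    (hnearS : ∀ d x : Fin (m + 2) → ℝ, (∀ i, q * x i ^ 2 ≤ d i - d i ^ 2) → ∑ i, d i = 1 →
      ∑ i, x i = 0 → ∑ i, d i * x i ≤ 0 →
      (SO.Rt Z x).card = cd →
      T0t + (k1t * ∑ i, d i ^ 2 - B * ∑ i, x i ^ 2 - cT * ∑ i, d i * x i)
        + ∑ i, (lamus' * (d i - d i ^ 2 - q * x i ^ 2) + lamvs' * ((1 - g1 * d i - 2 * x i) ^ 2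
          + g' * (d i - d i ^ 2 - q * x i ^ 2))) < tS →
      κS * ∑ i, (if Z ≤ x i then a2 * d i - b2 * x i + c2 else w0 * (a1 * d i + 2 * x i + c1))
        ≤ T0t + (k1t * ∑ i, d i ^ 2 - B * ∑ i, x i ^ 2 - cT * ∑ i, d i * x i)
        + ∑ i, (lamus' * (d i - d i ^ 2 - q * x i ^ 2) + lamvs' * ((1 - g1 * d i - 2 * x i) ^ 2
          + g' * (d i - d i ^ 2 - q * x i ^ 2))))
    -- the certificate with a parameter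
    {l : List SO.GT} (hr' : ∀ t ∈ l, t.Reg) (hok : ∀ t ∈ l, t.ok h)
    (hw' : ∀ t ∈ l, ∀ x N : W, ‖x‖ = 1 → ‖N‖ = 1 → ⟪x, N⟫ = 0 →
      t.w (dv x N x N 0) = 1)
    {Ro : ℝ → R9 → ℝ} (hRn : ∀ N : M → W, TwoG (volM V F) m F N → ∀ T ∈ Ioo (0 : ℝ) 1,
      Null (volM V F) F N 0 (Ro T))
    {R0 : R9 → ℝ} (hR0 : ∀ N : M → W, TwoG (volM V F) m F N → Null (volM V F) F N 0 R0)
    (hposT : ∀ T ∈ Ioo (0 : ℝ) 1, ∀ x N y w : W, ‖x‖ = 1 → ‖N‖ = 1 → ‖y‖ = 1 → ‖w‖ = 1 →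
      ⟪x, N⟫ = 0 → ⟪y, w⟫ = 0 → SO.gS' (l.map SO.GT.v) T (dv x N y w 0)
        ≤ Ro T (dv x N y w 0))
    {c0 ρ κ γ lu lv : ℝ} (hc0 : 0 < c0) (hρ : 0 < ρ) (hκ : 0 ≤ κ) (hγ : 0 < γ)
    (hl1 : lamu * ρ ≤ ((m : ℝ) + 1) / 2 * lu) (hl2 : lamv * ρ ≤ lv)
    (hl3 : (m + 1) * lu / 2 ≤ ρ * k1 + lv * (1 + ((m : ℝ) + 1) ^ 2
      - ((m : ℝ) + 1) / (2 * r ^ 2)))
    (h0 : ∀ x N y w : W, ‖x‖ = 1 → ‖N‖ = 1 → ‖y‖ = 1 → ‖w‖ = 1 → ⟪x, N⟫ = 0 → ⟪y, w⟫ = 0 →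
      (l.map fun t => t.φ 0 * t.Q (dv x N y w 0)).sum
        ≤ c0 * (1 + γ * dv x N y w (0 : W) 3
          - (ρ * RF k0 k1 (-cc) (dv x N y w 0)
            + κ * dv x N y w (0 : W) 0 ^ 3) + R0 (dv x N y w 0)
          - (lu * ((⟪x, w⟫ - ⟪N, y⟫) / 2) ^ 2
            + lv * (⟪N, w⟫ - ⟪x, y⟫ - kr * ((⟪x, w⟫ + ⟪N, y⟫) / 2)) ^ 2)))
    (hfl : OT.fluxC m h l = c0 * C)
    -- the static certificates
    {cs ρ2 κs lus lvs : ℝ} (hcs : cS ≤ cs * (((m : ℝ) + 1) * α)) (hρ2 : 0 < ρ2)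
    (hκs : 0 ≤ κs) (hls0 : lamus * ρ2 ≤ ((m : ℝ) + 1) / 2 * lus)
    (hls1 : lamvs * ρ2 ≤ lvs)
    (hls : (m + 1) * lus / 2 ≤ ρ2 * k1s + lvs * (1 + ((m : ℝ) + 1) ^ 2
      - ((m : ℝ) + 1) / (2 * r ^ 2)))
    {b0 b1 b2' b3 b4 b5 b6 b7 b8 : ℝ} {l2 : List (ℝ × HTerm)}
    (hl : ∀ cT ∈ l2, cT.2.ok m = true)
    (hpos : ∀ e x N y w : W, ‖e‖ ^ 2 ≤ 25 / 36 → ‖x‖ = 1 → ‖N‖ = 1 → ‖y‖ = 1 → ‖w‖ = 1 →
      ⟪x, N⟫ = 0 → ⟪y, w⟫ = 0 → ⟪x, y⟫ < 1 → 0 ≤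
        W9 b0 b1 b2' b3 b4 b5 b6 b7 b8 (dv x N y w e)
        + hsum m l2 (dv x N y w e)
        - (ρ2 * RF k0s k1s cs (dv x N y w e) + κs * dv x N y w e 0 ^ 3
          + lus * ((dv x N y w e 1 - dv x N y w e 2) / 2) ^ 2
          + lvs * (dv x N y w e 3 - dv x N y w e 0
            + kr * ((dv x N y w e 1 + dv x N y w e 2) / 2)) ^ 2))
    {cst ρ2t κst lust lvst : ℝ} (hcst : cT ≤ cst * (((m : ℝ) + 1) * α)) (hρ2t : 0 < ρ2t)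
    (hκst : 0 ≤ κst) (hls0t : lamus' * ρ2t ≤ ((m : ℝ) + 1) / 2 * lust)
    (hls1t : lamvs' * ρ2t ≤ lvst)
    (hlst : (m + 1) * lust / 2 ≤ ρ2t * k1t + lvst * (1 + ((m : ℝ) + 1) ^ 2
      - ((m : ℝ) + 1) / (2 * r ^ 2)))
    {b0t b1t b2't b3t b4t b5t b6t b7t b8t : ℝ} {l2t : List (ℝ × HTerm)}
    (hlt : ∀ cT ∈ l2t, cT.2.ok m = true)
    (hpost : ∀ e x N y w : W, ‖e‖ ^ 2 ≤ 25 / 36 → ‖x‖ = 1 → ‖N‖ = 1 → ‖y‖ = 1 → ‖w‖ = 1 →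
      ⟪x, N⟫ = 0 → ⟪y, w⟫ = 0 → ⟪x, y⟫ < 1 → 0 ≤
        W9 b0t b1t b2't b3t b4t b5t b6t b7t b8t (dv x N y w e)
        + hsum m l2t (dv x N y w e)
        - (ρ2t * RF k0t k1t cst (dv x N y w e) + κst * dv x N y w e 0 ^ 3
          + lust * ((dv x N y w e 1 - dv x N y w e 2) / 2) ^ 2
          + lvst * (dv x N y w e 3 - dv x N y w e 0
            + kr * ((dv x N y w e 1 + dv x N y w e 2) / 2)) ^ 2))
    {u0 u1 gs0 gs1 : ℝ} (hgs0 : 0 ≤ gs0) (hgs1 : 0 ≤ gs1)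
    (hlaw0 : ∀ Θ u r : ℝ, Θ1 ≤ Θ → Θ ≤ C → u0 ≤ u → Θ ^ 2 * u ≤ 1 → u ^ 2 ≤ r → r ≤ u →
      Θ * (b0 + (b1 + b2' + b3) * u + (b4 + b7) * r + (b5 + b6) * u ^ 2
        + b8 * ((u - r) / ((m : ℕ) + 1))) + KH m * hval m l2 u r ≤ Θ * gs0)
    (hlaw1 : ∀ Θ u r : ℝ, Θ1 ≤ Θ → Θ ≤ C → u1 ≤ u → Θ ^ 2 * u ≤ 1 → u ^ 2 ≤ r → r ≤ u →
      Θ * (b0t + (b1t + b2't + b3t) * u + (b4t + b7t) * r + (b5t + b6t) * u ^ 2
        + b8t * ((u - r) / ((m : ℕ) + 1))) + KH m * hval m l2t u r ≤ Θ * gs1)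
    -- the bound of the mean normal
    {K : ℝ} (hK : 0 < K)
    (hone : ∀ N : M → W, TwoG (volM V F) m F N → ∀ (b : OrthonormalBasis (Fin (m + 2)) ℝ W)
      (S : Finset (Fin (m + 2))), S.card = cd →
      ‖∫ x, N x ∂(volM V F)‖ ≤ K * ∫ x, devW w0 α b S (F x) (N x) ∂(volM V F))
    (hn1 : ((m : ℝ) + 1) ^ 2 * γ * u0 ≤ t1 * ρ)
    (hn2 : (((m : ℝ) + 1) ^ 2 * K * γ) ^ 2 * u0 ≤ (κ1 * ρ) ^ 2)
    (hm1 : ((m : ℝ) + 1) ^ 2 * γ * u1 ≤ t1' * ρ)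
    (hm2 : ((m : ℝ) + 1) ^ 2 * gs0 < tB * ρ2)
    (hm3 : (((m : ℝ) + 1) ^ 2 * K * gs0) ^ 2 < (κB * ρ2) ^ 2 * u0)
    (hs1 : ((m : ℝ) + 1) ^ 2 * gs1 < tS * ρ2t)
    (hs2 : (((m : ℝ) + 1) ^ 2 * K * gs1) ^ 2 < (κS * ρ2t) ^ 2 * u1)
    (hle : (volM V F).real univ ≤ C * sphereVol m) :
    (volM V F).real univ = C * sphereVol m ∧ Injective F ∧
      ∃ (N : M → W) (b : OrthonormalBasis (Fin (m + 2)) ℝ W) (S : Finset (Fin (m + 2))),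
        ContMDiff 𝓘(ℝ, V) 𝓘(ℝ, W) ∞ N ∧ (∀ x, IsUnitNormal V F x (N x)) ∧ S.card = cd ∧
        ∀ x, N x = ∑ i, ((if i ∈ S then α else -(1 / α)) * ⟪F x, b i⟫) • b i := by
  have hE : finrank ℝ W = m + 2 := by omega
  have hm0 : m ≠ 0 := by omega
  have hfin : IsFiniteMeasure (volM V F) := isFiniteMeasure_volM hF
  have hne : Nonempty M := inferInstance
  have hS0 : 0 < sphereVol m := sphereVol_pos' _
  have hA0 : 0 < (volM V F).real univ := by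
    have : 0 < Θ1 * sphereVol m := by positivity
    linarith
  have hM : (0 : ℝ) < (m : ℝ) + 1 := by positivity
  have hM2 : (0 : ℝ) < ((m : ℝ) + 1) ^ 2 := by positivity
  -- the integrals
  have eT : ∀ N : M → W, ∫ q, (fun d : R9 => ρ * RF k0 k1 (-cc) d
          + (lu * ((d 1 - d 2) / 2) ^ 2 + lv * (d 3 - d 0 - kr * ((d 1 + d 2) / 2)) ^ 2))
          (dat F (fun x => -N x) (0 : W) q) ∂((volM V F).prod (volM V F))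
          = ∫ q : M × M, (ρ * (k0 + k1 * ⟪F q.1, F q.2⟫ ^ 2
              - ⟪F q.1, F q.2⟫ * ⟪N q.1, N q.2⟫
              + cc * (⟪F q.1, F q.2⟫ * ((⟪F q.1, N q.2⟫ + ⟪N q.1, F q.2⟫) / 2)))
            + lu * ((⟪F q.1, N q.2⟫ - ⟪N q.1, F q.2⟫) / 2) ^ 2
            + lv * (⟪N q.1, N q.2⟫ - ⟪F q.1, F q.2⟫
              + 1 / r * ((⟪F q.1, N q.2⟫ + ⟪N q.1, F q.2⟫) / 2)) ^ 2)
            ∂((volM V F).prod (volM V F)) := by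
    intro N
    refine integral_congr_ae (Eventually.of_forall fun q => ?_)
    have e0 : dat F (fun x => -N x) (0 : W) q 0 = ⟪F q.1, F q.2⟫ := rfl
    have e1 : dat F (fun x => -N x) (0 : W) q 1 = ⟪F q.1, -N q.2⟫ := rfl
    have e2 : dat F (fun x => -N x) (0 : W) q 2 = ⟪-N q.1, F q.2⟫ := rfl
    have e3 : dat F (fun x => -N x) (0 : W) q 3 = ⟪-N q.1, -N q.2⟫ := rfl
    simp only [RF, e0, e1, e2, e3, inner_neg_left, inner_neg_right, hkr]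
    ring
  have eS0 : ∀ (e : W) (N : M → W), ∫ q, (fun d : R9 => ρ2 * RF k0s k1s cs d + lus * ((d 1 - d 2) / 2) ^ 2
      + lvs * (d 3 - d 0 + kr * ((d 1 + d 2) / 2)) ^ 2)
          (dat F N e q) ∂((volM V F).prod (volM V F))
          = ∫ q : M × M, (ρ2 * (k0s + k1s * ⟪F q.1, F q.2⟫ ^ 2
              - ⟪F q.1, F q.2⟫ * ⟪N q.1, N q.2⟫
              + cs * (⟪F q.1, F q.2⟫ * ((⟪F q.1, N q.2⟫ + ⟪N q.1, F q.2⟫) / 2)))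
            + lus * ((⟪F q.1, N q.2⟫ - ⟪N q.1, F q.2⟫) / 2) ^ 2
            + lvs * (⟪N q.1, N q.2⟫ - ⟪F q.1, F q.2⟫
              + 1 / r * ((⟪F q.1, N q.2⟫ + ⟪N q.1, F q.2⟫) / 2)) ^ 2)
            ∂((volM V F).prod (volM V F)) := by
    intro e N
    refine integral_congr_ae (Eventually.of_forall fun q => ?_)
    have e0 : dat F N e q 0 = ⟪F q.1, F q.2⟫ := rfl
    have e1 : dat F N e q 1 = ⟪F q.1, N q.2⟫ := rfl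
    have e2 : dat F N e q 2 = ⟪N q.1, F q.2⟫ := rfl
    have e3 : dat F N e q 3 = ⟪N q.1, N q.2⟫ := rfl
    simp only [RF, e0, e1, e2, e3, hkr]
  have eSt : ∀ (e : W) (N : M → W), ∫ q, (fun d : R9 => ρ2t * RF k0t k1t cst d + lust * ((d 1 - d 2) / 2) ^ 2
      + lvst * (d 3 - d 0 + kr * ((d 1 + d 2) / 2)) ^ 2)
          (dat F N e q) ∂((volM V F).prod (volM V F))
          = ∫ q : M × M, (ρ2t * (k0t + k1t * ⟪F q.1, F q.2⟫ ^ 2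
              - ⟪F q.1, F q.2⟫ * ⟪N q.1, N q.2⟫
              + cst * (⟪F q.1, F q.2⟫ * ((⟪F q.1, N q.2⟫ + ⟪N q.1, F q.2⟫) / 2)))
            + lust * ((⟪F q.1, N q.2⟫ - ⟪N q.1, F q.2⟫) / 2) ^ 2
            + lvst * (⟪N q.1, N q.2⟫ - ⟪F q.1, F q.2⟫
              + 1 / r * ((⟪F q.1, N q.2⟫ + ⟪N q.1, F q.2⟫) / 2)) ^ 2)
            ∂((volM V F).prod (volM V F)) := by
    intro e N
    refine integral_congr_ae (Eventually.of_forall fun q => ?_)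
    have e0 : dat F N e q 0 = ⟪F q.1, F q.2⟫ := rfl
    have e1 : dat F N e q 1 = ⟪F q.1, N q.2⟫ := rfl
    have e2 : dat F N e q 2 = ⟪N q.1, F q.2⟫ := rfl
    have e3 : dat F N e q 3 = ⟪N q.1, N q.2⟫ := rfl
    simp only [RF, e0, e1, e2, e3, hkr]
  set M2 : ℝ := ((m : ℝ) + 1) ^ 2 with hM2d
  refine core_odd3 hmh hm hV hW hF hmin hC2 hΘ1 hΘ hr' hok hw' hRn hR0 hposT hc0 hκ hγ
    (RT := fun d => ρ * RF k0 k1 (-cc) d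
      + (lu * ((d 1 - d 2) / 2) ^ 2 + lv * (d 3 - d 0 - kr * ((d 1 + d 2) / 2)) ^ 2))
    (((continuous_RF _ _ _).const_mul ρ).add (by fun_prop))
    (fun x N y w a1 a2 a3 a4 a5 a6 => (h0 x N y w a1 a2 a3 a4 a5 a6).trans (le_of_eq (by
      have e0 : dv x N y w (0 : W) 0 = ⟪x, y⟫ := rfl
      have e1 : dv x N y w (0 : W) 1 = ⟪x, w⟫ := rfl
      have e2 : dv x N y w (0 : W) 2 = ⟪N, y⟫ := rfl
      have e3 : dv x N y w (0 : W) 3 = ⟪N, w⟫ := rfl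
      rw [← e0, ← e1, ← e2, ← e3]
      ring))) hfl hgs0 hgs1
    (RB := fun d => ρ2 * RF k0s k1s cs d + lus * ((d 1 - d 2) / 2) ^ 2
      + lvs * (d 3 - d 0 + kr * ((d 1 + d 2) / 2)) ^ 2)
    (RS := fun d => ρ2t * RF k0t k1t cst d + lust * ((d 1 - d 2) / 2) ^ 2
      + lvst * (d 3 - d 0 + kr * ((d 1 + d 2) / 2)) ^ 2)
    (fun N B' e hEb he' h3 h5 hu => stat_bound (RS := fun d => ρ2 * RF k0s k1s cs d + lus * ((d 1 - d 2) / 2) ^ 2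
      + lvs * (d 3 - d 0 + kr * ((d 1 + d 2) / 2)) ^ 2) hm hEb he' hS0 hΘ1 hΘ hle h3 h5 hκs
      ((((continuous_RF _ _ _).const_mul ρ2).add (by fun_prop)).add (by fun_prop)) hl
      (fun e x N y w a0 a1 a2 a3 a4 a5 a6 a7 => (hpos e x N y w a0 a1 a2 a3 a4 a5 a6 a7).trans
        (le_of_eq (by ring))) hlaw0 hu)
    (fun N B' e hEb he' h3 h5 hu => stat_bound (RS := fun d => ρ2t * RF k0t k1t cst d + lust * ((d 1 - d 2) / 2) ^ 2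
      + lvst * (d 3 - d 0 + kr * ((d 1 + d 2) / 2)) ^ 2) hm hEb he' hS0 hΘ1 hΘ hle h3 h5 hκst
      ((((continuous_RF _ _ _).const_mul ρ2t).add (by fun_prop)).add (by fun_prop)) hlt
      (fun e x N y w a0 a1 a2 a3 a4 a5 a6 a7 => (hpost e x N y w a0 a1 a2 a3 a4 a5 a6 a7).trans
        (le_of_eq (by ring))) hlaw1 hu)
    (α := α) (kT := κ1 * ρ / M2) (tT := t1 * ρ / M2) (tT' := t1' * ρ / M2)
    (kB := κB * ρ2 / M2) (tB := tB * ρ2 / M2) (kS := κS * ρ2t / M2) (tS := tS * ρ2t / M2)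
    (cd := cd) (by positivity) (by positivity) (by positivity)
    (Dw := fun N b S => ∫ x, devW w0 α b S (F x) (N x) ∂(volM V F)) ?_ ?_ ?_ ?_ hK hone
    ?_ ?_ ?_ ?_ ?_ ?_ ?_ hle
  · intro N hG b S
    refine integral_mono ?_ (integrable_devW ⟨hG.mp, hG.np⟩ ⟨hG.mn, hG.nn⟩ w0 α b S).1
      fun x => devA_le hw0 α b S (F x) (N x)
    refine (integrable_devW ⟨hG.mp, hG.np⟩ ⟨hG.mn, hG.nn⟩ 1 α b S).1.congr
      (Eventually.of_forall fun x => ?_)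
    simp only [devA_sq]
    unfold devW
    refine Finset.sum_congr rfl fun i _ => ?_
    rw [ite_self]
    ring
  · intro N hG hor hR
    rw [eT N] at hR ⊢
    obtain ⟨b, d, x, p1, p2, p3, p4, hdev, hcmp⟩ := stabData hE hm0 hG (sp_of_hng hng) hor hA0 w0
      hα hw hr hrα hB hq hg1 hg' hc2 ha2 hb2 hc1 ha1
    have cT := hcmp T0 k0 k1 c lamu lamv ρ cc lu lv hρ hT0 hcc hl1 hl2 hl3
    have hv := ar1 hA0 hρ hM2 cT hR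
    have hc := hcl1 d x p1 p2 p3 p4 (hv.trans_le ht1)
    exact ⟨b, SO.Rt Z x, hc, ar2 hρ hM2 cT (hnear1 d x p1 p2 p3 p4 hc hv) (hdev Z)⟩
  · intro e N hG hor hR hR'
    rw [eT N] at hR
    rw [eS0 e N] at hR' ⊢
    obtain ⟨b, d, x, p1, p2, p3, p4, hdev, hcmp⟩ := stabData hE hm0 hG (sp_of_hng hng) hor hA0 w0
      hα hw hr hrα hB hq hg1 hg' hc2 ha2 hb2 hc1 ha1
    have cT := hcmp T0 k0 k1 c lamu lamv ρ cc lu lv hρ hT0 hcc hl1 hl2 hl3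
    have hc := hcl1 d x p1 p2 p3 p4 (ar1 hA0 hρ hM2 cT hR)
    have cS := hcmp T0s k0s k1s cS lamus lamvs ρ2 cs lus lvs hρ2 hT0s hcs hls0 hls1 hls
    have hv := ar1 hA0 hρ2 hM2 cS hR'
    exact ⟨b, SO.Rt Z x, hc, ar2 hρ2 hM2 cS (hnearB d x p1 p2 p3 p4 hc hv) (hdev Z)⟩
  · intro e N hG hor hR'
    rw [eSt e N] at hR' ⊢
    obtain ⟨b, d, x, p1, p2, p3, p4, hdev, hcmp⟩ := stabData hE hm0 hG (sp_of_hng hng) hor hA0 w0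
      hα hw hr hrα hB hq hg1 hg' hc2 ha2 hb2 hc1 ha1
    have cS := hcmp T0t k0t k1t cT lamus' lamvs' ρ2t cst lust lvst hρ2t hT0t hcst hls0t hls1t hlst
    have hv := ar1 hA0 hρ2t hM2 cS hR'
    have hc := hclS d x p1 p2 p3 p4 hv
    exact ⟨b, SO.Rt Z x, hc, ar2 hρ2t hM2 cS (hnearS d x p1 p2 p3 p4 hc hv) (hdev Z)⟩
  · rw [le_div_iff₀ hM2]
    linarith
  · rw [div_pow, le_div_iff₀ (by positivity)]
    refine le_trans (le_of_eq ?_) hn2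
    ring
  · rw [le_div_iff₀ hM2]
    linarith
  · rw [lt_div_iff₀ hM2]
    linarith
  · rw [div_pow, div_mul_eq_mul_div, lt_div_iff₀ (by positivity)]
    refine lt_of_le_of_lt (le_of_eq ?_) hm3
    ring
  · rw [lt_div_iff₀ hM2]
    linarith
  · rw [div_pow, div_mul_eq_mul_div, lt_div_iff₀ (by positivity)]
    refine lt_of_le_of_lt (le_of_eq ?_) hs2
    ring

/-- **The sharp bound and its equality case in odd dimension**, three regions of the mean normal,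
with one static certificate with its own scalar functional. -/
theorem core_KW5 {m h : ℕ} (hmh : m = 2 * h + 1) (hm : 4 < m) (hV : finrank ℝ V = m)
    (hW : finrank ℝ W = finrank ℝ V + 2)
    {F : M → W} (hF : SphImm V F) (hmin : ∀ x n, IsUnitNormal V F x n → meanCurv V F x n = 0)
    (hng : ¬ ∃ a : W, a ≠ 0 ∧ ∀ x, ⟪F x, a⟫ = 0)
    {C Θ1 : ℝ} (hC2 : C < 2) (hΘ1 : 6 / 5 ≤ Θ1)
    (hΘ : Θ1 * sphereVol m ≤ (volM V F).real univ)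
    -- the constants of the Clifford configuration
    {α r w kr w0 : ℝ} (hw0 : 1 ≤ w0) (hα : 0 < α) (hw : α ^ 2 = w) (hr : 0 < r)
    (hrα : ((m : ℝ) + 1) * α = 2 * r) (hkr : kr = 1 / r)
    {T0 k0 k1 B c q g1 g' a2 b2 c2 a1 c1 cc : ℝ} {cd : ℕ}
    (hB : B = ((m : ℝ) + 1) ^ 2 * w) (hq : q = ((m : ℝ) + 1) * w) (hg1 : g1 = (m : ℝ) + 2)
    (hg' : g' = 2 * ((m : ℝ) + 1) + ((m : ℝ) + 1) / (2 * r ^ 2))
    (hc2 : c2 = w / ((m : ℝ) + 1)) (ha2 : a2 = 1 - c2) (hb2 : b2 = 2 * w)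
    (hc1 : c1 = 1 / (w * ((m : ℝ) + 1))) (ha1 : a1 = 1 - c1)
    (hT0 : T0 = k0 * ((m : ℝ) + 1) ^ 2 + k1 * m) (hcc : c ≤ cc * (((m : ℝ) + 1) * α))
    -- the scalar inequalities
    {lamu lamv t1 t1' κ1 Z : ℝ} (ht1 : t1 ≤ t1') (hκ1 : 0 < κ1)
    (hcl1 : ∀ d x : Fin (m + 2) → ℝ, (∀ i, q * x i ^ 2 ≤ d i - d i ^ 2) → ∑ i, d i = 1 →
      ∑ i, x i = 0 → ∑ i, d i * x i ≤ 0 →
      T0 + (k1 * ∑ i, d i ^ 2 - B * ∑ i, x i ^ 2 - c * ∑ i, d i * x i)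
        + ∑ i, (lamu * (d i - d i ^ 2 - q * x i ^ 2) + lamv * ((1 - g1 * d i - 2 * x i) ^ 2
          + g' * (d i - d i ^ 2 - q * x i ^ 2))) < t1' → (SO.Rt Z x).card = cd)
    (hnear1 : ∀ d x : Fin (m + 2) → ℝ, (∀ i, q * x i ^ 2 ≤ d i - d i ^ 2) → ∑ i, d i = 1 →
      ∑ i, x i = 0 → ∑ i, d i * x i ≤ 0 →
      (SO.Rt Z x).card = cd →
      T0 + (k1 * ∑ i, d i ^ 2 - B * ∑ i, x i ^ 2 - c * ∑ i, d i * x i)
        + ∑ i, (lamu * (d i - d i ^ 2 - q * x i ^ 2) + lamv * ((1 - g1 * d i - 2 * x i) ^ 2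
          + g' * (d i - d i ^ 2 - q * x i ^ 2))) < t1 →
      κ1 * ∑ i, (if Z ≤ x i then a2 * d i - b2 * x i + c2 else w0 * (a1 * d i + 2 * x i + c1))
        ≤ T0 + (k1 * ∑ i, d i ^ 2 - B * ∑ i, x i ^ 2 - c * ∑ i, d i * x i)
        + ∑ i, (lamu * (d i - d i ^ 2 - q * x i ^ 2) + lamv * ((1 - g1 * d i - 2 * x i) ^ 2
          + g' * (d i - d i ^ 2 - q * x i ^ 2))))
    {T0s k0s k1s cS : ℝ} (hT0s : T0s = k0s * ((m : ℝ) + 1) ^ 2 + k1s * m)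
    {lamus lamvs t2 t2' κ2 : ℝ} (ht2 : t2 ≤ t2') (hκ2 : 0 < κ2)
    (hcl2 : ∀ d x : Fin (m + 2) → ℝ, (∀ i, q * x i ^ 2 ≤ d i - d i ^ 2) → ∑ i, d i = 1 →
      ∑ i, x i = 0 → ∑ i, d i * x i ≤ 0 →
      T0s + (k1s * ∑ i, d i ^ 2 - B * ∑ i, x i ^ 2 - cS * ∑ i, d i * x i)
        + ∑ i, (lamus * (d i - d i ^ 2 - q * x i ^ 2) + lamvs * ((1 - g1 * d i - 2 * x i) ^ 2
          + g' * (d i - d i ^ 2 - q * x i ^ 2))) < t2 → (SO.Rt Z x).card = cd)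
    (hnear2 : ∀ d x : Fin (m + 2) → ℝ, (∀ i, q * x i ^ 2 ≤ d i - d i ^ 2) → ∑ i, d i = 1 →
      ∑ i, x i = 0 → ∑ i, d i * x i ≤ 0 →
      (SO.Rt Z x).card = cd →
      T0s + (k1s * ∑ i, d i ^ 2 - B * ∑ i, x i ^ 2 - cS * ∑ i, d i * x i)
        + ∑ i, (lamus * (d i - d i ^ 2 - q * x i ^ 2) + lamvs * ((1 - g1 * d i - 2 * x i) ^ 2
          + g' * (d i - d i ^ 2 - q * x i ^ 2))) < t2' →
      κ2 * ∑ i, (if Z ≤ x i then a2 * d i - b2 * x i + c2 else w0 * (a1 * d i + 2 * x i + c1))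
        ≤ T0s + (k1s * ∑ i, d i ^ 2 - B * ∑ i, x i ^ 2 - cS * ∑ i, d i * x i)
        + ∑ i, (lamus * (d i - d i ^ 2 - q * x i ^ 2) + lamvs * ((1 - g1 * d i - 2 * x i) ^ 2
          + g' * (d i - d i ^ 2 - q * x i ^ 2))))
    -- the certificate with a parameter
    {l : List SO.GT} (hr' : ∀ t ∈ l, t.Reg) (hok : ∀ t ∈ l, t.ok h)
    (hw' : ∀ t ∈ l, ∀ x N : W, ‖x‖ = 1 → ‖N‖ = 1 → ⟪x, N⟫ = 0 →
      t.w (dv x N x N 0) = 1)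
    {Ro : ℝ → R9 → ℝ} (hRn : ∀ N : M → W, TwoG (volM V F) m F N → ∀ T ∈ Ioo (0 : ℝ) 1,
      Null (volM V F) F N 0 (Ro T))
    {R0 : R9 → ℝ} (hR0 : ∀ N : M → W, TwoG (volM V F) m F N → Null (volM V F) F N 0 R0)
    (hposT : ∀ T ∈ Ioo (0 : ℝ) 1, ∀ x N y w : W, ‖x‖ = 1 → ‖N‖ = 1 → ‖y‖ = 1 → ‖w‖ = 1 →
      ⟪x, N⟫ = 0 → ⟪y, w⟫ = 0 → SO.gS' (l.map SO.GT.v) T (dv x N y w 0)
        ≤ Ro T (dv x N y w 0))
    {c0 ρ κ γ lu lv : ℝ} (hc0 : 0 < c0) (hρ : 0 < ρ) (hκ : 0 ≤ κ) (hγ : 0 < γ)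
    (hl1 : lamu * ρ ≤ ((m : ℝ) + 1) / 2 * lu) (hl2 : lamv * ρ ≤ lv)
    (hl3 : (m + 1) * lu / 2 ≤ ρ * k1 + lv * (1 + ((m : ℝ) + 1) ^ 2
      - ((m : ℝ) + 1) / (2 * r ^ 2)))
    (h0 : ∀ x N y w : W, ‖x‖ = 1 → ‖N‖ = 1 → ‖y‖ = 1 → ‖w‖ = 1 → ⟪x, N⟫ = 0 → ⟪y, w⟫ = 0 →
      (l.map fun t => t.φ 0 * t.Q (dv x N y w 0)).sum
        ≤ c0 * (1 + γ * dv x N y w (0 : W) 3
          - (ρ * RF k0 k1 (-cc) (dv x N y w 0)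
            + κ * dv x N y w (0 : W) 0 ^ 3) + R0 (dv x N y w 0)
          - (lu * ((⟪x, w⟫ - ⟪N, y⟫) / 2) ^ 2
            + lv * (⟪N, w⟫ - ⟪x, y⟫ - kr * ((⟪x, w⟫ + ⟪N, y⟫) / 2)) ^ 2)))
    (hfl : OT.fluxC m h l = c0 * C)
    -- the certificate with the mean normal
    {cs ρ2 κs lus lvs : ℝ} (hcs : cS ≤ cs * (((m : ℝ) + 1) * α)) (hρ2 : 0 < ρ2)
    (hκs : 0 ≤ κs) (hls0 : lamus * ρ2 ≤ ((m : ℝ) + 1) / 2 * lus)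
    (hls1 : lamvs * ρ2 ≤ lvs)
    (hls : (m + 1) * lus / 2 ≤ ρ2 * k1s + lvs * (1 + ((m : ℝ) + 1) ^ 2
      - ((m : ℝ) + 1) / (2 * r ^ 2)))
    {b0 b1 b2' b3 b4 b5 b6 b7 b8 : ℝ} {l2 : List (ℝ × HTerm)}
    (hl : ∀ cT ∈ l2, cT.2.ok m = true)
    (hpos : ∀ e x N y w : W, ‖e‖ ^ 2 ≤ 25 / 36 → ‖x‖ = 1 → ‖N‖ = 1 → ‖y‖ = 1 → ‖w‖ = 1 →
      ⟪x, N⟫ = 0 → ⟪y, w⟫ = 0 → ⟪x, y⟫ < 1 → 0 ≤
        W9 b0 b1 b2' b3 b4 b5 b6 b7 b8 (dv x N y w e)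
        + hsum m l2 (dv x N y w e)
        - (ρ2 * RF k0s k1s cs (dv x N y w e) + κs * dv x N y w e 0 ^ 3
          + lus * ((dv x N y w e 1 - dv x N y w e 2) / 2) ^ 2
          + lvs * (dv x N y w e 3 - dv x N y w e 0
            + kr * ((dv x N y w e 1 + dv x N y w e 2) / 2)) ^ 2))
    {u0 u1 gs0 gs1 : ℝ} (hgs0 : 0 ≤ gs0) (hgs1 : 0 ≤ gs1)
    (hlaw0 : ∀ Θ u r : ℝ, Θ1 ≤ Θ → Θ ≤ C → u0 ≤ u → Θ ^ 2 * u ≤ 1 → u ^ 2 ≤ r → r ≤ u →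
      Θ * (b0 + (b1 + b2' + b3) * u + (b4 + b7) * r + (b5 + b6) * u ^ 2
        + b8 * ((u - r) / ((m : ℕ) + 1))) + KH m * hval m l2 u r ≤ Θ * gs0)
    (hlaw1 : ∀ Θ u r : ℝ, Θ1 ≤ Θ → Θ ≤ C → u1 ≤ u → Θ ^ 2 * u ≤ 1 → u ^ 2 ≤ r → r ≤ u →
      Θ * (b0 + (b1 + b2' + b3) * u + (b4 + b7) * r + (b5 + b6) * u ^ 2
        + b8 * ((u - r) / ((m : ℕ) + 1))) + KH m * hval m l2 u r ≤ Θ * gs1)
    -- the bound of the mean normal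
    {K : ℝ} (hK : 0 < K)
    (hone : ∀ N : M → W, TwoG (volM V F) m F N → ∀ (b : OrthonormalBasis (Fin (m + 2)) ℝ W)
      (S : Finset (Fin (m + 2))), S.card = cd →
      ‖∫ x, N x ∂(volM V F)‖ ≤ K * ∫ x, devW w0 α b S (F x) (N x) ∂(volM V F))
    (hn1 : ((m : ℝ) + 1) ^ 2 * γ * u0 ≤ t1 * ρ)
    (hn2 : (((m : ℝ) + 1) ^ 2 * K * γ) ^ 2 * u0 ≤ (κ1 * ρ) ^ 2)
    (hm1 : ((m : ℝ) + 1) ^ 2 * γ * u1 ≤ t1' * ρ)
    (hm2 : ((m : ℝ) + 1) ^ 2 * gs0 < t2' * ρ2)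
    (hm3 : (((m : ℝ) + 1) ^ 2 * K * gs0) ^ 2 < (κ2 * ρ2) ^ 2 * u0)
    (hs1 : ((m : ℝ) + 1) ^ 2 * gs1 < t2 * ρ2)
    (hs2 : (((m : ℝ) + 1) ^ 2 * K * gs1) ^ 2 < (κ2 * ρ2) ^ 2 * u1)
    (hle : (volM V F).real univ ≤ C * sphereVol m) :
    (volM V F).real univ = C * sphereVol m ∧ Injective F ∧
      ∃ (N : M → W) (b : OrthonormalBasis (Fin (m + 2)) ℝ W) (S : Finset (Fin (m + 2))),
        ContMDiff 𝓘(ℝ, V) 𝓘(ℝ, W) ∞ N ∧ (∀ x, IsUnitNormal V F x (N x)) ∧ S.card = cd ∧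
        ∀ x, N x = ∑ i, ((if i ∈ S then α else -(1 / α)) * ⟪F x, b i⟫) • b i := by
  exact core_KW4 hmh hm hV hW hF hmin hng hC2 hΘ1 hΘ hw0 hα hw hr hrα hkr hB hq hg1 hg' hc2 ha2 hb2
    hc1 ha1 hT0 hcc ht1 hκ1 hcl1 hnear1 hT0s hT0s hκ2 hnear2 hκ2 hcl2
    (fun d x p1 p2 p3 p4 p5 p6 => hnear2 d x p1 p2 p3 p4 p5 (p6.trans_le ht2))
    hr' hok hw' hRn hR0 hposT hc0 hρ hκ hγ hl1 hl2 hl3 h0 hfl
    hcs hρ2 hκs hls0 hls1 hls hl hpos hcs hρ2 hκs hls0 hls1 hls hl hpos hgs0 hgs1 hlaw0 hlaw1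
    hK hone hn1 hn2 hm1 hm2 hm3 hs1 hs2 hle

/-- **The sharp bound and its equality case in odd dimension**, three regions of the mean normal,
with one static certificate with its own scalar functional, without the second slack. -/
theorem core_KW5s {m h : ℕ} (hmh : m = 2 * h + 1) (hm : 4 < m) (hV : finrank ℝ V = m)
    (hW : finrank ℝ W = finrank ℝ V + 2)
    {F : M → W} (hF : SphImm V F) (hmin : ∀ x n, IsUnitNormal V F x n → meanCurv V F x n = 0)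
    (hng : ¬ ∃ a : W, a ≠ 0 ∧ ∀ x, ⟪F x, a⟫ = 0)
    {C Θ1 : ℝ} (hC2 : C < 2) (hΘ1 : 6 / 5 ≤ Θ1)
    (hΘ : Θ1 * sphereVol m ≤ (volM V F).real univ)
    -- the constants of the Clifford configuration
    {α r w kr w0 : ℝ} (hw0 : 1 ≤ w0) (hα : 0 < α) (hw : α ^ 2 = w) (hr : 0 < r)
    (hrα : ((m : ℝ) + 1) * α = 2 * r) (hkr : kr = 1 / r)
    {T0 k0 k1 B c q g1 g' a2 b2 c2 a1 c1 cc : ℝ} {cd : ℕ}
    (hB : B = ((m : ℝ) + 1) ^ 2 * w) (hq : q = ((m : ℝ) + 1) * w) (hg1 : g1 = (m : ℝ) + 2)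
    (hg' : g' = 2 * ((m : ℝ) + 1) + ((m : ℝ) + 1) / (2 * r ^ 2))
    (hc2 : c2 = w / ((m : ℝ) + 1)) (ha2 : a2 = 1 - c2) (hb2 : b2 = 2 * w)
    (hc1 : c1 = 1 / (w * ((m : ℝ) + 1))) (ha1 : a1 = 1 - c1)
    (hT0 : T0 = k0 * ((m : ℝ) + 1) ^ 2 + k1 * m) (hcc : c ≤ cc * (((m : ℝ) + 1) * α))
    -- the scalar inequalities
    {lamu lamv t1 t1' κ1 Z : ℝ} (ht1 : t1 ≤ t1') (hκ1 : 0 < κ1)
    (hcl1 : ∀ d x : Fin (m + 2) → ℝ, (∀ i, q * x i ^ 2 ≤ d i - d i ^ 2) → ∑ i, d i = 1 →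
      ∑ i, x i = 0 → ∑ i, d i * x i ≤ 0 →
      T0 + (k1 * ∑ i, d i ^ 2 - B * ∑ i, x i ^ 2 - c * ∑ i, d i * x i)
        + ∑ i, (lamu * (d i - d i ^ 2 - q * x i ^ 2) + lamv * ((1 - g1 * d i - 2 * x i) ^ 2
          + g' * (d i - d i ^ 2 - q * x i ^ 2))) < t1' → (SO.Rt Z x).card = cd)
    (hnear1 : ∀ d x : Fin (m + 2) → ℝ, (∀ i, q * x i ^ 2 ≤ d i - d i ^ 2) → ∑ i, d i = 1 →
      ∑ i, x i = 0 → ∑ i, d i * x i ≤ 0 →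
      (SO.Rt Z x).card = cd →
      T0 + (k1 * ∑ i, d i ^ 2 - B * ∑ i, x i ^ 2 - c * ∑ i, d i * x i)
        + ∑ i, (lamu * (d i - d i ^ 2 - q * x i ^ 2) + lamv * ((1 - g1 * d i - 2 * x i) ^ 2
          + g' * (d i - d i ^ 2 - q * x i ^ 2))) < t1 →
      κ1 * ∑ i, (if Z ≤ x i then a2 * d i - b2 * x i + c2 else w0 * (a1 * d i + 2 * x i + c1))
        ≤ T0 + (k1 * ∑ i, d i ^ 2 - B * ∑ i, x i ^ 2 - c * ∑ i, d i * x i)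
        + ∑ i, (lamu * (d i - d i ^ 2 - q * x i ^ 2) + lamv * ((1 - g1 * d i - 2 * x i) ^ 2
          + g' * (d i - d i ^ 2 - q * x i ^ 2))))
    {T0s k0s k1s cS : ℝ} (hT0s : T0s = k0s * ((m : ℝ) + 1) ^ 2 + k1s * m)
    {lams t2 t2' κ2 : ℝ} (ht2 : t2 ≤ t2') (hκ2 : 0 < κ2)
    (hcl2 : ∀ d x : Fin (m + 2) → ℝ, (∀ i, q * x i ^ 2 ≤ d i - d i ^ 2) → ∑ i, d i = 1 →
      ∑ i, x i = 0 → ∑ i, d i * x i ≤ 0 →
      T0s + (k1s * ∑ i, d i ^ 2 - B * ∑ i, x i ^ 2 - cS * ∑ i, d i * x i)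
        + ∑ i, lams * (d i - d i ^ 2 - q * x i ^ 2) < t2 → (SO.Rt Z x).card = cd)
    (hnear2 : ∀ d x : Fin (m + 2) → ℝ, (∀ i, q * x i ^ 2 ≤ d i - d i ^ 2) → ∑ i, d i = 1 →
      ∑ i, x i = 0 → ∑ i, d i * x i ≤ 0 →
      (SO.Rt Z x).card = cd →
      T0s + (k1s * ∑ i, d i ^ 2 - B * ∑ i, x i ^ 2 - cS * ∑ i, d i * x i)
        + ∑ i, lams * (d i - d i ^ 2 - q * x i ^ 2) < t2' →
      κ2 * ∑ i, (if Z ≤ x i then a2 * d i - b2 * x i + c2 else w0 * (a1 * d i + 2 * x i + c1))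
        ≤ T0s + (k1s * ∑ i, d i ^ 2 - B * ∑ i, x i ^ 2 - cS * ∑ i, d i * x i)
        + ∑ i, lams * (d i - d i ^ 2 - q * x i ^ 2))
    -- the certificate with a parameter
    {l : List SO.GT} (hr' : ∀ t ∈ l, t.Reg) (hok : ∀ t ∈ l, t.ok h)
    (hw' : ∀ t ∈ l, ∀ x N : W, ‖x‖ = 1 → ‖N‖ = 1 → ⟪x, N⟫ = 0 →
      t.w (dv x N x N 0) = 1)
    {Ro : ℝ → R9 → ℝ} (hRn : ∀ N : M → W, TwoG (volM V F) m F N → ∀ T ∈ Ioo (0 : ℝ) 1,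
      Null (volM V F) F N 0 (Ro T))
    {R0 : R9 → ℝ} (hR0 : ∀ N : M → W, TwoG (volM V F) m F N → Null (volM V F) F N 0 R0)
    (hposT : ∀ T ∈ Ioo (0 : ℝ) 1, ∀ x N y w : W, ‖x‖ = 1 → ‖N‖ = 1 → ‖y‖ = 1 → ‖w‖ = 1 →
      ⟪x, N⟫ = 0 → ⟪y, w⟫ = 0 → SO.gS' (l.map SO.GT.v) T (dv x N y w 0)
        ≤ Ro T (dv x N y w 0))
    {c0 ρ κ γ lu lv : ℝ} (hc0 : 0 < c0) (hρ : 0 < ρ) (hκ : 0 ≤ κ) (hγ : 0 < γ)
    (hl1 : lamu * ρ ≤ ((m : ℝ) + 1) / 2 * lu) (hl2 : lamv * ρ ≤ lv)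
    (hl3 : (m + 1) * lu / 2 ≤ ρ * k1 + lv * (1 + ((m : ℝ) + 1) ^ 2
      - ((m : ℝ) + 1) / (2 * r ^ 2)))
    (h0 : ∀ x N y w : W, ‖x‖ = 1 → ‖N‖ = 1 → ‖y‖ = 1 → ‖w‖ = 1 → ⟪x, N⟫ = 0 → ⟪y, w⟫ = 0 →
      (l.map fun t => t.φ 0 * t.Q (dv x N y w 0)).sum
        ≤ c0 * (1 + γ * dv x N y w (0 : W) 3
          - (ρ * RF k0 k1 (-cc) (dv x N y w 0)
            + κ * dv x N y w (0 : W) 0 ^ 3) + R0 (dv x N y w 0)
          - (lu * ((⟪x, w⟫ - ⟪N, y⟫) / 2) ^ 2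
            + lv * (⟪N, w⟫ - ⟪x, y⟫ - kr * ((⟪x, w⟫ + ⟪N, y⟫) / 2)) ^ 2)))
    (hfl : OT.fluxC m h l = c0 * C)
    -- the certificate with the mean normal
    {cs ρ2 κs lus : ℝ} (hcs : cS ≤ cs * (((m : ℝ) + 1) * α)) (hρ2 : 0 < ρ2)
    (hκs : 0 ≤ κs) (hls0 : lams * ρ2 ≤ ((m : ℝ) + 1) / 2 * lus)
    (hls : (m + 1) * lus / 2 ≤ ρ2 * k1s)
    {b0 b1 b2' b3 b4 b5 b6 b7 b8 : ℝ} {l2 : List (ℝ × HTerm)}
    (hl : ∀ cT ∈ l2, cT.2.ok m = true)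
    (hpos : ∀ e x N y w : W, ‖e‖ ^ 2 ≤ 25 / 36 → ‖x‖ = 1 → ‖N‖ = 1 → ‖y‖ = 1 → ‖w‖ = 1 →
      ⟪x, N⟫ = 0 → ⟪y, w⟫ = 0 → ⟪x, y⟫ < 1 → 0 ≤
        W9 b0 b1 b2' b3 b4 b5 b6 b7 b8 (dv x N y w e)
        + hsum m l2 (dv x N y w e)
        - (ρ2 * RF k0s k1s cs (dv x N y w e) + κs * dv x N y w e 0 ^ 3
          + lus * ((dv x N y w e 1 - dv x N y w e 2) / 2) ^ 2))
    {u0 u1 gs0 gs1 : ℝ} (hgs0 : 0 ≤ gs0) (hgs1 : 0 ≤ gs1)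
    (hlaw0 : ∀ Θ u r : ℝ, Θ1 ≤ Θ → Θ ≤ C → u0 ≤ u → Θ ^ 2 * u ≤ 1 → u ^ 2 ≤ r → r ≤ u →
      Θ * (b0 + (b1 + b2' + b3) * u + (b4 + b7) * r + (b5 + b6) * u ^ 2
        + b8 * ((u - r) / ((m : ℕ) + 1))) + KH m * hval m l2 u r ≤ Θ * gs0)
    (hlaw1 : ∀ Θ u r : ℝ, Θ1 ≤ Θ → Θ ≤ C → u1 ≤ u → Θ ^ 2 * u ≤ 1 → u ^ 2 ≤ r → r ≤ u →
      Θ * (b0 + (b1 + b2' + b3) * u + (b4 + b7) * r + (b5 + b6) * u ^ 2
        + b8 * ((u - r) / ((m : ℕ) + 1))) + KH m * hval m l2 u r ≤ Θ * gs1)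
    -- the bound of the mean normal
    {K : ℝ} (hK : 0 < K)
    (hone : ∀ N : M → W, TwoG (volM V F) m F N → ∀ (b : OrthonormalBasis (Fin (m + 2)) ℝ W)
      (S : Finset (Fin (m + 2))), S.card = cd →
      ‖∫ x, N x ∂(volM V F)‖ ≤ K * ∫ x, devW w0 α b S (F x) (N x) ∂(volM V F))
    (hn1 : ((m : ℝ) + 1) ^ 2 * γ * u0 ≤ t1 * ρ)
    (hn2 : (((m : ℝ) + 1) ^ 2 * K * γ) ^ 2 * u0 ≤ (κ1 * ρ) ^ 2)
    (hm1 : ((m : ℝ) + 1) ^ 2 * γ * u1 ≤ t1' * ρ)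
    (hm2 : ((m : ℝ) + 1) ^ 2 * gs0 < t2' * ρ2)
    (hm3 : (((m : ℝ) + 1) ^ 2 * K * gs0) ^ 2 < (κ2 * ρ2) ^ 2 * u0)
    (hs1 : ((m : ℝ) + 1) ^ 2 * gs1 < t2 * ρ2)
    (hs2 : (((m : ℝ) + 1) ^ 2 * K * gs1) ^ 2 < (κ2 * ρ2) ^ 2 * u1)
    (hle : (volM V F).real univ ≤ C * sphereVol m) :
    (volM V F).real univ = C * sphereVol m ∧ Injective F ∧
      ∃ (N : M → W) (b : OrthonormalBasis (Fin (m + 2)) ℝ W) (S : Finset (Fin (m + 2))),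
        ContMDiff 𝓘(ℝ, V) 𝓘(ℝ, W) ∞ N ∧ (∀ x, IsUnitNormal V F x (N x)) ∧ S.card = cd ∧
        ∀ x, N x = ∑ i, ((if i ∈ S then α else -(1 / α)) * ⟪F x, b i⟫) • b i := by
  refine core_KW5 hmh hm hV hW hF hmin hng hC2 hΘ1 hΘ hw0 hα hw hr hrα hkr hB hq hg1 hg' hc2 ha2 hb2
    hc1 ha1 hT0 hcc ht1 hκ1 hcl1 hnear1 hT0s (lamus := lams) (lamvs := 0) ht2 hκ2 ?_ ?_
    hr' hok hw' hRn hR0 hposT hc0 hρ hκ hγ hl1 hl2 hl3 h0 hfl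
    (lus := lus) (lvs := 0) hcs hρ2 hκs hls0 (by rw [zero_mul])
    (by rw [zero_mul, add_zero]; exact hls) hl
    (fun e x N y w a0 a1 a2 a3 a4 a5 a6 a7 => (hpos e x N y w a0 a1 a2 a3 a4 a5 a6 a7).trans
      (le_of_eq (by ring))) hgs0 hgs1 hlaw0 hlaw1
    hK hone hn1 hn2 hm1 hm2 hm3 hs1 hs2 hle
  · intro d x p1 p2 p3 p4 p5
    simp only [zero_mul, add_zero] at p5
    exact hcl2 d x p1 p2 p3 p4 p5
  · intro d x p1 p2 p3 p4 p5 p6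
    simp only [zero_mul, add_zero] at p6 ⊢
    exact hnear2 d x p1 p2 p3 p4 p5 p6

end

end Vale.Agent.P224.PO
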