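import Vale.Agent.P224.OT.Cst5
import Vale.Agent.P224.RIG.Least

/-!
Numerical facts for dimension five.
-/

namespace Vale.Agent.P224.PO.Five

/-- the flux against the volume ratio -/
theorem flux_eq : (48 : ℝ) / 25 * √3 = √5 * (48 / 25 * √(3 / 5)) := by
  have h : √(3 : ℝ) = √5 * √(3 / 5) := by
    rw [← Real.sqrt_mul (by norm_num)]
    norm_num
  rw [h]
  ring

/-- upper bound of the volume ratio -/
theorem a5_le : (48 : ℝ) / 25 * √(3 / 5) ≤ 743613 / 500000 := by
  have h : √(3 / 5 : ℝ) ≤ 743613 / 500000 * (25 / 48) := by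
    rw [Real.sqrt_le_left (by norm_num)]
    norm_num
  linarith

/-- lower bound of the volume ratio -/
theorem a5_ge : (1487 : ℝ) / 1000 ≤ 9999 / 10000 * (48 / 25 * √(3 / 5)) := by
  have h : (1487 : ℝ) / 1000 * (10000 / 9999) * (25 / 48) ≤ √(3 / 5) := by
    refine Real.le_sqrt_of_sq_le ?_
    norm_num
  linarith

/-- the volume ratio is at least `6 / 5` -/
theorem a5_ge' : (6 : ℝ) / 5 ≤ 48 / 25 * √(3 / 5) := by
  have := a5_ge
  linarith [Real.sqrt_nonneg (3 / 5 : ℝ)]

/-- the volume ratio is less than two -/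
theorem a5_lt_two : (48 : ℝ) / 25 * √(3 / 5) < 2 := by
  have := a5_le
  linarith

/-- the least Clifford volume in dimension five -/
theorem least5_eq : leastClifford 5 = 48 / 25 * √(3 / 5) * sphereVol 5 := by
  rw [RIG.leastClifford_eq (m := 5) (by norm_num)]
  have h := clifford_odd (k := 2)
  rw [OT.oddRatio_two] at h
  simpa using h

end Vale.Agent.P224.PO.Five
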