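import Vale.Agent.P224.PO.LawR3
import Vale.Agent.P224.SO.Pd3
import Vale.Agent.P224.SO.Rc7
import Vale.Agent.P224.SO.Rc9
import Vale.Agent.P224.SO.Rc11

/-!
The final assembly of a direct certificate with the orientation resource and the cubic kernel.
-/

namespace Vale.Agent.P224.PO

open MeasureTheory Set Filter Function Module Vale.Agent.P224 Vale.Agent.P224.UE
open Vale.Agent.P224.SM2 hiding ker
open scoped Topology RealInnerProductSpace ENNReal ContDiff Manifold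

set_option linter.unusedSectionVars false

section

variable {V W M : Type*} [NormedAddCommGroup V] [InnerProductSpace ℝ V] [FiniteDimensional ℝ V]
  [NormedAddCommGroup W] [InnerProductSpace ℝ W] [FiniteDimensional ℝ W]
  [TopologicalSpace M] [ChartedSpace V M]
  [MeasurableSpace V] [BorelSpace V] [MeasurableSpace M] [BorelSpace M]
  [IsManifold 𝓘(ℝ, V) ∞ M] [CompactSpace M] [T2Space M] [ConnectedSpace M]
  [MeasurableSpace W] [BorelSpace W]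

/-- The volume bound from a direct certificate with a quadratic resource and the cubic kernel. -/
theorem main_o_of_certRK {m : ℕ} (hm2 : 2 ≤ m) (hV : finrank ℝ V = m)
    (hW : finrank ℝ W = finrank ℝ V + 2)
    {F : M → W} (hF : SphImm V F) (hmin : ∀ x n, IsUnitNormal V F x n → meanCurv V F x n = 0)
    (hng : ¬ ∃ a : W, a ≠ 0 ∧ ∀ x, ⟪F x, a⟫ = 0)
    {k0 k1 c ρ κ : ℝ} (hρ : 0 ≤ ρ) (hκ : 0 ≤ κ)
    (hres : ∀ N : M → W, TwoG (volM V F) m F N →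
      0 ≤ ∫ q : M × M, ⟪F q.1, F q.2⟫ * ⟪F q.1, N q.2⟫ ∂((volM V F).prod (volM V F)) →
      ∀ e : W, 0 ≤ ∫ q, RF k0 k1 c (dat F N e q) ∂((volM V F).prod (volM V F)))
    {C : ℝ} (hC2 : C ≤ 2)
    {b0 b1 b2 b3 b4 b5 b6 b7 b8 : ℝ} {l : List (ℝ × HTerm)}
    (hl : ∀ cT ∈ l, cT.2.ok m = true)
    (hpos : ∀ e x N y w : W, ‖e‖ ^ 2 ≤ 25 / 36 → ‖x‖ = 1 → ‖N‖ = 1 → ‖y‖ = 1 → ‖w‖ = 1 →
      ⟪x, N⟫ = 0 → ⟪y, w⟫ = 0 → ⟪x, y⟫ < 1 → 0 ≤ W9 b0 b1 b2 b3 b4 b5 b6 b7 b8 (dv x N y w e)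
        + hsum m l (dv x N y w e) - ρ * RF k0 k1 c (dv x N y w e) - κ * dv x N y w e 0 ^ 3)
    (hneg : ∀ Θ u r : ℝ, 6 / 5 ≤ Θ → Θ < C → 0 ≤ u → Θ ^ 2 * u ≤ 1 → u ^ 2 ≤ r → r ≤ u →
      Θ * (b0 + (b1 + b2 + b3) * u + (b4 + b7) * r + (b5 + b6) * u ^ 2
        + b8 * ((u - r) / (m + 1))) + KH m * hval m l u r < 0) :
    ENNReal.ofReal (C * sphereVol m) ≤ volM V F univ := by
  have hfin : IsFiniteMeasure (volM V F) := isFiniteMeasure_volM hF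
  have hRc : Continuous fun d : R9 => ρ * RF k0 k1 c d + κ * d 0 ^ 3 :=
    ((continuous_RF k0 k1 c).const_mul ρ).add (by fun_prop)
  refine main_o_of_certR hm2 hV hW hF hmin hng hRc (ρ := 1) zero_le_one
    (fun N h hor e => ?_) hC2 hl (fun e x N y w h0 h1 h2 h3 h4 h5 h6 h7 => ?_) hneg
  · have hint : ∀ {G : R9 → ℝ}, Continuous G →
        Integrable (fun q => G (dat F N e q)) ((volM V F).prod (volM V F)) :=
      fun hG => integrable_param _ (measurable_dat h.toPts e) (isCompact_KE (bE e))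
        (dat_mem h.toPts e) hG.measurable hG.continuousOn
    have i1 : Integrable (fun q => ρ * RF k0 k1 c (dat F N e q))
        ((volM V F).prod (volM V F)) := (hint (continuous_RF _ _ _)).const_mul ρ
    have i2 : Integrable (fun q => κ * dat F N e q 0 ^ 3) ((volM V F).prod (volM V F)) :=
      (hint (G := fun d => d 0 ^ 3) (by fun_prop)).const_mul κ
    have h1 := hres N h hor e
    have h2 : 0 ≤ ∫ q, dat F N e q 0 ^ 3 ∂((volM V F).prod (volM V F)) :=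
      SO.k00 (μ := volM V F) (p := F) ⟨h.mp, h.np⟩
    rw [integral_add i1 i2, integral_const_mul, integral_const_mul]
    positivity
  · have h8 := hpos e x N y w h0 h1 h2 h3 h4 h5 h6 h7
    linarith

/-- Dimension three. -/
theorem main3_of_certRK (hV : finrank ℝ V = 3) (hW : finrank ℝ W = finrank ℝ V + 2)
    {F : M → W} (hF : SphImm V F) (hmin : ∀ x n, IsUnitNormal V F x n → meanCurv V F x n = 0)
    (hng : ¬ ∃ a : W, a ≠ 0 ∧ ∀ x, ⟪F x, a⟫ = 0)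
    {ρ κ : ℝ} (hρ : 0 ≤ ρ) (hκ : 0 ≤ κ) {C : ℝ} (hC2 : C ≤ 2)
    {b0 b1 b2 b3 b4 b5 b6 b7 b8 : ℝ} {l : List (ℝ × HTerm)}
    (hl : ∀ cT ∈ l, cT.2.ok 3 = true)
    (hpos : ∀ e x N y w : W, ‖e‖ ^ 2 ≤ 25 / 36 → ‖x‖ = 1 → ‖N‖ = 1 → ‖y‖ = 1 → ‖w‖ = 1 →
      ⟪x, N⟫ = 0 → ⟪y, w⟫ = 0 → ⟪x, y⟫ < 1 → 0 ≤ W9 b0 b1 b2 b3 b4 b5 b6 b7 b8 (dv x N y w e)
        + hsum 3 l (dv x N y w e) - ρ * RF (3 / 16) 0 0 (dv x N y w e)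
        - κ * dv x N y w e 0 ^ 3)
    (hneg : ∀ Θ u r : ℝ, 6 / 5 ≤ Θ → Θ < C → 0 ≤ u → Θ ^ 2 * u ≤ 1 → u ^ 2 ≤ r → r ≤ u →
      Θ * (b0 + (b1 + b2 + b3) * u + (b4 + b7) * r + (b5 + b6) * u ^ 2
        + b8 * ((u - r) / ((3 : ℕ) + 1))) + KH 3 * hval 3 l u r < 0) :
    ENNReal.ofReal (C * sphereVol 3) ≤ volM V F univ := by
  have hfin : IsFiniteMeasure (volM V F) := isFiniteMeasure_volM hF
  have hne : Nonempty M := inferInstance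
  exact main_o_of_certRK (by norm_num) hV hW hF hmin hng hρ hκ
    (fun N h hor e => SO.r3G (by omega) h (sp_of_hng hng) hor) hC2 hl hpos hneg

/-- Dimension five. -/
theorem main5_of_certRK (hV : finrank ℝ V = 5) (hW : finrank ℝ W = finrank ℝ V + 2)
    {F : M → W} (hF : SphImm V F) (hmin : ∀ x n, IsUnitNormal V F x n → meanCurv V F x n = 0)
    (hng : ¬ ∃ a : W, a ≠ 0 ∧ ∀ x, ⟪F x, a⟫ = 0)
    {c ρ κ : ℝ} (hc0 : 0 < c) (hc : 1 ≤ 6 * c ^ 2) (hρ : 0 ≤ ρ) (hκ : 0 ≤ κ)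
    {C : ℝ} (hC2 : C ≤ 2)
    {b0 b1 b2 b3 b4 b5 b6 b7 b8 : ℝ} {l : List (ℝ × HTerm)}
    (hl : ∀ cT ∈ l, cT.2.ok 5 = true)
    (hpos : ∀ e x N y w : W, ‖e‖ ^ 2 ≤ 25 / 36 → ‖x‖ = 1 → ‖N‖ = 1 → ‖y‖ = 1 → ‖w‖ = 1 →
      ⟪x, N⟫ = 0 → ⟪y, w⟫ = 0 → ⟪x, y⟫ < 1 → 0 ≤ W9 b0 b1 b2 b3 b4 b5 b6 b7 b8 (dv x N y w e)
        + hsum 5 l (dv x N y w e) - ρ * RF (-(187 / 100)) 14 c (dv x N y w e)
        - κ * dv x N y w e 0 ^ 3)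
    (hneg : ∀ Θ u r : ℝ, 6 / 5 ≤ Θ → Θ < C → 0 ≤ u → Θ ^ 2 * u ≤ 1 → u ^ 2 ≤ r → r ≤ u →
      Θ * (b0 + (b1 + b2 + b3) * u + (b4 + b7) * r + (b5 + b6) * u ^ 2
        + b8 * ((u - r) / ((5 : ℕ) + 1))) + KH 5 * hval 5 l u r < 0) :
    ENNReal.ofReal (C * sphereVol 5) ≤ volM V F univ := by
  have hfin : IsFiniteMeasure (volM V F) := isFiniteMeasure_volM hF
  have hne : Nonempty M := inferInstance
  exact main_o_of_certRK (by norm_num) hV hW hF hmin hng hρ hκ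
    (fun N h hor e => res5 (by omega) h (sp_of_hng hng) hor hc0 hc e) hC2 hl hpos hneg

/-- Dimension seven. -/
theorem main7_of_certRK (hV : finrank ℝ V = 7) (hW : finrank ℝ W = finrank ℝ V + 2)
    {F : M → W} (hF : SphImm V F) (hmin : ∀ x n, IsUnitNormal V F x n → meanCurv V F x n = 0)
    (hng : ¬ ∃ a : W, a ≠ 0 ∧ ∀ x, ⟪F x, a⟫ = 0)
    {c ρ κ : ℝ} (hc0 : 0 ≤ c) (hc : 49 ≤ 48 * c ^ 2) (hρ : 0 ≤ ρ) (hκ : 0 ≤ κ)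
    {C : ℝ} (hC2 : C ≤ 2)
    {b0 b1 b2 b3 b4 b5 b6 b7 b8 : ℝ} {l : List (ℝ × HTerm)}
    (hl : ∀ cT ∈ l, cT.2.ok 7 = true)
    (hpos : ∀ e x N y w : W, ‖e‖ ^ 2 ≤ 25 / 36 → ‖x‖ = 1 → ‖N‖ = 1 → ‖y‖ = 1 → ‖w‖ = 1 →
      ⟪x, N⟫ = 0 → ⟪y, w⟫ = 0 → ⟪x, y⟫ < 1 → 0 ≤ W9 b0 b1 b2 b3 b4 b5 b6 b7 b8 (dv x N y w e)
        + hsum 7 l (dv x N y w e) - ρ * RF (-(147 / 40)) 34 c (dv x N y w e)
        - κ * dv x N y w e 0 ^ 3)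
    (hneg : ∀ Θ u r : ℝ, 6 / 5 ≤ Θ → Θ < C → 0 ≤ u → Θ ^ 2 * u ≤ 1 → u ^ 2 ≤ r → r ≤ u →
      Θ * (b0 + (b1 + b2 + b3) * u + (b4 + b7) * r + (b5 + b6) * u ^ 2
        + b8 * ((u - r) / ((7 : ℕ) + 1))) + KH 7 * hval 7 l u r < 0) :
    ENNReal.ofReal (C * sphereVol 7) ≤ volM V F univ := by
  have hfin : IsFiniteMeasure (volM V F) := isFiniteMeasure_volM hF
  have hne : Nonempty M := inferInstance
  exact main_o_of_certRK (by norm_num) hV hW hF hmin hng hρ hκ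
    (fun N h hor e => SO.M7.rc (by omega) h (sp_of_hng hng) hor hc0 hc) hC2 hl hpos hneg

/-- Dimension nine. -/
theorem main9_of_certRK (hV : finrank ℝ V = 9) (hW : finrank ℝ W = finrank ℝ V + 2)
    {F : M → W} (hF : SphImm V F) (hmin : ∀ x n, IsUnitNormal V F x n → meanCurv V F x n = 0)
    (hng : ¬ ∃ a : W, a ≠ 0 ∧ ∀ x, ⟪F x, a⟫ = 0)
    {c ρ κ : ℝ} (hc0 : 0 ≤ c) (hc : 196 ≤ 80 * c ^ 2) (hρ : 0 ≤ ρ) (hκ : 0 ≤ κ)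
    {C : ℝ} (hC2 : C ≤ 2)
    {b0 b1 b2 b3 b4 b5 b6 b7 b8 : ℝ} {l : List (ℝ × HTerm)}
    (hl : ∀ cT ∈ l, cT.2.ok 9 = true)
    (hpos : ∀ e x N y w : W, ‖e‖ ^ 2 ≤ 25 / 36 → ‖x‖ = 1 → ‖N‖ = 1 → ‖y‖ = 1 → ‖w‖ = 1 →
      ⟪x, N⟫ = 0 → ⟪y, w⟫ = 0 → ⟪x, y⟫ < 1 → 0 ≤ W9 b0 b1 b2 b3 b4 b5 b6 b7 b8 (dv x N y w e)
        + hsum 9 l (dv x N y w e) - ρ * RF (-(77 / 18)) 48 c (dv x N y w e)
        - κ * dv x N y w e 0 ^ 3)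
    (hneg : ∀ Θ u r : ℝ, 6 / 5 ≤ Θ → Θ < C → 0 ≤ u → Θ ^ 2 * u ≤ 1 → u ^ 2 ≤ r → r ≤ u →
      Θ * (b0 + (b1 + b2 + b3) * u + (b4 + b7) * r + (b5 + b6) * u ^ 2
        + b8 * ((u - r) / ((9 : ℕ) + 1))) + KH 9 * hval 9 l u r < 0) :
    ENNReal.ofReal (C * sphereVol 9) ≤ volM V F univ := by
  have hfin : IsFiniteMeasure (volM V F) := isFiniteMeasure_volM hF
  have hne : Nonempty M := inferInstance
  exact main_o_of_certRK (by norm_num) hV hW hF hmin hng hρ hκ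
    (fun N h hor e => SO.M9.rc (by omega) h (sp_of_hng hng) hor hc0 hc) hC2 hl hpos hneg

/-- Dimension eleven. -/
theorem main11_of_certRK (hV : finrank ℝ V = 11) (hW : finrank ℝ W = finrank ℝ V + 2)
    {F : M → W} (hF : SphImm V F) (hmin : ∀ x n, IsUnitNormal V F x n → meanCurv V F x n = 0)
    (hng : ¬ ∃ a : W, a ≠ 0 ∧ ∀ x, ⟪F x, a⟫ = 0)
    {c ρ κ : ℝ} (hc0 : 0 ≤ c) (hc : 576 ≤ 120 * c ^ 2) (hρ : 0 ≤ ρ) (hκ : 0 ≤ κ)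
    {C : ℝ} (hC2 : C ≤ 2)
    {b0 b1 b2 b3 b4 b5 b6 b7 b8 : ℝ} {l : List (ℝ × HTerm)}
    (hl : ∀ cT ∈ l, cT.2.ok 11 = true)
    (hpos : ∀ e x N y w : W, ‖e‖ ^ 2 ≤ 25 / 36 → ‖x‖ = 1 → ‖N‖ = 1 → ‖y‖ = 1 → ‖w‖ = 1 →
      ⟪x, N⟫ = 0 → ⟪y, w⟫ = 0 → ⟪x, y⟫ < 1 → 0 ≤ W9 b0 b1 b2 b3 b4 b5 b6 b7 b8 (dv x N y w e)
        + hsum 11 l (dv x N y w e) - ρ * RF (-(118 / 21)) 74 c (dv x N y w e)
        - κ * dv x N y w e 0 ^ 3)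
    (hneg : ∀ Θ u r : ℝ, 6 / 5 ≤ Θ → Θ < C → 0 ≤ u → Θ ^ 2 * u ≤ 1 → u ^ 2 ≤ r → r ≤ u →
      Θ * (b0 + (b1 + b2 + b3) * u + (b4 + b7) * r + (b5 + b6) * u ^ 2
        + b8 * ((u - r) / ((11 : ℕ) + 1))) + KH 11 * hval 11 l u r < 0) :
    ENNReal.ofReal (C * sphereVol 11) ≤ volM V F univ := by
  have hfin : IsFiniteMeasure (volM V F) := isFiniteMeasure_volM hF
  have hne : Nonempty M := inferInstance
  exact main_o_of_certRK (by norm_num) hV hW hF hmin hng hρ hκ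
    (fun N h hor e => SO.M11.rc (by omega) h (sp_of_hng hng) hor hc0 hc) hC2 hl hpos hneg

end

end Vale.Agent.P224.PO
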