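import Vale.Agent.P224.POS.LawNumM

/-!
The numerical law of a direct certificate: negativity of
`T (1 + P1 u + P2 r + P3 u ^ 2) + K (Q0 + Q1 u + Q2 r)` from finitely many inequalities.
-/

namespace Vale.Agent.P224.PO

open Vale.Agent.P224.POS

/-- the law for one value of the constant, `φ1 = K Q1`, `φ2 = K Q2`, `C = - K Q0` -/
theorem law_one {C Tm P1 P2 P3 φ1 φ2 : ℝ} (hTm : Tm < C) (hP3 : 0 ≤ P3)
    (hB4 : 0 ≤ (P2 + P3) * (6 / 5) + φ2) (hB5 : 0 ≤ (P2 + P3) * Tm + φ2)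
    (hR1 : ∀ T : ℝ, 6 / 5 ≤ T → T ≤ Tm → 0 + P3 * T + (φ1 + φ2) * T ^ 2
      + (P1 + P2) * T ^ 3 + (-C) * T ^ 4 + 1 * T ^ 5 < 0)
    (hR2 : ∀ T : ℝ, 6 / 5 ≤ T → T ≤ Tm → φ2 + (P2 + P3) * T + φ1 * T ^ 2
      + P1 * T ^ 3 + (-C) * T ^ 4 + 1 * T ^ 5 < 0)
    {T u r : ℝ} (h1 : 6 / 5 ≤ T) (h2 : T ≤ Tm) (hu : 0 ≤ u)
    (hT : T ^ 2 * u ≤ 1) (hr1 : u ^ 2 ≤ r) (hr2 : r ≤ u) :
    T * (1 + P1 * u + P2 * r + P3 * u ^ 2) + (φ1 * u + φ2 * r) < C := by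
  have hT0 : 0 < T := by linarith
  have h2' : T < C := h2.trans_lt hTm
  rcases le_total 0 (P2 * T + φ2) with hk | hk
  · have h3 := mul_le_mul_of_nonneg_left hr2 hk
    have h4 := law_coreM (A := P1 + P2) (D := φ1 + φ2) (B := P3) (E := 0) le_rfl h1 h2' hu hT
      (by positivity) (hR1 T h1 h2)
    nlinarith
  · have h3 := mul_le_mul_of_nonpos_left hr1 hk
    have hB : 0 ≤ (P2 + P3) * T + φ2 := by
      rcases le_total 0 (P2 + P3) with h | h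
      · have := mul_le_mul_of_nonneg_left h1 h
        linarith
      · have := mul_le_mul_of_nonpos_left h2 h
        linarith
    have h4 := law_coreM (A := P1) (D := φ1) (B := P2 + P3) (E := φ2) le_rfl h1 h2' hu hT
      hB (hR2 T h1 h2)
    nlinarith

/-- linearity in the constant -/
lemma lin_lt {a q K Kl Ku : ℝ} (hl : Kl ≤ K) (hu : K ≤ Ku) (h1 : a + Kl * q < 0)
    (h2 : a + Ku * q < 0) : a + K * q < 0 := by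
  rcases le_total 0 q with h | h
  · have := mul_le_mul_of_nonneg_right hu h
    linarith
  · have := mul_le_mul_of_nonpos_right hl h
    linarith

/-- The law for a constant in an interval. -/
theorem law_two {K Kl Ku Q0 Q1 Q2 Tm P1 P2 P3 : ℝ} (hKl : Kl ≤ K) (hKu : K ≤ Ku)
    (hP3 : 0 ≤ P3)
    (al : Tm < -(Kl * Q0)) (au : Tm < -(Ku * Q0))
    (bl : 0 ≤ (P2 + P3) * (6 / 5) + Kl * Q2) (bu : 0 ≤ (P2 + P3) * (6 / 5) + Ku * Q2)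
    (cl : 0 ≤ (P2 + P3) * Tm + Kl * Q2) (cu : 0 ≤ (P2 + P3) * Tm + Ku * Q2)
    (dl : ∀ T : ℝ, 6 / 5 ≤ T → T ≤ Tm → 0 + P3 * T + (Kl * Q1 + Kl * Q2) * T ^ 2
      + (P1 + P2) * T ^ 3 + (-(-(Kl * Q0))) * T ^ 4 + 1 * T ^ 5 < 0)
    (du : ∀ T : ℝ, 6 / 5 ≤ T → T ≤ Tm → 0 + P3 * T + (Ku * Q1 + Ku * Q2) * T ^ 2
      + (P1 + P2) * T ^ 3 + (-(-(Ku * Q0))) * T ^ 4 + 1 * T ^ 5 < 0)
    (el : ∀ T : ℝ, 6 / 5 ≤ T → T ≤ Tm → Kl * Q2 + (P2 + P3) * T + (Kl * Q1) * T ^ 2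
      + P1 * T ^ 3 + (-(-(Kl * Q0))) * T ^ 4 + 1 * T ^ 5 < 0)
    (eu : ∀ T : ℝ, 6 / 5 ≤ T → T ≤ Tm → Ku * Q2 + (P2 + P3) * T + (Ku * Q1) * T ^ 2
      + P1 * T ^ 3 + (-(-(Ku * Q0))) * T ^ 4 + 1 * T ^ 5 < 0)
    {T u r : ℝ} (h1 : 6 / 5 ≤ T) (h2 : T ≤ Tm) (hu : 0 ≤ u)
    (hT : T ^ 2 * u ≤ 1) (hr1 : u ^ 2 ≤ r) (hr2 : r ≤ u) :
    T * (1 + P1 * u + P2 * r + P3 * u ^ 2) + K * (Q0 + Q1 * u + Q2 * r) < 0 := by
  have k1 := law_one al hP3 bl cl dl el h1 h2 hu hT hr1 hr2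
  have k2 := law_one au hP3 bu cu du eu h1 h2 hu hT hr1 hr2
  exact lin_lt hKl hKu (by linarith) (by linarith)

end Vale.Agent.P224.PO
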