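import Vale.Agent.P224.PO.Main5S

/-!
The laws of the two certificates with the value of a continuous term; the choice of the normal.
-/

namespace Vale.Agent.P224.PO

open MeasureTheory Set Filter Function Module Vale.Agent.P224 Vale.Agent.P224.UE
open Vale.Agent.P224.SM2 hiding ker
open scoped Topology RealInnerProductSpace ENNReal ContDiff Manifold

set_option linter.unusedSectionVars false

/-- the trivial general term -/
lemma hreg_zero : SO.HReg (fun _ _ => 0) (fun _ _ => 0) (fun _ => 0) where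
  hm _ := measurable_const
  hm' _ := measurable_const
  hc := continuousOn_const
  hc' := continuousOn_const
  hd _ _ _ _ := hasDerivAt_const _ _
  h0 _ := rfl
  hl _ _ _ := tendsto_const_nhds
  hb := ⟨0, fun _ _ _ _ _ _ => by simp⟩

section

variable {V W M : Type*} [NormedAddCommGroup V] [InnerProductSpace ℝ V] [FiniteDimensional ℝ V]
  [NormedAddCommGroup W] [InnerProductSpace ℝ W] [FiniteDimensional ℝ W]
  [TopologicalSpace M] [ChartedSpace V M]
  [MeasurableSpace V] [BorelSpace V] [MeasurableSpace M] [BorelSpace M]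
  [IsManifold 𝓘(ℝ, V) ∞ M] [CompactSpace M] [T2Space M] [ConnectedSpace M]
  [MeasurableSpace W] [BorelSpace W]

/-- the choice of the normal -/
lemma exists_normal_or (hW : finrank ℝ W = finrank ℝ V + 2) (hm : 0 < finrank ℝ V)
    {F : M → W} (hF : SphImm V F) (hinj : Injective F) : ∃ N : M → W,
      ContMDiff 𝓘(ℝ, V) 𝓘(ℝ, W) ∞ N ∧
      (∀ x, IsUnitNormal V F x (N x)) ∧ ‖∫ x, N x ∂(volM V F)‖ ≤ sphereVol (finrank ℝ V) ∧
      0 ≤ ∫ q : M × M, ⟪F q.1, F q.2⟫ * ⟪F q.1, N q.2⟫ ∂((volM V F).prod (volM V F)) := by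
  obtain ⟨N, hNs, hN, htop⟩ := TP.exists_normal_le hW hm hF hinj
  have hfin : IsFiniteMeasure (volM V F) := isFiniteMeasure_volM hF
  rcases SO.orient (μ := volM V F) (p := F) (n := N) with h | h
  · exact ⟨N, hNs, hN, htop, h⟩
  · refine ⟨fun x => -N x, hNs.neg, fun x => ⟨by rw [norm_neg]; exact (hN x).1,
      by rw [inner_neg_right, (hN x).2.1, neg_zero], fun i => by
        rw [inner_neg_right, (hN x).2.2 i, neg_zero]⟩, ?_, h⟩
    rw [integral_neg, norm_neg]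
    exact htop

/-- The inequality of the certificate with a parameter, with the value of a continuous term. -/
lemma lawT_odd {m h : ℕ} (hmh : m = 2 * h + 1) (hm : 4 < m)
    {X : Type*} [MeasurableSpace X] [Nonempty X] {E : Type*} [NormedAddCommGroup E]
    [InnerProductSpace ℝ E] [FiniteDimensional ℝ E] [MeasurableSpace E] [BorelSpace E]
    {μ : Measure X} [IsFiniteMeasure μ] {F N : X → E} {B S : ℝ}
    (hE : EmbD μ m F N B S) (hA0 : 0 < μ.real univ)
    (l : List SO.GT) (hr : ∀ t ∈ l, t.Reg) (hok : ∀ t ∈ l, t.ok h)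
    (hw : ∀ t ∈ l, t.fl h → ∀ x N : E, ‖x‖ = 1 → ‖N‖ = 1 → ⟪x, N⟫ = 0 →
      t.w (dv x N x N 0) = 1)
    {Ro : ℝ → R9 → ℝ} (hRn : ∀ T ∈ Ioo (0 : ℝ) 1, Null μ F N 0 (Ro T))
    {R0 : R9 → ℝ} (hR0 : Null μ F N 0 R0)
    (hposT : ∀ T ∈ Ioo (0 : ℝ) 1, ∀ x N y w : E, ‖x‖ = 1 → ‖N‖ = 1 → ‖y‖ = 1 → ‖w‖ = 1 →
      ⟪x, N⟫ = 0 → ⟪y, w⟫ = 0 → SO.gS' (l.map SO.GT.v) T (dv x N y w 0)
        ≤ Ro T (dv x N y w 0))
    {c0 γ : ℝ} {R : R9 → ℝ} (hRc : Continuous R)
    (h0 : ∀ x N y w : E, ‖x‖ = 1 → ‖N‖ = 1 → ‖y‖ = 1 → ‖w‖ = 1 → ⟪x, N⟫ = 0 → ⟪y, w⟫ = 0 →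
      (l.map fun t => t.φ 0 * t.Q (dv x N y w 0)).sum
        ≤ c0 * (1 + γ * dv x N y w (0 : E) 3 - R (dv x N y w 0) + R0 (dv x N y w 0))) :
    OT.fluxC m h l * S * μ.real univ + c0 * ∫ q, R (dat F N 0 q) ∂(μ.prod μ)
      ≤ c0 * (μ.real univ ^ 2 + γ * ‖∫ x, N x ∂μ‖ ^ 2) := by
  have hG := hE.toTwoG
  set A := μ.real univ with hA
  have hint : ∀ {G : R9 → ℝ}, Continuous G →
      Integrable (fun q => G (dat F N 0 q)) (μ.prod μ) :=
    fun hG' => integrable_param _ (measurable_dat hG.toPts 0) (isCompact_KE (bE (0 : E)))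
      (dat_mem hG.toPts 0) hG'.measurable hG'.continuousOn
  have iR : Integrable (fun q => R (dat F N 0 q)) (μ.prod μ) := hint hRc
  set Q := ∫ q, R (dat F N 0 q) ∂(μ.prod μ) with hQ
  have hA2 : 0 < A ^ 2 := by positivity
  set δ := Q / A ^ 2 with hδ
  have hδA : δ * A ^ 2 = Q := by rw [hδ]; field_simp
  have hAA : (μ.prod μ).real univ = A ^ 2 := by
    rw [hA, measureReal_def, measureReal_def, ← univ_prod_univ, Measure.prod_prod,
      ENNReal.toReal_mul, sq]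
  have hI0 : ∫ q, (fun d : R9 => c0 * (R d - δ)) (dat F N 0 q) ∂(μ.prod μ) = 0 := by
    simp only
    rw [integral_const_mul, integral_sub iR (integrable_const _), integral_const, smul_eq_mul,
      hAA, ← hQ, mul_comm (A ^ 2), hδA, sub_self, mul_zero]
  have hRn' : ∀ T ∈ Ico (0 : ℝ) 1,
      Null μ F N 0 ((fun T d => if T = 0 then c0 * R0 d else Ro T d : ℝ → R9 → ℝ) T) := by
    intro T hT
    rcases hT.1.eq_or_lt with h | h
    · subst h
      have e : (fun d => if (0 : ℝ) = 0 then c0 * R0 d else Ro 0 d) = fun d => c0 * R0 d := by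
        funext d
        rw [if_pos rfl]
      change Null μ F N 0 (fun d => if (0 : ℝ) = 0 then c0 * R0 d else Ro 0 d)
      rw [e]
      exact ⟨hR0.1.const_mul c0, by rw [integral_const_mul, hR0.2, mul_zero]⟩
    · have e : (fun d => if T = 0 then c0 * R0 d else Ro T d) = Ro T := by
        funext d
        rw [if_neg h.ne']
      change Null μ F N 0 (fun d => if T = 0 then c0 * R0 d else Ro T d)
      rw [e]
      exact hRn T ⟨h, hT.2⟩
  have key := SO.law_PL hE hmh hm l hr hok hw hRn' hreg_zero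
    (fun T hT x N y w a1 a2 a3 a4 a5 a6 => by
      rw [add_zero]
      simp only [if_neg hT.1.ne']
      exact hposT T hT x N y w a1 a2 a3 a4 a5 a6)
    (c0 := c0 * (1 - δ)) (γ := c0 * γ) (R := fun d => c0 * (R d - δ))
    ((hRc.sub continuous_const).const_mul c0) hI0.ge
    (fun x N y w a1 a2 a3 a4 a5 a6 => by
      have := h0 x N y w a1 a2 a3 a4 a5 a6
      simp only [if_true]
      linarith)
  have key2 := key.2
  rw [integral_zero, zero_add, ← hA] at key2
  have e1 : c0 * (1 - δ) * A ^ 2 = c0 * A ^ 2 - c0 * Q := by rw [← hδA]; ring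
  rw [e1] at key2
  linarith

/-- The law of a static certificate, with the value of a continuous term. -/
theorem lawS6 {X : Type*} [MeasurableSpace X] [Nonempty X] {E : Type*} [NormedAddCommGroup E]
    [InnerProductSpace ℝ E] [FiniteDimensional ℝ E] [MeasurableSpace E] [BorelSpace E]
    {μ : Measure X} [IsFiniteMeasure μ] {F N : X → E} {B S : ℝ} {m : ℕ}
    (hE : EmbD μ m F N B S) (hm2 : 2 ≤ m) {e : E} (he : (μ.real univ) • e = ∫ x, N x ∂μ)
    (hA0 : 0 < μ.real univ) {R : R9 → ℝ} (hRc : Continuous R)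
    {b0 b1 b2 b3 b4 b5 b6 b7 b8 : ℝ} {l : List (ℝ × HTerm)}
    (hl : ∀ cT ∈ l, cT.2.ok m = true)
    (hpos : ∀ x N y w : E, ‖x‖ = 1 → ‖N‖ = 1 → ‖y‖ = 1 → ‖w‖ = 1 → ⟪x, N⟫ = 0 → ⟪y, w⟫ = 0 →
      ⟪x, y⟫ < 1 → 0 ≤ W9 b0 b1 b2 b3 b4 b5 b6 b7 b8 (dv x N y w e)
        + hsum m l (dv x N y w e) - R (dv x N y w e)) :
    ∃ r : ℝ, (‖e‖ ^ 2) ^ 2 ≤ r ∧ r ≤ ‖e‖ ^ 2 ∧
      ∫ q, R (dat F N e q) ∂(μ.prod μ)
        ≤ μ.real univ * (μ.real univ * (b0 + (b1 + b2 + b3) * ‖e‖ ^ 2 + (b4 + b7) * r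
          + (b5 + b6) * (‖e‖ ^ 2) ^ 2 + b8 * ((‖e‖ ^ 2 - r) / (m + 1)))
        + KH m * S * hval m l (‖e‖ ^ 2) r) := by
  set A := μ.real univ with hA
  have iR : Integrable (fun q => R (dat F N e q)) (μ.prod μ) :=
    integrable_param _ (measurable_dat hE.toPts e) (isCompact_KE (bE e))
      (dat_mem hE.toPts e) hRc.measurable hRc.continuousOn
  set Q := ∫ q, R (dat F N e q) ∂(μ.prod μ) with hQ
  have hA2 : 0 < A ^ 2 := by positivity
  set δ := Q / A ^ 2 with hδ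
  have hδA : δ * A ^ 2 = Q := by rw [hδ]; field_simp
  have hAA : (μ.prod μ).real univ = A ^ 2 := by
    rw [hA, measureReal_def, measureReal_def, ← univ_prod_univ, Measure.prod_prod,
      ENNReal.toReal_mul, sq]
  have hI0 : ∫ q, (fun d : R9 => R d - δ) (dat F N e q) ∂(μ.prod μ) = 0 := by
    simp only
    rw [integral_sub iR (integrable_const _), integral_const, smul_eq_mul,
      hAA, ← hQ, mul_comm (A ^ 2), hδA, sub_self]
  obtain ⟨r, hr1, hr2, hr3⟩ := law_R hE hm2 he hA0 (R := fun d => R d - δ)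
    (hRc.sub continuous_const) (ρ := 1) zero_le_one hI0.ge (b0 := b0 - δ) (b1 := b1) (b2 := b2)
    (b3 := b3) (b4 := b4) (b5 := b5) (b6 := b6) (b7 := b7) (b8 := b8) hl
    (fun x N y w hx hN hy hw hxN hyw hs => by
      have h := hpos x N y w hx hN hy hw hxN hyw hs
      unfold W9 at h ⊢
      linarith)
  refine ⟨r, hr1, hr2, ?_⟩
  rw [← hA] at hr3
  have h1 := mul_nonneg hA0.le hr3
  have e1 : A * (A * δ) = Q := by rw [← hδA]; ring
  linarith

end

end Vale.Agent.P224.PO
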