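import Vale.Agent.P224.PO.MainOdd
import Vale.Agent.P224.SO.StabV

/-!
Dimension five: the sharp volume bound and its equality case from a certificate with a parameter
(no mean normal, exact) and a near sharp certificate with the mean normal.
-/

namespace Vale.Agent.P224.PO

open MeasureTheory Set Filter Function Module Vale.Agent.P224 Vale.Agent.P224.UE
open Vale.Agent.P224.SM2 hiding ker
open scoped Topology RealInnerProductSpace ENNReal ContDiff Manifold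

set_option linter.unusedSectionVars false

section

variable {V W M : Type*} [NormedAddCommGroup V] [InnerProductSpace ℝ V] [FiniteDimensional ℝ V]
  [NormedAddCommGroup W] [InnerProductSpace ℝ W] [FiniteDimensional ℝ W]
  [TopologicalSpace M] [ChartedSpace V M]
  [MeasurableSpace V] [BorelSpace V] [MeasurableSpace M] [BorelSpace M]
  [IsManifold 𝓘(ℝ, V) ∞ M] [CompactSpace M] [T2Space M] [ConnectedSpace M]
  [MeasurableSpace W] [BorelSpace W]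

/-- **The sharp bound and its equality case in dimension five**, from the two certificates. -/
theorem core5_H (hV : finrank ℝ V = 5) (hW : finrank ℝ W = finrank ℝ V + 2)
    {F : M → W} (hF : SphImm V F) (hmin : ∀ x n, IsUnitNormal V F x n → meanCurv V F x n = 0)
    (hng : ¬ ∃ a : W, a ≠ 0 ∧ ∀ x, ⟪F x, a⟫ = 0)
    {C Θ1 : ℝ} (hC2 : C < 2) (hΘ1 : 6 / 5 ≤ Θ1)
    (hΘ : Θ1 * sphereVol 5 ≤ (volM V F).real univ)
    -- the scalar inequalities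
    {a t1 k1 t2 k2 : ℝ} (ha : 0 ≤ a) (hk1 : 0 < k1) (hk2 : 0 < k2)
    (hst1 : ∀ d z : Fin 7 → ℝ, (∀ i, z i ^ 2 ≤ d i - d i ^ 2) →
      ∑ i, d i = 1 → ∑ i, z i = 0 → ∑ i, d i * z i ≤ 0 →
      SO.St.Sv d z + ∑ i, SO.St.pT (d i) (z i) < t1 → (SO.Rt (1 / 5) z).card = 4 ∧
        k1 * ∑ i, SO.St.dl d z i ≤ SO.St.Sv d z + ∑ i, SO.St.pT (d i) (z i))
    (hst2 : ∀ d z : Fin 7 → ℝ, (∀ i, z i ^ 2 ≤ d i - d i ^ 2) →
      ∑ i, d i = 1 → ∑ i, z i = 0 → ∑ i, d i * z i ≤ 0 →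
      SO.St.Sv d z + a * ∑ i, (d i - d i ^ 2 - z i ^ 2) < t2 → (SO.Rt (1 / 5) z).card = 4 ∧
        k2 * ∑ i, SO.St.dl d z i ≤ SO.St.Sv d z + a * ∑ i, (d i - d i ^ 2 - z i ^ 2))
    -- the certificate with a parameter
    {l : List SO.GT} (hr : ∀ t ∈ l, t.Reg) (hok : ∀ t ∈ l, t.ok 2)
    (hw : ∀ t ∈ l, ∀ x N : W, ‖x‖ = 1 → ‖N‖ = 1 → ⟪x, N⟫ = 0 →
      t.w (dv x N x N 0) = 1)
    {Ro : ℝ → R9 → ℝ} (hRn : ∀ N : M → W, TwoG (volM V F) 5 F N → ∀ T ∈ Ioo (0 : ℝ) 1,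
      Null (volM V F) F N 0 (Ro T))
    {R0 : R9 → ℝ} (hR0 : ∀ N : M → W, TwoG (volM V F) 5 F N → Null (volM V F) F N 0 R0)
    (hposT : ∀ T ∈ Ioo (0 : ℝ) 1, ∀ x N y w : W, ‖x‖ = 1 → ‖N‖ = 1 → ‖y‖ = 1 → ‖w‖ = 1 →
      ⟪x, N⟫ = 0 → ⟪y, w⟫ = 0 → SO.gS' (l.map SO.GT.v) T (dv x N y w 0)
        ≤ Ro T (dv x N y w 0))
    {c0 ρ κ γ lu lv : ℝ} (hc0 : 0 < c0) (hρ : 0 < ρ) (hκ : 0 ≤ κ) (hγ : 0 < γ)
    (hl1 : 95 / 100 * ρ ≤ 3 * lu) (hl2 : 95 / 10000 * ρ ≤ lv)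
    (hl3 : 3 * lu ≤ 14 * ρ + 73 / 2 * lv)
    (h0 : ∀ x N y w : W, ‖x‖ = 1 → ‖N‖ = 1 → ‖y‖ = 1 → ‖w‖ = 1 → ⟪x, N⟫ = 0 → ⟪y, w⟫ = 0 →
      (l.map fun t => t.φ 0 * t.Q (dv x N y w 0)).sum
        ≤ c0 * (1 + γ * dv x N y w (0 : W) 3
          - (ρ * RF (-(187 / 100)) 14 (-(√6 / 6)) (dv x N y w 0)
            + κ * dv x N y w (0 : W) 0 ^ 3) + R0 (dv x N y w 0)
          - (lu * ((⟪x, w⟫ - ⟪N, y⟫) / 2) ^ 2
            + lv * (⟪N, w⟫ - ⟪x, y⟫ - √6 / 6 * ((⟪x, w⟫ + ⟪N, y⟫) / 2)) ^ 2)))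
    (hfl : OT.fluxC 5 2 l = c0 * C)
    -- the certificate with the mean normal
    {c2 ρ2 κ2 lus : ℝ} (hc20 : 0 < c2) (hc2 : 1 ≤ 6 * c2 ^ 2) (hρ2 : 0 < ρ2) (hκ2 : 0 ≤ κ2)
    (hls0 : a * ρ2 ≤ 3 * lus) (hls : 3 * lus ≤ 14 * ρ2)
    {b0 b1 b2 b3 b4 b5 b6 b7 b8 : ℝ} {l2 : List (ℝ × HTerm)}
    (hl : ∀ cT ∈ l2, cT.2.ok 5 = true)
    (hpos : ∀ e x N y w : W, ‖e‖ ^ 2 ≤ 25 / 36 → ‖x‖ = 1 → ‖N‖ = 1 → ‖y‖ = 1 → ‖w‖ = 1 →
      ⟪x, N⟫ = 0 → ⟪y, w⟫ = 0 → ⟪x, y⟫ < 1 → 0 ≤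
        W9 b0 b1 b2 b3 b4 b5 b6 b7 b8 (dv x N y w e) + hsum 5 l2 (dv x N y w e)
        - (ρ2 * RF (-(187 / 100)) 14 c2 (dv x N y w e) + κ2 * dv x N y w e 0 ^ 3
          + lus * ((dv x N y w e 1 - dv x N y w e 2) / 2) ^ 2))
    {u0 gs : ℝ} (hgs : 0 ≤ gs)
    (hlaw : ∀ Θ u r : ℝ, Θ1 ≤ Θ → Θ ≤ C → u0 ≤ u → Θ ^ 2 * u ≤ 1 → u ^ 2 ≤ r → r ≤ u →
      Θ * (b0 + (b1 + b2 + b3) * u + (b4 + b7) * r + (b5 + b6) * u ^ 2
        + b8 * ((u - r) / ((5 : ℕ) + 1))) + KH 5 * hval 5 l2 u r ≤ Θ * gs)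
    -- the bound of the mean normal
    {K : ℝ} (hK : 0 < K)
    (hone : ∀ N : M → W, TwoG (volM V F) 5 F N → ∀ (b : OrthonormalBasis (Fin 7) ℝ W)
      (S : Finset (Fin 7)),
      ‖∫ x, N x ∂(volM V F)‖ ≤ K * ∫ x, ‖SO.dev b S (F x) (N x)‖ ^ 2 ∂(volM V F))
    (hn1 : 36 * γ * u0 ≤ t1 * ρ) (hn2 : (36 * K * γ) ^ 2 * u0 ≤ (k1 * ρ) ^ 2)
    (hs1 : 36 * gs < t2 * ρ2) (hs2 : (36 * K * gs) ^ 2 < (k2 * ρ2) ^ 2 * u0)
    (hle : (volM V F).real univ ≤ C * sphereVol 5) :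
    (volM V F).real univ = C * sphereVol 5 ∧ Injective F ∧
      ∃ (N : M → W) (b : OrthonormalBasis (Fin 7) ℝ W) (S : Finset (Fin 7)),
        ContMDiff 𝓘(ℝ, V) 𝓘(ℝ, W) ∞ N ∧ (∀ x, IsUnitNormal V F x (N x)) ∧ S.card = 4 ∧
        ∀ x, N x = ∑ i, (SO.zt S i * ⟪F x, b i⟫) • b i := by
  have hE7 : finrank ℝ W = 7 := by omega
  have hfin : IsFiniteMeasure (volM V F) := isFiniteMeasure_volM hF
  have hne : Nonempty M := inferInstance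
  have h36 : (0 : ℝ) < 36 := by norm_num
  have hS0 : 0 < sphereVol 5 := sphereVol_pos' _
  have hA0 : 0 < (volM V F).real univ := by
    have : 0 < Θ1 * sphereVol 5 := by positivity
    linarith
  have h6 : (√6 : ℝ) ^ 2 = 6 := Real.sq_sqrt (by norm_num)
  have h60 : (√6 : ℝ) ≠ 0 := by positivity
  have hα : -(1 / (√6 / 3)) = -(√6 / 2) := by
    field_simp
    linarith
  have hdev : ∀ (b : OrthonormalBasis (Fin 7) ℝ W) (S : Finset (Fin 7)) (x N : W),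
      devA (√6 / 3) b S x N = SO.dev b S x N := by
    intro b S x N
    unfold devA SO.dev SO.zt
    rw [hα]
  have key := core_odd (m := 5) (h := 2) (by norm_num) (by norm_num) hV hW hF hmin hC2 hΘ1 hΘ hr
    hok hw hRn hR0 hposT hc0 hκ hγ
    (RT := fun d => ρ * RF (-(187 / 100)) 14 (-(√6 / 6)) d
      + (lu * ((d 1 - d 2) / 2) ^ 2 + lv * (d 3 - d 0 - √6 / 6 * ((d 1 + d 2) / 2)) ^ 2))
    (((continuous_RF _ _ _).const_mul ρ).add (by fun_prop))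
    (fun x N y w a1 a2 a3 a4 a5 a6 => (h0 x N y w a1 a2 a3 a4 a5 a6).trans (le_of_eq (by
      have e0 : dv x N y w (0 : W) 0 = ⟪x, y⟫ := rfl
      have e1 : dv x N y w (0 : W) 1 = ⟪x, w⟫ := rfl
      have e2 : dv x N y w (0 : W) 2 = ⟪N, y⟫ := rfl
      have e3 : dv x N y w (0 : W) 3 = ⟪N, w⟫ := rfl
      rw [← e0, ← e1, ← e2, ← e3]
      ring))) hfl hκ2
    (RS := fun d => ρ2 * RF (-(187 / 100)) 14 c2 d + lus * ((d 1 - d 2) / 2) ^ 2)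
    (((continuous_RF _ _ _).const_mul ρ2).add (by fun_prop)) hl
    (fun e x N y w a0 a1 a2 a3 a4 a5 a6 a7 => (hpos e x N y w a0 a1 a2 a3 a4 a5 a6 a7).trans
      (le_of_eq (by ring))) hgs hlaw (α := √6 / 3) (kT := k1 / 36 * ρ)
    (tT := t1 / 36 * ρ) (kS := k2 / 36 * ρ2) (tS := t2 / 36 * ρ2) (cd := 4)
    (by positivity) (by positivity)
    (fun N hG hor hR => by
      have e : ∫ q, (fun d : R9 => ρ * RF (-(187 / 100)) 14 (-(√6 / 6)) d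
          + (lu * ((d 1 - d 2) / 2) ^ 2 + lv * (d 3 - d 0 - √6 / 6 * ((d 1 + d 2) / 2)) ^ 2))
          (dat F (fun x => -N x) (0 : W) q) ∂((volM V F).prod (volM V F))
          = ∫ q : M × M, (ρ * (-(187 / 100) + 14 * ⟪F q.1, F q.2⟫ ^ 2
          - ⟪F q.1, F q.2⟫ * ⟪N q.1, N q.2⟫
          + √6 / 6 * (⟪F q.1, F q.2⟫ * ((⟪F q.1, N q.2⟫ + ⟪N q.1, F q.2⟫) / 2)))
          + lu * ((⟪F q.1, N q.2⟫ - ⟪N q.1, F q.2⟫) / 2) ^ 2
          + lv * (⟪N q.1, N q.2⟫ - ⟪F q.1, F q.2⟫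
            + √6 / 6 * ((⟪F q.1, N q.2⟫ + ⟪N q.1, F q.2⟫) / 2)) ^ 2)
            ∂((volM V F).prod (volM V F)) := by
        refine integral_congr_ae (Eventually.of_forall fun q => ?_)
        have e0 : dat F (fun x => -N x) (0 : W) q 0 = ⟪F q.1, F q.2⟫ := rfl
        have e1 : dat F (fun x => -N x) (0 : W) q 1 = ⟪F q.1, -N q.2⟫ := rfl
        have e2 : dat F (fun x => -N x) (0 : W) q 2 = ⟪-N q.1, F q.2⟫ := rfl
        have e3 : dat F (fun x => -N x) (0 : W) q 3 = ⟪-N q.1, -N q.2⟫ := rfl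
        simp only [RF, e0, e1, e2, e3, inner_neg_left, inner_neg_right]
        ring
      rw [e] at hR ⊢
      obtain ⟨b, S, h1, h2⟩ := SO.stabRT hst1 hE7 hG (sp_of_hng hng) hor hA0 hρ hl1 hl2 hl3
        (by linarith)
      refine ⟨b, S, h1, ?_⟩
      simp only [hdev]
      linarith)
    (fun e N hG hor hR => by
      obtain ⟨b, S, h1, h2⟩ := SO.stabRS (ρ := ρ2) (lu := lus) (c := c2) ha hst2 hE7 hG
        (sp_of_hng hng) hor hA0 hρ2 hls0 hls hc20.le hc2 (by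
          change 36 * ∫ q, (fun d : R9 => ρ2 * RF (-(187 / 100)) 14 c2 d
            + lus * ((d 1 - d 2) / 2) ^ 2) (dat F N e q) ∂((volM V F).prod (volM V F)) < _
          linarith)
      refine ⟨b, S, h1, ?_⟩
      simp only [hdev]
      change _ ≤ 36 * ∫ q, (fun d : R9 => ρ2 * RF (-(187 / 100)) 14 c2 d
            + lus * ((d 1 - d 2) / 2) ^ 2) (dat F N e q) ∂((volM V F).prod (volM V F)) at h2
      linarith)
    hK (fun N hG b S _ => by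
      simp only [hdev]
      exact hone N hG b S)
    (by linarith) (by
      have e : (k1 / 36 * ρ) ^ 2 = (k1 * ρ) ^ 2 / 1296 := by ring
      have e2 : (36 * K * γ) ^ 2 = 1296 * (K * γ) ^ 2 := by ring
      rw [e2] at hn2
      rw [e]
      linarith) (by linarith) (by
      have e : (k2 / 36 * ρ2) ^ 2 * u0 = (k2 * ρ2) ^ 2 * u0 / 1296 := by ring
      have e2 : (36 * K * gs) ^ 2 = 1296 * (K * gs) ^ 2 := by ring
      rw [e2] at hs2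
      rw [e]
      linarith) hle
  obtain ⟨q1, q2, N, b, S, q3, q4, q5, q6⟩ := key
  refine ⟨q1, q2, N, b, S, q3, q4, q5, fun x => ?_⟩
  rw [q6 x, hα]
  rfl

end

end Vale.Agent.P224.PO
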