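import Vale.Agent.P224.PO.MainO
import Vale.Agent.P224.SO.LawL

/-!
Dimension five: the sharp volume bound from a certificate with a parameter, a static functional
and a certificate with the mean normal.
-/

namespace Vale.Agent.P224.PO

open MeasureTheory Set Filter Function Module Vale.Agent.P224 Vale.Agent.P224.UE
open Vale.Agent.P224.SM2 hiding ker
open scoped Topology RealInnerProductSpace ENNReal ContDiff Manifold

set_option linter.unusedSectionVars false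

/-- the resources in dimension five -/
theorem res5K {X : Type*} [MeasurableSpace X] [Nonempty X] {E : Type*} [NormedAddCommGroup E]
    [InnerProductSpace ℝ E] [FiniteDimensional ℝ E] [MeasurableSpace E] [BorelSpace E]
    {μ : Measure X} [IsFiniteMeasure μ] {p n : X → E} (hE : finrank ℝ E = 7)
    (h : TwoG μ 5 p n) (hsp : ∀ w, (∀ x, ⟪p x, w⟫ = 0) → w = 0)
    (hor : 0 ≤ ∫ q : X × X, ⟪p q.1, p q.2⟫ * ⟪p q.1, n q.2⟫ ∂(μ.prod μ))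
    {c ρ κ : ℝ} (hc0 : 0 < c) (hc : 1 ≤ 6 * c ^ 2) (hρ : 0 ≤ ρ) (hκ : 0 ≤ κ) (e : E) :
    0 ≤ ∫ q, (fun d : R9 => ρ * RF (-(187 / 100)) 14 c d + κ * d 0 ^ 3) (dat p n e q)
      ∂(μ.prod μ) := by
  have hint : ∀ {G : R9 → ℝ}, Continuous G → Integrable (fun q => G (dat p n e q)) (μ.prod μ) :=
    fun hG => integrable_param _ (measurable_dat h.toPts e) (isCompact_KE (bE e))
      (dat_mem h.toPts e) hG.measurable hG.continuousOn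
  have i1 : Integrable (fun q => ρ * RF (-(187 / 100)) 14 c (dat p n e q)) (μ.prod μ) :=
    (hint (continuous_RF _ _ _)).const_mul ρ
  have i2 : Integrable (fun q => κ * dat p n e q 0 ^ 3) (μ.prod μ) :=
    (hint (G := fun d => d 0 ^ 3) (by fun_prop)).const_mul κ
  have h1 := res5 hE h hsp hor hc0 hc e
  have h2 : 0 ≤ ∫ q, dat p n e q 0 ^ 3 ∂(μ.prod μ) := SO.k00 (μ := μ) (p := p) ⟨h.mp, h.np⟩
  rw [integral_add i1 i2, integral_const_mul, integral_const_mul]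
  positivity

section

variable {V W M : Type*} [NormedAddCommGroup V] [InnerProductSpace ℝ V] [FiniteDimensional ℝ V]
  [NormedAddCommGroup W] [InnerProductSpace ℝ W] [FiniteDimensional ℝ W]
  [TopologicalSpace M] [ChartedSpace V M]
  [MeasurableSpace V] [BorelSpace V] [MeasurableSpace M] [BorelSpace M]
  [IsManifold 𝓘(ℝ, V) ∞ M] [CompactSpace M] [T2Space M] [ConnectedSpace M]
  [MeasurableSpace W] [BorelSpace W]

/-- The sharp bound in dimension five from the certificates. -/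
theorem main5_S (hV : finrank ℝ V = 5) (hW : finrank ℝ W = finrank ℝ V + 2)
    {F : M → W} (hF : SphImm V F) (hmin : ∀ x n, IsUnitNormal V F x n → meanCurv V F x n = 0)
    (hng : ¬ ∃ a : W, a ≠ 0 ∧ ∀ x, ⟪F x, a⟫ = 0)
    {C : ℝ} (hC2 : C ≤ 2)
    -- the certificate with a parameter
    (l : List SO.GT) (hr : ∀ t ∈ l, t.Reg) (hok : ∀ t ∈ l, t.ok 2)
    (hw : ∀ t ∈ l, t.fl 2 → ∀ x N : W, ‖x‖ = 1 → ‖N‖ = 1 → ⟪x, N⟫ = 0 →
      t.w (dv x N x N 0) = 1)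
    {Ro : ℝ → R9 → ℝ} (hRn : ∀ N : M → W, TwoG (volM V F) 5 F N → ∀ T ∈ Ico (0 : ℝ) 1,
      Null (volM V F) F N 0 (Ro T))
    {H H' : ℝ → R9 → ℝ} {L : R9 → ℝ} (hH : SO.HReg H H' L)
    (hposT : ∀ T ∈ Ioo (0 : ℝ) 1, ∀ x N y w : W, ‖x‖ = 1 → ‖N‖ = 1 → ‖y‖ = 1 → ‖w‖ = 1 →
      ⟪x, N⟫ = 0 → ⟪y, w⟫ = 0 → SO.gS' (l.map SO.GT.v) T (dv x N y w 0) + H' T (dv x N y w 0)
        ≤ Ro T (dv x N y w 0))
    {c ρ κ γ : ℝ} (hc0 : 0 < c) (hc : 1 ≤ 6 * c ^ 2) (hρ : 0 ≤ ρ) (hκ : 0 ≤ κ)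
    (h0 : ∀ x N y w : W, ‖x‖ = 1 → ‖N‖ = 1 → ‖y‖ = 1 → ‖w‖ = 1 → ⟪x, N⟫ = 0 → ⟪y, w⟫ = 0 →
      (l.map fun t => t.φ 0 * t.Q (dv x N y w 0)).sum
        ≤ 1 + γ * dv x N y w (0 : W) 3 - (ρ * RF (-(187 / 100)) 14 c (dv x N y w 0)
          + κ * dv x N y w (0 : W) 0 ^ 3) + Ro 0 (dv x N y w 0))
    (hfl : OT.fluxC 5 2 l = C)
    -- the static functional and the certificate with the mean normal
    (hLe : ∀ x N y w e : W, L (dv x N y w e) = L (dv x N y w 0))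
    {c2 ρ2 κ2 : ℝ} (hc20 : 0 < c2) (hc2 : 1 ≤ 6 * c2 ^ 2) (hρ2 : 0 ≤ ρ2) (hκ2 : 0 ≤ κ2)
    {b0 b1 b2 b3 b4 b5 b6 b7 b8 : ℝ} {l2 : List (ℝ × HTerm)}
    (hl : ∀ cT ∈ l2, cT.2.ok 5 = true)
    (hpos : ∀ e x N y w : W, ‖e‖ ^ 2 ≤ 25 / 36 → ‖x‖ = 1 → ‖N‖ = 1 → ‖y‖ = 1 → ‖w‖ = 1 →
      ⟪x, N⟫ = 0 → ⟪y, w⟫ = 0 → ⟪x, y⟫ < 1 → 0 ≤ L (dv x N y w 0)
        + W9 b0 b1 b2 b3 b4 b5 b6 b7 b8 (dv x N y w e) + hsum 5 l2 (dv x N y w e)
        - (ρ2 * RF (-(187 / 100)) 14 c2 (dv x N y w e) + κ2 * dv x N y w e 0 ^ 3))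
    (hneg : ∀ Θ u r : ℝ, 6 / 5 ≤ Θ → Θ < C → 0 < u → Θ ^ 2 * u ≤ 1 → u ^ 2 ≤ r → r ≤ u →
      Θ * (1 + γ * u + (b0 + (b1 + b2 + b3) * u + (b4 + b7) * r + (b5 + b6) * u ^ 2
        + b8 * ((u - r) / ((5 : ℕ) + 1)))) + KH 5 * hval 5 l2 u r < C)
    (hL0 : ∀ x N y w : W, ‖x‖ = 1 → ‖N‖ = 1 → ‖y‖ = 1 → ‖w‖ = 1 →
      ⟪x, N⟫ = 0 → ⟪y, w⟫ = 0 → ⟪x, y⟫ < 1 → 0 ≤ L (dv x N y w 0)) :
    ENNReal.ofReal (C * sphereVol 5) ≤ volM V F univ := by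
  have hfin : IsFiniteMeasure (volM V F) := isFiniteMeasure_volM hF
  have hne : Nonempty M := inferInstance
  have hcont : ∀ (a b d : ℝ), Continuous fun x : R9 =>
      a * RF (-(187 / 100)) 14 b x + d * x 0 ^ 3 := fun a b d =>
    ((continuous_RF _ _ _).const_mul a).add (by fun_prop)
  refine main_of_LO (R := fun d => ρ2 * RF (-(187 / 100)) 14 c2 d + κ2 * d 0 ^ 3) (l := l2)
    (by norm_num) hV hW hF hmin hng hC2 hLe (fun N hNs hN hinj hor => ?_) (hcont _ _ _)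
    (fun N h hor e => res5K (by omega) h (sp_of_hng hng) hor hc20 hc2 hρ2 hκ2 e) hl
    (fun e x N y w h1 h2 h3 h4 h5 h6 h7 h8 => by
      rw [hLe]
      exact hpos e x N y w h1 h2 h3 h4 h5 h6 h7 h8) hneg hL0
  obtain ⟨B, hE⟩ := embD_of_inj (by omega) hW hF hmin hNs hN hinj
  rw [hV] at hE
  have hG := hE.toTwoG
  have key := SO.law_PL hE (h := 2) (by norm_num) (by norm_num) l hr hok hw (hRn N hG) hH hposT
    (c0 := 1) (γ := γ) (R := fun d => ρ * RF (-(187 / 100)) 14 c d + κ * d 0 ^ 3) (hcont _ _ _)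
    (res5K (by omega) hG (sp_of_hng hng) hor hc0 hc hρ hκ 0) h0
  rw [hfl] at key
  refine ⟨key.1, ?_⟩
  have := key.2
  linarith

end

end Vale.Agent.P224.PO
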