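import Vale.Agent.P224.PO.LawK

/-!
The final assembly of a sharp certificate in odd dimension: a static functional and a certificate
with the mean normal.
-/

namespace Vale.Agent.P224.PO

open MeasureTheory Set Filter Function Module Vale.Agent.P224 Vale.Agent.P224.UE
open Vale.Agent.P224.SM2 hiding ker
open scoped Topology RealInnerProductSpace ENNReal ContDiff Manifold

set_option linter.unusedSectionVars false

section

variable {V W M : Type*} [NormedAddCommGroup V] [InnerProductSpace ℝ V] [FiniteDimensional ℝ V]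
  [NormedAddCommGroup W] [InnerProductSpace ℝ W] [FiniteDimensional ℝ W]
  [TopologicalSpace M] [ChartedSpace V M]
  [MeasurableSpace V] [BorelSpace V] [MeasurableSpace M] [BorelSpace M]
  [IsManifold 𝓘(ℝ, V) ∞ M] [CompactSpace M] [T2Space M] [ConnectedSpace M]
  [MeasurableSpace W] [BorelSpace W]

/-- The volume bound from a static functional `L` and a certificate with the mean normal. -/
theorem main_of_LO {m : ℕ} (hm2 : 2 ≤ m) (hV : finrank ℝ V = m)
    (hW : finrank ℝ W = finrank ℝ V + 2)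
    {F : M → W} (hF : SphImm V F) (hmin : ∀ x n, IsUnitNormal V F x n → meanCurv V F x n = 0)
    (hng : ¬ ∃ a : W, a ≠ 0 ∧ ∀ x, ⟪F x, a⟫ = 0)
    {C : ℝ} (hC2 : C ≤ 2) {L : R9 → ℝ} {γ : ℝ}
    (hLe : ∀ x N y w e : W, L (dv x N y w e) = L (dv x N y w 0))
    (hL : ∀ N : M → W, ContMDiff 𝓘(ℝ, V) 𝓘(ℝ, W) ∞ N → (∀ x, IsUnitNormal V F x (N x)) →
      Injective F →
      0 ≤ ∫ q : M × M, ⟪F q.1, F q.2⟫ * ⟪F q.1, N q.2⟫ ∂((volM V F).prod (volM V F)) →
      Integrable (fun q => L (dat F N 0 q)) ((volM V F).prod (volM V F)) ∧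
        ∫ q, L (dat F N 0 q) ∂((volM V F).prod (volM V F))
          + C * sphereVol m * (volM V F).real univ
          ≤ (volM V F).real univ ^ 2 + γ * ‖∫ x, N x ∂(volM V F)‖ ^ 2)
    {R : R9 → ℝ} (hRc : Continuous R)
    (hres : ∀ N : M → W, TwoG (volM V F) m F N →
      0 ≤ ∫ q : M × M, ⟪F q.1, F q.2⟫ * ⟪F q.1, N q.2⟫ ∂((volM V F).prod (volM V F)) →
      ∀ e : W, 0 ≤ ∫ q, R (dat F N e q) ∂((volM V F).prod (volM V F)))
    {b0 b1 b2 b3 b4 b5 b6 b7 b8 : ℝ} {l : List (ℝ × HTerm)}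
    (hl : ∀ cT ∈ l, cT.2.ok m = true)
    (hpos : ∀ e x N y w : W, ‖e‖ ^ 2 ≤ 25 / 36 → ‖x‖ = 1 → ‖N‖ = 1 → ‖y‖ = 1 → ‖w‖ = 1 →
      ⟪x, N⟫ = 0 → ⟪y, w⟫ = 0 → ⟪x, y⟫ < 1 → 0 ≤ L (dv x N y w e)
        + W9 b0 b1 b2 b3 b4 b5 b6 b7 b8 (dv x N y w e)
        + hsum m l (dv x N y w e) - R (dv x N y w e))
    (hneg : ∀ Θ u r : ℝ, 6 / 5 ≤ Θ → Θ < C → 0 < u → Θ ^ 2 * u ≤ 1 → u ^ 2 ≤ r → r ≤ u →
      Θ * (1 + γ * u + (b0 + (b1 + b2 + b3) * u + (b4 + b7) * r + (b5 + b6) * u ^ 2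
        + b8 * ((u - r) / (m + 1)))) + KH m * hval m l u r < C)
    (hL0 : ∀ x N y w : W, ‖x‖ = 1 → ‖N‖ = 1 → ‖y‖ = 1 → ‖w‖ = 1 →
      ⟪x, N⟫ = 0 → ⟪y, w⟫ = 0 → ⟪x, y⟫ < 1 → 0 ≤ L (dv x N y w 0)) :
    ENNReal.ofReal (C * sphereVol m) ≤ volM V F univ := by
  have hm : 0 < finrank ℝ V := by omega
  have hfin : IsFiniteMeasure (volM V F) := isFiniteMeasure_volM hF
  set A := (volM V F).real univ with hA
  rw [← hV]
  set S := sphereVol (finrank ℝ V) with hS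
  have hS0 : 0 < S := sphereVol_pos' _
  have hconv : ∀ c : ℝ, c ≤ A → ENNReal.ofReal c ≤ volM V F univ := fun c hc =>
    ENNReal.ofReal_le_of_le_toReal hc
  refine hconv _ ?_
  by_cases hinj : Injective F
  swap
  · have h2 := TwoSide.two_le (by omega) hW hF hmin hinj
    have h3 : C * S ≤ 2 * S := by gcongr
    linarith
  by_contra hlt
  rw [not_le] at hlt
  have h65 : 6 / 5 * S ≤ A := by
    have h1 := (PM.main_frac (by omega) hW hF hmin hng).1
    have h2 := ENNReal.toReal_mono (measure_ne_top _ _) h1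
    rwa [ENNReal.toReal_ofReal (by positivity)] at h2
  have hA0 : 0 < A := by linarith
  obtain ⟨N, hNs, hN, htop, hor⟩ : ∃ N : M → W, ContMDiff 𝓘(ℝ, V) 𝓘(ℝ, W) ∞ N ∧
      (∀ x, IsUnitNormal V F x (N x)) ∧ ‖∫ x, N x ∂(volM V F)‖ ≤ S ∧
      0 ≤ ∫ q : M × M, ⟪F q.1, F q.2⟫ * ⟪F q.1, N q.2⟫ ∂((volM V F).prod (volM V F)) := by
    obtain ⟨N, hNs, hN, htop⟩ := TP.exists_normal_le hW hm hF hinj
    rcases SO.orient (μ := volM V F) (p := F) (n := N) with h | h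
    · exact ⟨N, hNs, hN, htop, h⟩
    · refine ⟨fun x => -N x, hNs.neg, fun x => ⟨by rw [norm_neg]; exact (hN x).1,
        by rw [inner_neg_right, (hN x).2.1, neg_zero], fun i => by
          rw [inner_neg_right, (hN x).2.2 i, neg_zero]⟩, ?_, h⟩
      rw [integral_neg, norm_neg]
      exact htop
  obtain ⟨B, hE⟩ := embD_of_inj hm hW hF hmin hNs hN hinj
  rw [← hS, hV] at hE
  have hSm : sphereVol m = S := by rw [hS, hV]
  obtain ⟨hLi, hLl⟩ := hL N hNs hN hinj hor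
  rw [hSm] at hLl
  set e : W := A⁻¹ • ∫ x, N x ∂(volM V F) with he
  have he' : A • e = ∫ x, N x ∂(volM V F) := by
    rw [he, smul_smul, mul_inv_cancel₀ hA0.ne', one_smul]
  have hn : ‖∫ x, N x ∂(volM V F)‖ = A * ‖e‖ := by
    rw [← he', norm_smul, Real.norm_eq_abs, abs_of_pos hA0]
  have hLd : (fun q => L (dat F N e q)) = fun q => L (dat F N 0 q) := funext fun q => hLe _ _ _ _ e
  have hdat0 : 0 ≤ ∫ q, L (dat F N 0 q) ∂((volM V F).prod (volM V F)) := by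
    refine integral_nonneg_of_ae ?_
    filter_upwards [(twoG_of_min hW hF hmin hNs hN).ae_lt (by omega) 0] with q hq
    exact hL0 (F q.1) (N q.1) (F q.2) (N q.2) (hF.unit _) (hN _).1 (hF.unit _) (hN _).1 (hN _).2.1
      (hN _).2.1 hq
  by_cases he0 : e = 0
  · rw [hn, he0, norm_zero, mul_zero] at hLl
    have h1 := mul_lt_mul_of_pos_right hlt hA0
    nlinarith
  rw [hn] at htop
  set Θ := A / S with hΘ
  have hAS : A = Θ * S := by rw [hΘ]; field_simp
  have h1 : 6 / 5 ≤ Θ := by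
    rw [hΘ, le_div_iff₀ hS0]
    exact h65
  have h2 : Θ < C := by
    rw [hΘ, div_lt_iff₀ hS0]
    exact hlt
  have h3 : Θ * ‖e‖ ≤ 1 := by
    have : S * (Θ * ‖e‖) ≤ S * 1 := by
      calc S * (Θ * ‖e‖) = A * ‖e‖ := by rw [hAS]; ring
        _ ≤ S := htop
        _ = S * 1 := (mul_one S).symm
    exact le_of_mul_le_mul_left this hS0
  have h4 : Θ ^ 2 * ‖e‖ ^ 2 ≤ 1 := by
    have h0 : 0 ≤ Θ * ‖e‖ := mul_nonneg (by linarith) (norm_nonneg _)
    calc Θ ^ 2 * ‖e‖ ^ 2 = (Θ * ‖e‖) ^ 2 := by ring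
      _ ≤ 1 := pow_le_one₀ h0 h3
  have h5 : ‖e‖ ^ 2 ≤ 25 / 36 := by
    have h6 : (6 / 5 : ℝ) ^ 2 ≤ Θ ^ 2 := pow_le_pow_left₀ (by norm_num) h1 2
    have h7 := mul_le_mul_of_nonneg_right h6 (sq_nonneg ‖e‖)
    linarith
  have hne : Nonempty M := inferInstance
  have hRi : Integrable (fun q => R (dat F N e q)) ((volM V F).prod (volM V F)) :=
    integrable_param _ (measurable_dat hE.toPts e) (isCompact_KE (bE e))
      (dat_mem hE.toPts e) hRc.measurable hRc.continuousOn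
  have hR0 := hres N hE.toTwoG hor e
  have hLi' : Integrable (fun q => (fun d : R9 => L d - R d) (dat F N e q))
      ((volM V F).prod (volM V F)) := (hLd ▸ hLi : Integrable (fun q => L (dat F N e q)) _).sub hRi
  have hL' : ∫ q, (fun d : R9 => L d - R d) (dat F N e q) ∂((volM V F).prod (volM V F))
      + C * S * (volM V F).real univ
      ≤ (volM V F).real univ ^ 2 + γ * ‖∫ x, N x ∂(volM V F)‖ ^ 2 := by
    have h6 : ∫ q, (L (dat F N e q) - R (dat F N e q)) ∂((volM V F).prod (volM V F))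
        = ∫ q, L (dat F N 0 q) ∂((volM V F).prod (volM V F))
          - ∫ q, R (dat F N e q) ∂((volM V F).prod (volM V F)) := by
      rw [← hLd]
      exact integral_sub (hLd ▸ hLi : Integrable (fun q => L (dat F N e q)) _) hRi
    simp only
    rw [h6]
    linarith
  obtain ⟨r, hr1, hr2, hr3⟩ := hE.law_HL hm2 he' hA0 (L := fun d : R9 => L d - R d)
    (Cc := C) (γ := γ) (b0 := b0) (b1 := b1) (b2 := b2) (b3 := b3) (b4 := b4) (b5 := b5)
    (b6 := b6) (b7 := b7) (b8 := b8) hLi' hL' hl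
    (fun x N y w hx hN hy hw hxN hyw hs => by
      have := hpos e x N y w h5 hx hN hy hw hxN hyw hs
      linarith)
  rw [← hA] at hr3
  have hu0 : 0 < ‖e‖ ^ 2 := by
    have := norm_pos_iff.2 he0
    positivity
  have h8 := hneg Θ (‖e‖ ^ 2) r h1 h2 hu0 h4 hr1 hr2
  have h9 := mul_lt_mul_of_pos_left h8 hS0
  have h10 : ∀ c : ℝ, A * c = S * (Θ * c) := fun c => by rw [hAS]; ring
  rw [h10] at hr3
  linarith

end

end Vale.Agent.P224.PO
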