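import Vale.Agent.P224.PO.LawV

/-!
Odd dimension: the sharp volume bound and its equality case from a certificate with a parameter
(no mean normal, exact) and a near sharp certificate with the mean normal, with stable resources
as hypotheses.
-/

namespace Vale.Agent.P224.PO

open MeasureTheory Set Filter Function Module Vale.Agent.P224 Vale.Agent.P224.UE
open Vale.Agent.P224.SM2 hiding ker
open scoped Topology RealInnerProductSpace ENNReal ContDiff Manifold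

set_option linter.unusedSectionVars false

section

variable {V W M : Type*} [NormedAddCommGroup V] [InnerProductSpace ℝ V] [FiniteDimensional ℝ V]
  [NormedAddCommGroup W] [InnerProductSpace ℝ W] [FiniteDimensional ℝ W]
  [TopologicalSpace M] [ChartedSpace V M]
  [MeasurableSpace V] [BorelSpace V] [MeasurableSpace M] [BorelSpace M]
  [IsManifold 𝓘(ℝ, V) ∞ M] [CompactSpace M] [T2Space M] [ConnectedSpace M]
  [MeasurableSpace W] [BorelSpace W]

/-- the deviation from a Clifford configuration with the eigenvalues `α` and `-1 / α` -/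
noncomputable def devA {k : ℕ} (α : ℝ) (b : OrthonormalBasis (Fin k) ℝ W) (S : Finset (Fin k))
    (x N : W) : W :=
  N - ∑ i, ((if i ∈ S then α else -(1 / α)) * ⟪x, b i⟫) • b i

/-- the arithmetic of the mean normal: small values -/
lemma arithTo {A D R γ K u0 ε k : ℝ} (hA0 : 0 < A) (hk : 0 < k) (hK0 : 0 ≤ K)
    (hε : 0 ≤ ε) (hk4 : R ≤ γ * (ε ^ 2 * A ^ 2)) (hD : k * (A * D) ≤ R)
    (hone : A * ε ≤ K * D) (hu : ε ^ 2 < u0)
    (hn2 : (K * γ) ^ 2 * u0 ≤ k ^ 2) (hγ : 0 < γ) (hK : 0 < K) : ε = 0 := by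
  by_contra hne
  have hep : 0 < ε := lt_of_le_of_ne hε (Ne.symm hne)
  have h1 : k * (A * D) ≤ γ * (ε ^ 2 * A ^ 2) := by linarith
  have h2 : (k * A) * (A * ε) ≤ (k * A) * (K * D) :=
    mul_le_mul_of_nonneg_left hone (by positivity)
  have h3 : (A ^ 2 * ε) * k ≤ (A ^ 2 * ε) * (K * γ * ε) := by
    calc (A ^ 2 * ε) * k = (k * A) * (A * ε) := by ring
      _ ≤ (k * A) * (K * D) := h2
      _ = K * (k * (A * D)) := by ring
      _ ≤ K * (γ * (ε ^ 2 * A ^ 2)) := mul_le_mul_of_nonneg_left h1 hK0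
      _ = _ := by ring
  have h4 : k ≤ K * γ * ε := le_of_mul_le_mul_left h3 (by positivity)
  have h5 : k ^ 2 ≤ (K * γ * ε) ^ 2 := pow_le_pow_left₀ hk.le h4 2
  have h6 : (K * γ * ε) ^ 2 = (K * γ) ^ 2 * ε ^ 2 := by ring
  have h7 : (K * γ) ^ 2 * ε ^ 2 < (K * γ) ^ 2 * u0 :=
    mul_lt_mul_of_pos_left hu (by positivity)
  linarith

/-- the arithmetic of the mean normal: large values -/
lemma arithSo {A D R g K u0 ε k : ℝ} (hA0 : 0 < A) (hk : 0 < k) (hK0 : 0 ≤ K)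
    (hg : 0 ≤ g) (hε : 0 ≤ ε) (hk4 : R ≤ A ^ 2 * g) (hD : k * (A * D) ≤ R)
    (hone : A * ε ≤ K * D) (hu : u0 ≤ ε ^ 2)
    (hn2 : (K * g) ^ 2 < k ^ 2 * u0) : False := by
  have h2 : (k * A) * (A * ε) ≤ (k * A) * (K * D) :=
    mul_le_mul_of_nonneg_left hone (by positivity)
  have h3 : A ^ 2 * (k * ε) ≤ A ^ 2 * (K * g) := by
    calc A ^ 2 * (k * ε) = (k * A) * (A * ε) := by ring
      _ ≤ (k * A) * (K * D) := h2
      _ = K * (k * (A * D)) := by ring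
      _ ≤ K * (A ^ 2 * g) := mul_le_mul_of_nonneg_left (by linarith) hK0
      _ = _ := by ring
  have h4 : k * ε ≤ K * g := le_of_mul_le_mul_left h3 (by positivity)
  have h5 : (k * ε) ^ 2 ≤ (K * g) ^ 2 := pow_le_pow_left₀ (by positivity) h4 2
  have h6 : (k * ε) ^ 2 = k ^ 2 * ε ^ 2 := by ring
  have h7 : k ^ 2 * u0 ≤ k ^ 2 * ε ^ 2 := mul_le_mul_of_nonneg_left hu (by positivity)
  linarith

/-- **The sharp bound and its equality case in odd dimension**, from the two certificates, the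
stable resources and the bound of the mean normal. -/
theorem core_odd {m h : ℕ} (hmh : m = 2 * h + 1) (hm : 4 < m) (hV : finrank ℝ V = m)
    (hW : finrank ℝ W = finrank ℝ V + 2)
    {F : M → W} (hF : SphImm V F) (hmin : ∀ x n, IsUnitNormal V F x n → meanCurv V F x n = 0)
    {C Θ1 : ℝ} (hC2 : C < 2) (hΘ1 : 6 / 5 ≤ Θ1)
    (hΘ : Θ1 * sphereVol m ≤ (volM V F).real univ)
    -- the certificate with a parameter
    {l : List SO.GT} (hr : ∀ t ∈ l, t.Reg) (hok : ∀ t ∈ l, t.ok h)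
    (hw : ∀ t ∈ l, ∀ x N : W, ‖x‖ = 1 → ‖N‖ = 1 → ⟪x, N⟫ = 0 →
      t.w (dv x N x N 0) = 1)
    {Ro : ℝ → R9 → ℝ} (hRn : ∀ N : M → W, TwoG (volM V F) m F N → ∀ T ∈ Ioo (0 : ℝ) 1,
      Null (volM V F) F N 0 (Ro T))
    {R0 : R9 → ℝ} (hR0 : ∀ N : M → W, TwoG (volM V F) m F N → Null (volM V F) F N 0 R0)
    (hposT : ∀ T ∈ Ioo (0 : ℝ) 1, ∀ x N y w : W, ‖x‖ = 1 → ‖N‖ = 1 → ‖y‖ = 1 → ‖w‖ = 1 →
      ⟪x, N⟫ = 0 → ⟪y, w⟫ = 0 → SO.gS' (l.map SO.GT.v) T (dv x N y w 0)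
        ≤ Ro T (dv x N y w 0))
    {c0 κ γ : ℝ} (hc0 : 0 < c0) (hκ : 0 ≤ κ) (hγ : 0 < γ)
    {RT : R9 → ℝ} (hRTc : Continuous RT)
    (h0 : ∀ x N y w : W, ‖x‖ = 1 → ‖N‖ = 1 → ‖y‖ = 1 → ‖w‖ = 1 → ⟪x, N⟫ = 0 → ⟪y, w⟫ = 0 →
      (l.map fun t => t.φ 0 * t.Q (dv x N y w 0)).sum
        ≤ c0 * (1 + γ * dv x N y w (0 : W) 3
          - (RT (dv x N y w 0) + κ * dv x N y w (0 : W) 0 ^ 3) + R0 (dv x N y w 0)))
    (hfl : OT.fluxC m h l = c0 * C)
    -- the certificate with the mean normal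
    {κ2 : ℝ} (hκ2 : 0 ≤ κ2) {RS : R9 → ℝ} (hRSc : Continuous RS)
    {b0 b1 b2 b3 b4 b5 b6 b7 b8 : ℝ} {l2 : List (ℝ × HTerm)}
    (hl : ∀ cT ∈ l2, cT.2.ok m = true)
    (hpos : ∀ e x N y w : W, ‖e‖ ^ 2 ≤ 25 / 36 → ‖x‖ = 1 → ‖N‖ = 1 → ‖y‖ = 1 → ‖w‖ = 1 →
      ⟪x, N⟫ = 0 → ⟪y, w⟫ = 0 → ⟪x, y⟫ < 1 → 0 ≤
        W9 b0 b1 b2 b3 b4 b5 b6 b7 b8 (dv x N y w e) + hsum m l2 (dv x N y w e)
        - (RS (dv x N y w e) + κ2 * dv x N y w e 0 ^ 3))
    {u0 gs : ℝ} (hgs : 0 ≤ gs)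
    (hlaw : ∀ Θ u r : ℝ, Θ1 ≤ Θ → Θ ≤ C → u0 ≤ u → Θ ^ 2 * u ≤ 1 → u ^ 2 ≤ r → r ≤ u →
      Θ * (b0 + (b1 + b2 + b3) * u + (b4 + b7) * r + (b5 + b6) * u ^ 2
        + b8 * ((u - r) / ((m : ℕ) + 1))) + KH m * hval m l2 u r ≤ Θ * gs)
    -- the stable resources
    {α kT tT kS tS : ℝ} {cd : ℕ} (hkT : 0 < kT) (hkS : 0 < kS)
    (hsT : ∀ N : M → W, TwoG (volM V F) m F N → 0 ≤ ∫ q : M × M, ⟪F q.1, F q.2⟫
        * ⟪F q.1, N q.2⟫ ∂((volM V F).prod (volM V F)) →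
      ∫ q, RT (dat F (fun x => -N x) 0 q) ∂((volM V F).prod (volM V F))
        < tT * (volM V F).real univ ^ 2 →
      ∃ (b : OrthonormalBasis (Fin (m + 2)) ℝ W) (S : Finset (Fin (m + 2))), S.card = cd ∧
        kT * ((volM V F).real univ * ∫ x, ‖devA α b S (F x) (N x)‖ ^ 2 ∂(volM V F))
          ≤ ∫ q, RT (dat F (fun x => -N x) 0 q) ∂((volM V F).prod (volM V F)))
    (hsS : ∀ (e : W) (N : M → W), TwoG (volM V F) m F N → 0 ≤ ∫ q : M × M, ⟪F q.1, F q.2⟫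
        * ⟪F q.1, N q.2⟫ ∂((volM V F).prod (volM V F)) →
      ∫ q, RS (dat F N e q) ∂((volM V F).prod (volM V F)) < tS * (volM V F).real univ ^ 2 →
      ∃ (b : OrthonormalBasis (Fin (m + 2)) ℝ W) (S : Finset (Fin (m + 2))), S.card = cd ∧
        kS * ((volM V F).real univ * ∫ x, ‖devA α b S (F x) (N x)‖ ^ 2 ∂(volM V F))
          ≤ ∫ q, RS (dat F N e q) ∂((volM V F).prod (volM V F)))
    -- the bound of the mean normal
    {K : ℝ} (hK : 0 < K)
    (hone : ∀ N : M → W, TwoG (volM V F) m F N → ∀ (b : OrthonormalBasis (Fin (m + 2)) ℝ W)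
      (S : Finset (Fin (m + 2))), S.card = cd →
      ‖∫ x, N x ∂(volM V F)‖ ≤ K * ∫ x, ‖devA α b S (F x) (N x)‖ ^ 2 ∂(volM V F))
    (hn1 : γ * u0 ≤ tT) (hn2 : (K * γ) ^ 2 * u0 ≤ kT ^ 2)
    (hs1 : gs < tS) (hs2 : (K * gs) ^ 2 < kS ^ 2 * u0)
    (hle : (volM V F).real univ ≤ C * sphereVol m) :
    (volM V F).real univ = C * sphereVol m ∧ Injective F ∧
      ∃ (N : M → W) (b : OrthonormalBasis (Fin (m + 2)) ℝ W) (S : Finset (Fin (m + 2))),
        ContMDiff 𝓘(ℝ, V) 𝓘(ℝ, W) ∞ N ∧ (∀ x, IsUnitNormal V F x (N x)) ∧ S.card = cd ∧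
        ∀ x, N x = ∑ i, ((if i ∈ S then α else -(1 / α)) * ⟪F x, b i⟫) • b i := by
  have hm0 : 0 < finrank ℝ V := by omega
  have hfin : IsFiniteMeasure (volM V F) := isFiniteMeasure_volM hF
  have hne : Nonempty M := inferInstance
  set A := (volM V F).real univ with hA
  set S := sphereVol m with hS
  have hS0 : 0 < S := sphereVol_pos' _
  have hSV : sphereVol (finrank ℝ V) = S := by rw [hV]
  have hA0 : 0 < A := by
    have : 0 < Θ1 * S := by positivity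
    linarith
  have hinj : Injective F := by
    by_contra hinj
    have h2 := TwoSide.two_le (by omega) hW hF hmin hinj
    rw [hSV] at h2
    have h3 := mul_lt_mul_of_pos_right hC2 hS0
    linarith
  obtain ⟨N, hNs, hN, htop, hor⟩ := exists_normal_or hW hm0 hF hinj
  rw [hSV] at htop
  obtain ⟨B, hE⟩ := embD_of_inj hm0 hW hF hmin hNs hN hinj
  rw [hSV, hV] at hE
  have hG := hE.toTwoG
  -- the opposite normal
  have hN' : ∀ x, IsUnitNormal V F x (-N x) := fun x =>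
    ⟨by rw [norm_neg]; exact (hN x).1, by rw [inner_neg_right, (hN x).2.1, neg_zero],
      fun i => by rw [inner_neg_right, (hN x).2.2 i, neg_zero]⟩
  obtain ⟨B', hE'⟩ := embD_of_inj hm0 hW hF hmin hNs.neg hN' hinj
  rw [hSV, hV] at hE'
  have hG' := hE'.toTwoG
  set e : W := A⁻¹ • ∫ x, N x ∂(volM V F) with he
  have he' : A • e = ∫ x, N x ∂(volM V F) := by
    rw [he, smul_smul, mul_inv_cancel₀ hA0.ne', one_smul]
  have hn : ‖∫ x, N x ∂(volM V F)‖ = A * ‖e‖ := by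
    rw [← he', norm_smul, Real.norm_eq_abs, abs_of_pos hA0]
  have hn' : ‖∫ x, -N x ∂(volM V F)‖ = A * ‖e‖ := by
    rw [integral_neg, norm_neg, hn]
  rw [hn] at htop
  set Θ := A / S with hΘd
  have hAS : A = Θ * S := by rw [hΘd]; field_simp
  have h1 : Θ1 ≤ Θ := by
    rw [hΘd, le_div_iff₀ hS0]
    exact hΘ
  have h2 : Θ ≤ C := by
    rw [hΘd, div_le_iff₀ hS0]
    exact hle
  have h3 : Θ * ‖e‖ ≤ 1 := by
    have : S * (Θ * ‖e‖) ≤ S * 1 := by
      calc S * (Θ * ‖e‖) = A * ‖e‖ := by rw [hAS]; ring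
        _ ≤ S := htop
        _ = S * 1 := (mul_one S).symm
    exact le_of_mul_le_mul_left this hS0
  have h4 : Θ ^ 2 * ‖e‖ ^ 2 ≤ 1 := by
    have h0 : 0 ≤ Θ * ‖e‖ := mul_nonneg (by linarith) (norm_nonneg _)
    calc Θ ^ 2 * ‖e‖ ^ 2 = (Θ * ‖e‖) ^ 2 := by ring
      _ ≤ 1 := pow_le_one₀ h0 h3
  have h5 : ‖e‖ ^ 2 ≤ 25 / 36 := by
    have h6 : (6 / 5 : ℝ) ^ 2 ≤ Θ ^ 2 := pow_le_pow_left₀ (by norm_num) (hΘ1.trans h1) 2
    have h7 := mul_le_mul_of_nonneg_right h6 (sq_nonneg ‖e‖)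
    linarith
  have hA2 : 0 < A ^ 2 := by positivity
  have hint : ∀ {H : R9 → ℝ} (n : M → W) (v : W), TwoG (volM V F) m F n → Continuous H →
      Integrable (fun q => H (dat F n v q)) ((volM V F).prod (volM V F)) :=
    fun n v hg hH => integrable_param _ (measurable_dat hg.toPts v) (isCompact_KE (bE v))
      (dat_mem hg.toPts v) hH.measurable hH.continuousOn
  -- the mean normal is small
  have hu : ‖e‖ ^ 2 < u0 := by
    by_contra hu
    rw [not_lt] at hu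
    have hRc : Continuous fun d : R9 => RS d + κ2 * d 0 ^ 3 := hRSc.add (by fun_prop)
    obtain ⟨r, hr1, hr2, hr3⟩ := lawS6 hE (by omega) he' hA0 hRc hl
      (fun x N y w hx hN hy hw hxN hyw hs => hpos e x N y w h5 hx hN hy hw hxN hyw hs)
    rw [← hA] at hr3
    have h8 := hlaw Θ (‖e‖ ^ 2) r h1 h2 hu h4 hr1 hr2
    have h10 : ∀ c : ℝ, A * c = S * (Θ * c) := fun c => by rw [hAS]; ring
    have h9 := mul_le_mul_of_nonneg_left (mul_le_mul_of_nonneg_left h8 hS0.le) hA0.le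
    have h11 : ∫ q, (RS (dat F N e q) + κ2 * dat F N e q 0 ^ 3)
        ∂((volM V F).prod (volM V F)) ≤ A ^ 2 * gs := by
      refine hr3.trans ?_
      rw [h10 (b0 + (b1 + b2 + b3) * ‖e‖ ^ 2 + (b4 + b7) * r
          + (b5 + b6) * (‖e‖ ^ 2) ^ 2 + b8 * ((‖e‖ ^ 2 - r) / ((m : ℝ) + 1)))]
      have h12 : A ^ 2 * gs = A * (S * (Θ * gs)) := by rw [← h10]; ring
      rw [h12]
      refine le_trans (le_of_eq ?_) h9
      ring
    have iS3 : Integrable (fun q => dat F N e q 0 ^ 3) ((volM V F).prod (volM V F)) :=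
      hint (H := fun d => d 0 ^ 3) N e hG (by fun_prop)
    have iRS : Integrable (fun q => RS (dat F N e q)) ((volM V F).prod (volM V F)) :=
      hint N e hG hRSc
    have hQ0 : 0 ≤ ∫ q, dat F N e q 0 ^ 3 ∂((volM V F).prod (volM V F)) :=
      SO.k00 (μ := volM V F) (p := F) ⟨hG.mp, hG.np⟩
    have h13 : ∫ q, RS (dat F N e q) ∂((volM V F).prod (volM V F)) ≤ A ^ 2 * gs := by
      rw [integral_add iRS (iS3.const_mul κ2), integral_const_mul] at h11
      have := mul_nonneg hκ2 hQ0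
      linarith
    have hRS1 : ∫ q, RS (dat F N e q) ∂((volM V F).prod (volM V F)) < tS * A ^ 2 := by
      have h15 := mul_lt_mul_of_pos_right hs1 hA2
      linarith
    obtain ⟨b, S', hS4, hD⟩ := hsS e N hG hor hRS1
    have hone' := hone N hG b S' hS4
    rw [hn] at hone'
    exact arithSo hA0 hkS hK.le hgs (norm_nonneg e) h13 hD hone' hu hs2
  -- the law with a parameter
  have key2 := lawT_odd hmh hm hE' hA0 l hr hok (fun t ht _ => hw t ht) (hRn _ hG')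
    (hR0 _ hG') hposT (R := fun d => RT d + κ * d 0 ^ 3) (hRTc.add (by fun_prop))
    (γ := γ) (c0 := c0) (fun x N y w a1 a2 a3 a4 a5 a6 => h0 x N y w a1 a2 a3 a4 a5 a6)
  rw [hfl, hn', ← hA] at key2
  have iS3 : Integrable (fun q => dat F (fun x => -N x) (0 : W) q 0 ^ 3)
      ((volM V F).prod (volM V F)) :=
    hint (H := fun d => d 0 ^ 3) (fun x => -N x) 0 hG' (by fun_prop)
  have iRT : Integrable (fun q => RT (dat F (fun x => -N x) (0 : W) q))
      ((volM V F).prod (volM V F)) := hint (fun x => -N x) 0 hG' hRTc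
  have hval : ∫ q, (RT (dat F (fun x => -N x) (0 : W) q)
      + κ * dat F (fun x => -N x) (0 : W) q 0 ^ 3) ∂((volM V F).prod (volM V F))
      = ∫ q, RT (dat F (fun x => -N x) (0 : W) q) ∂((volM V F).prod (volM V F))
        + κ * ∫ q, dat F (fun x => -N x) (0 : W) q 0 ^ 3 ∂((volM V F).prod (volM V F)) := by
    rw [integral_add iRT (iS3.const_mul κ), integral_const_mul]
  rw [hval] at key2
  have hQ0 : 0 ≤ ∫ q, dat F (fun x => -N x) (0 : W) q 0 ^ 3 ∂((volM V F).prod (volM V F)) :=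
    SO.k00 (μ := volM V F) (p := F) ⟨hG.mp, hG.np⟩
  set Q := ∫ q, dat F (fun x => -N x) (0 : W) q 0 ^ 3 ∂((volM V F).prod (volM V F)) with hQ
  set R := ∫ q, RT (dat F (fun x => -N x) (0 : W) q) ∂((volM V F).prod (volM V F)) with hR
  have hκQ : 0 ≤ κ * Q := mul_nonneg hκ hQ0
  have hk3 : R ≤ γ * (‖e‖ ^ 2 * A ^ 2) - (C * S * A - A ^ 2) := by
    have h6 : (A * ‖e‖) ^ 2 = ‖e‖ ^ 2 * A ^ 2 := by ring
    rw [h6] at key2
    have h7 : c0 * (C * S * A + (R + κ * Q)) ≤ c0 * (A ^ 2 + γ * (‖e‖ ^ 2 * A ^ 2)) := by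
      linarith
    have h8 := le_of_mul_le_mul_left h7 hc0
    linarith
  have hCA : A ^ 2 ≤ C * S * A := by
    have := mul_le_mul_of_nonneg_right hle hA0.le
    linarith [sq A]
  have hk4 : R ≤ γ * (‖e‖ ^ 2 * A ^ 2) := by linarith
  have hRs : R < tT * A ^ 2 := by
    have h6 : ‖e‖ ^ 2 * A ^ 2 < u0 * A ^ 2 := mul_lt_mul_of_pos_right hu hA2
    have h7 := mul_lt_mul_of_pos_left h6 hγ
    have h9 := mul_le_mul_of_nonneg_right hn1 hA2.le
    linarith
  obtain ⟨b, S', hS4, hD⟩ := hsT N hG hor hRs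
  set D := ∫ x, ‖devA α b S' (F x) (N x)‖ ^ 2 ∂(volM V F) with hDd
  have hD0 : 0 ≤ D := integral_nonneg fun x => by positivity
  have hone' := hone N hG b S' hS4
  rw [hn, ← hDd] at hone'
  -- the mean normal vanishes
  have he0 : ‖e‖ = 0 := arithTo hA0 hkT hK.le (norm_nonneg e) hk4 hD hone' hu hn2 hγ hK
  rw [he0] at hk3
  have hR0' : 0 ≤ R := by
    have : 0 ≤ kT * (A * D) := by positivity
    linarith
  have hAC : A = C * S := by
    have h7 : C * S * A - A ^ 2 ≤ 0 := by linarith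
    have h8 : A * (C * S) ≤ A * A := by linarith [sq A]
    exact le_antisymm hle (le_of_mul_le_mul_left h8 hA0)
  have hDz : D = 0 := by
    have h6 : (kT * A) * D ≤ (kT * A) * 0 := by
      have h9 : (kT * A) * D = kT * (A * D) := by ring
      rw [h9]
      rw [hAC] at hk3
      have h10 : R ≤ 0 := by linarith
      linarith
    exact le_antisymm (le_of_mul_le_mul_left h6 (by positivity)) hD0
  refine ⟨hAC, hinj, N, b, S', hNs, hN, hS4, fun x => ?_⟩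
  have hcF : Continuous F := hF.smooth.continuous
  have hcN : Continuous N := hNs.continuous
  have hop : (volM V F).IsOpenPosMeasure :=
    ⟨fun U hU hne => (volM_pos_of_isOpen hW hF hU hne).ne'⟩
  have hcd : Continuous fun x => ‖devA α b S' (F x) (N x)‖ ^ 2 := by
    unfold devA
    fun_prop
  have hi : Integrable (fun x => ‖devA α b S' (F x) (N x)‖ ^ 2) (volM V F) :=
    FV.integrable_of_cont (volM V F) hcd
  have hz := (integral_eq_zero_iff_of_nonneg (fun x => by positivity) hi).1 (hDd ▸ hDz)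
  have hz2 : (fun x => ‖devA α b S' (F x) (N x)‖ ^ 2) = fun _ => (0 : ℝ) :=
    (Continuous.ae_eq_iff_eq (volM V F) hcd continuous_const).1 hz
  have h6 : ‖devA α b S' (F x) (N x)‖ ^ 2 = 0 := congrFun hz2 x
  rw [pow_eq_zero_iff two_ne_zero, norm_eq_zero] at h6
  unfold devA at h6
  exact sub_eq_zero.1 h6

end

end Vale.Agent.P224.PO
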