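import Vale.Agent.P224.PO.RowsR

/-!
The polynomial expressions of the resource terms with a cubic term.
-/

namespace Vale.Agent.P224.PO

open Vale.Agent.P224.UE Vale.Agent.P224.POS Vale.Agent.P224.POS.RM

noncomputable section

/-- the expression of the term `s ^ 3`, with integer coefficient -/
def XKh (Kc : Nat) (r4 : Int) : PE :=
  PE.mul (PE.mul (PE.c 4) (PE.pow (PE.v 0) Kc)) (PE.mul (PE.c (2 * r4)) (PE.pow sP 3))

theorem ev_XKh {d : R9} (hd : d 0 ≤ 1) {D : Int} (hD : D ≠ 0) (Kc : ℕ) (r4 : ℤ) :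
    PE.ev (vh d) (XKh Kc r4) = 8 * D * rr (d 0) ^ Kc * (r4 / D * d 0 ^ 3) := by
  have hD' : (D : ℝ) ≠ 0 := by exact_mod_cast hD
  have hs := ev_sP hd
  unfold XKh
  simp only [PE.ev_mul, PE.ev_pow, PE.ev_c, PE.ev_v, hs, vh0, Int.cast_mul, Int.cast_ofNat]
  field_simp
  ring

/-- the left side of a certificate with resource terms -/
def lhsHRK (m K : Nat) (b0 b1 b2 b3 b4 b5 b6 b7 b8 r1 r2 r3 r4 : Int)
    (L : List (Int × HTerm)) : PE :=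
  PE.add (lhsHR m K b0 b1 b2 b3 b4 b5 b6 b7 b8 r1 r2 r3 L) (XKh K r4)

/-- nonnegativity of the certificate with resource terms -/
theorem nonneg_of_lhsHRK {d : R9} (hd : d 0 < 1) (m : ℕ) {K : ℕ} {D : Int} (hD : 0 < D)
    (b0 b1 b2 b3 b4 b5 b6 b7 b8 r1 r2 r3 r4 : Int) {L : List (Int × HTerm)}
    (hL : ∀ x ∈ L, 0 ≤ (K : ℤ) + x.2.e - 2)
    (h : 0 ≤ PE.ev (vh d) (lhsHRK m K b0 b1 b2 b3 b4 b5 b6 b7 b8 r1 r2 r3 r4 L)) :
    0 ≤ W9 (b0 / D) (b1 / D) (b2 / D) (b3 / D) (b4 / D) (b5 / D) (b6 / D) (b7 / D) (b8 / D) d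
        + hsum m (rlH D L) d + XF (r1 / D) (r2 / D) (r3 / D) d + r4 / D * d 0 ^ 3 := by
  unfold lhsHRK lhsHR at h
  rw [PE.ev_add, PE.ev_add, ev_lhsH hd m hD.ne' b0 b1 b2 b3 b4 b5 b6 b7 b8 hL,
    ev_XPh hd.le hD.ne', ev_XKh hd.le hD.ne', ← mul_add, ← mul_add] at h
  have hD0 : (0 : ℝ) < D := by exact_mod_cast hD
  have hw : 0 < rr (d 0) ^ K := pow_pos (rr_pos hd) K
  exact nonneg_of_mul_nonneg_right h (by positivity)

end

end Vale.Agent.P224.PO
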