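import Vale.Agent.P224.POS.Sos

/-!
Sums of squares with vectors for an arbitrary table of inner products and arbitrary multipliers;
neighbouring elements with the same vector and the same outer variable are summed first.
-/

namespace Vale.Agent.P224.PO

open Vale.Agent.P224.POS

noncomputable section

open scoped RealInnerProductSpace

/-- the inner product of the vectors number `k` and `l` in the table -/
def grT (tab : List (List PE)) (k l : Nat) : PE := lk (fun _ => PE.c 0) (lk (fun _ => []) tab k) l

/-- the outer factor: `1` or a variable -/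
def ov (o : Nat) : PE := Bool.rec (motive := fun _ => PE) (PE.v o) (PE.c 1) (Nat.beq o 0)

/-- the sum of a finished group -/
def flE (tab : List (List PE)) (k l o : Nat) (acc : PE) : PE :=
  PE.mul acc (PE.mul (ov o) (grT tab k l))

/-- one row, with the current group and its sum -/
def rowG (tab : List (List PE)) (k : Nat) (row : List Int) (els : List (Nat × Nat × PE))
    (l o : Nat) (acc : PE) : PE :=
  List.rec (motive := fun _ => List (Nat × Nat × PE) → Nat → Nat → PE → PE)
    (fun _ l o acc => flE tab k l o acc)
    (fun a tl ih els => List.rec (motive := fun _ => Nat → Nat → PE → PE)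
      (fun l o acc => flE tab k l o acc)
      (fun e es _ l o acc =>
        Bool.rec (motive := fun _ => PE)
          (PE.add (flE tab k l o acc) (ih es e.1 e.2.1 (PE.mul (PE.c (fac a tl)) e.2.2)))
          (Bool.rec (motive := fun _ => PE)
            (PE.add (flE tab k l o acc) (ih es e.1 e.2.1 (PE.mul (PE.c (fac a tl)) e.2.2)))
            (ih es l o (PE.add (PE.mul (PE.c (fac a tl)) e.2.2) acc))
            (Nat.beq e.2.1 o))
          (Nat.beq e.1 l)) els)
    row els l o acc

/-- the sum over all pairs -/
def blkG (tab : List (List PE)) (all : List (Nat × Nat × PE)) (G : List (List Int))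
    (els : List (Nat × Nat × PE)) : PE :=
  List.rec (motive := fun _ => List (Nat × Nat × PE) → PE) (fun _ => PE.c 0)
    (fun r _ ih els => List.rec (motive := fun _ => PE) (PE.c 0)
      (fun e es _ => PE.add (PE.mul (PE.mul (ov e.2.1) e.2.2) (rowG tab e.1 r all 0 0 (PE.c 0)))
        (ih es)) els)
    G els

/-- a block with grouped elements: (vector, outer variable, inner polynomial) and the lower
triangular rows of the Gram matrix -/
structure BlkG where
  /-- the elements -/
  els : List (Nat × Nat × PE)
  /-- the rows -/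
  G : List (List Int)

/-- the expression of a block -/
def BlkG.pe (tab : List (List PE)) (B : BlkG) : PE := blkG tab B.els B.G B.els

/-- the number of the vector of an element -/
def egk (els : List (Nat × Nat × PE)) (i : ℕ) : ℕ := (els.getD i (0, 0, PE.c 0)).1

/-- the polynomial of an element -/
def egp (els : List (Nat × Nat × PE)) (i : ℕ) : PE :=
  PE.mul (ov (els.getD i (0, 0, PE.c 0)).2.1) (els.getD i (0, 0, PE.c 0)).2.2

section

variable {R : Type*} [CommRing R] (f : ℕ → R) (tab : List (List PE))

lemma ev_flE (k l o : ℕ) (acc : PE) :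
    PE.ev f (flE tab k l o acc) = PE.ev f acc * (PE.ev f (ov o) * PE.ev f (grT tab k l)) := rfl

lemma egk_cons_zero (e : Nat × Nat × PE) (es : List (Nat × Nat × PE)) :
    egk (e :: es) 0 = e.1 := rfl
lemma egk_cons_succ (e : Nat × Nat × PE) (es : List (Nat × Nat × PE)) (i : ℕ) :
    egk (e :: es) (i + 1) = egk es i := rfl
lemma egp_cons_zero (e : Nat × Nat × PE) (es : List (Nat × Nat × PE)) :
    egp (e :: es) 0 = PE.mul (ov e.2.1) e.2.2 := rfl
lemma egp_cons_succ (e : Nat × Nat × PE) (es : List (Nat × Nat × PE)) (i : ℕ) :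
    egp (e :: es) (i + 1) = egp es i := rfl
lemma ev_egp_nil (i : ℕ) : PE.ev f (egp [] i) = 0 := by
  have : egp [] i = PE.mul (ov 0) (PE.c 0) := rfl
  rw [this, PE.ev_mul, PE.ev_c, Int.cast_zero, mul_zero]

/-- the plain row sum -/
lemma ev_rowG (k : ℕ) (row : List Int) (els : List (Nat × Nat × PE)) (l o : ℕ) (acc : PE) :
    PE.ev f (rowG tab k row els l o acc)
      = PE.ev f acc * (PE.ev f (ov o) * PE.ev f (grT tab k l))
      + ∑ j ∈ Finset.range row.length, ((fac (row.getD j 0) (row.drop (j + 1)) : ℤ) : R)
        * (PE.ev f (egp els j) * PE.ev f (grT tab k (egk els j))) := by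
  induction row generalizing els l o acc with
  | nil =>
    have e1 : rowG tab k [] els l o acc = flE tab k l o acc := rfl
    rw [e1, ev_flE]
    simp
  | cons a tl ih =>
    cases els with
    | nil =>
      have e1 : rowG tab k (a :: tl) [] l o acc = flE tab k l o acc := rfl
      rw [e1, ev_flE, Finset.sum_eq_zero fun j _ => by rw [ev_egp_nil]; ring, add_zero]
    | cons e es =>
      rw [List.length_cons, Finset.sum_range_succ']
      simp only [List.getD_cons_succ, List.drop_succ_cons, egp_cons_succ, egk_cons_succ,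
        egp_cons_zero, egk_cons_zero, List.getD_cons_zero, List.drop_zero]
      have e1 : rowG tab k (a :: tl) (e :: es) l o acc = Bool.rec (motive := fun _ => PE)
          (PE.add (flE tab k l o acc)
            (rowG tab k tl es e.1 e.2.1 (PE.mul (PE.c (fac a tl)) e.2.2)))
          (Bool.rec (motive := fun _ => PE)
            (PE.add (flE tab k l o acc)
              (rowG tab k tl es e.1 e.2.1 (PE.mul (PE.c (fac a tl)) e.2.2)))
            (rowG tab k tl es l o (PE.add (PE.mul (PE.c (fac a tl)) e.2.2) acc))
            (Nat.beq e.2.1 o))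
          (Nat.beq e.1 l) := rfl
      have key : PE.ev f (PE.add (flE tab k l o acc)
          (rowG tab k tl es e.1 e.2.1 (PE.mul (PE.c (fac a tl)) e.2.2)))
          = PE.ev f acc * (PE.ev f (ov o) * PE.ev f (grT tab k l))
            + (∑ j ∈ Finset.range tl.length, ((fac (tl.getD j 0) (tl.drop (j + 1)) : ℤ) : R)
                * (PE.ev f (egp es j) * PE.ev f (grT tab k (egk es j)))
              + ((fac a tl : ℤ) : R) * (PE.ev f (PE.mul (ov e.2.1) e.2.2)
                * PE.ev f (grT tab k e.1))) := by
        rw [PE.ev_add, ev_flE, ih, PE.ev_mul, PE.ev_mul, PE.ev_c]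
        ring
      rw [e1]
      cases h1 : Nat.beq e.1 l with
      | false => exact key
      | true =>
        cases h2 : Nat.beq e.2.1 o with
        | false => exact key
        | true =>
          have hl := Nat.eq_of_beq_eq_true h1
          have ho := Nat.eq_of_beq_eq_true h2
          change PE.ev f (rowG tab k tl es l o (PE.add (PE.mul (PE.c (fac a tl)) e.2.2) acc)) = _
          rw [ih, PE.ev_add, PE.ev_mul, PE.ev_mul, PE.ev_c, hl, ho]
          ring

lemma ev_blkG (all : List (Nat × Nat × PE)) (G : List (List Int))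
    (els : List (Nat × Nat × PE)) :
    PE.ev f (blkG tab all G els) = ∑ i ∈ Finset.range G.length,
      PE.ev f (egp els i) * PE.ev f (rowG tab (egk els i) (G.getD i []) all 0 0 (PE.c 0)) := by
  induction G generalizing els with
  | nil => simp [blkG]
  | cons r tl ih =>
    rw [List.length_cons, Finset.sum_range_succ']
    cases els with
    | nil =>
      have e1 : blkG tab all (r :: tl) [] = PE.c 0 := rfl
      rw [e1, PE.ev_c, Int.cast_zero, ev_egp_nil, zero_mul, add_zero]
      exact (Finset.sum_eq_zero fun j _ => by rw [ev_egp_nil, zero_mul]).symm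
    | cons e es =>
      have e1 : blkG tab all (r :: tl) (e :: es)
        = PE.add (PE.mul (PE.mul (ov e.2.1) e.2.2) (rowG tab e.1 r all 0 0 (PE.c 0)))
          (blkG tab all tl es) := rfl
      rw [e1, PE.ev_add, ih es, PE.ev_mul, add_comm]
      rfl

/-- the value of a block -/
theorem ev_blkG_eq (B : BlkG) (htri : tri B.G 0 = true)
    (hsym : ∀ k l, PE.ev f (grT tab k l) = PE.ev f (grT tab l k)) :
    PE.ev f (B.pe tab) = ∑ i ∈ Finset.range B.G.length, ∑ j ∈ Finset.range B.G.length,
      (gij B.G i j : R) * (PE.ev f (egp B.els i) * PE.ev f (egp B.els j)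
        * PE.ev f (grT tab (egk B.els i) (egk B.els j))) := by
  unfold BlkG.pe
  rw [ev_blkG]
  have hs := sum_sym B.G.length (fun i j => (((B.G.getD i []).getD j 0 : ℤ) : R))
    (fun i j => PE.ev f (egp B.els i) * PE.ev f (egp B.els j)
        * PE.ev f (grT tab (egk B.els i) (egk B.els j)))
    (fun i j => by rw [hsym (egk B.els i) (egk B.els j)]; ring)
  refine Eq.trans ?_ hs
  refine Finset.sum_congr rfl fun i hi => ?_
  have hl := tri_spec B.G 0 htri i (Finset.mem_range.1 hi)
  rw [zero_add] at hl
  rw [ev_rowG, PE.ev_c, Int.cast_zero, zero_mul, zero_add, hl, Finset.mul_sum]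
  refine Finset.sum_congr rfl fun j hj => ?_
  have hj' := Finset.mem_range.1 hj
  by_cases hji : j = i
  · subst hji
    rw [if_pos rfl, List.drop_eq_nil_of_le hl.le, fac_nil]
    ring
  · have : (B.G.getD i []).drop (j + 1) ≠ [] := by
      intro h0
      have := List.drop_eq_nil_iff.1 h0
      omega
    rw [if_neg hji, fac_ne _ this]
    push_cast
    ring

end

section

variable {V : Type*} [NormedAddCommGroup V] [InnerProductSpace ℝ V]

/-- the variables are the inner products of the vectors as in the table -/
def IsGramT (tab : List (List PE)) (f : ℕ → ℝ) (v : ℕ → V) : Prop :=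
  v 0 = 0 ∧ ∀ k l, PE.ev f (grT tab k l) = if k = 0 ∧ l = 0 then 1 else ⟪v k, v l⟫

variable {tab : List (List PE)} {f : ℕ → ℝ} {v : ℕ → V}

lemma IsGramT.sym (h : IsGramT tab f v) (k l : ℕ) :
    PE.ev f (grT tab k l) = PE.ev f (grT tab l k) := by
  rw [h.2 k l, h.2 l k]
  by_cases hkl : k = 0 ∧ l = 0
  · rw [if_pos hkl, if_pos hkl.symm]
  · rw [if_neg hkl, if_neg fun h' => hkl h'.symm, real_inner_comm]

/-- positivity of a block -/
theorem BlkG.nonneg (B : BlkG) (h : IsGramT tab f v) (htri : tri B.G 0 = true)
    (hpos : QPos B.G) : 0 ≤ PE.ev f (B.pe tab) := by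
  rw [ev_blkG_eq f tab B htri h.sym]
  have h1 := quad_vec_nonneg (fun i j => (gij B.G i j : ℝ)) (fun i j => by rw [gij_sym]) hpos
    (fun i => PE.ev f (egp B.els i) • v (egk B.els i))
  have h2 := hpos (fun i => if egk B.els i = 0 then PE.ev f (egp B.els i) else 0)
  refine (add_nonneg h1 h2).trans (le_of_eq ?_)
  rw [← Finset.sum_add_distrib]
  refine Finset.sum_congr rfl fun i _ => ?_
  rw [← Finset.sum_add_distrib]
  refine Finset.sum_congr rfl fun j _ => ?_
  rw [real_inner_smul_left, real_inner_smul_right, h.2]
  beta_reduce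
  by_cases hi : egk B.els i = 0
  · by_cases hj : egk B.els j = 0
    · rw [if_pos hi, if_pos hj, if_pos ⟨hi, hj⟩, hi, h.1, inner_zero_left]
      ring
    · rw [if_neg hj, if_neg (fun h' : egk B.els i = 0 ∧ egk B.els j = 0 => hj h'.2)]
      ring
  · rw [if_neg hi, if_neg (fun h' : egk B.els i = 0 ∧ egk B.els j = 0 => hi h'.1)]
    ring

/-- the sum of the blocks -/
def sumG (tab : List (List PE)) (L : List BlkG) : PE :=
  List.rec (motive := fun _ => PE) (PE.c 0) (fun B _ ih => PE.add (B.pe tab) ih) L

lemma sumG_nonneg (L : List BlkG) (h : IsGramT tab f v)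
    (hL : ∀ B ∈ L, tri B.G 0 = true ∧ QPos B.G) : 0 ≤ PE.ev f (sumG tab L) := by
  induction L with
  | nil => simp [sumG]
  | cons B L ih =>
    have e : sumG tab (B :: L) = PE.add (B.pe tab) (sumG tab L) := rfl
    rw [e, PE.ev_add]
    exact add_nonneg (B.nonneg h (hL B (by simp)).1 (hL B (by simp)).2)
      (ih fun B' hB' => hL B' (by simp [hB']))

/-- the right side of the identity: sums of blocks with multipliers -/
def rhsG (tab : List (List PE)) (L : List (PE × List BlkG)) : PE :=
  List.rec (motive := fun _ => PE) (PE.c 0)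
    (fun x _ ih => PE.add (PE.mul x.1 (sumG tab x.2)) ih) L

/-- the right side is nonnegative -/
theorem rhsG_nonneg (L : List (PE × List BlkG)) (h : IsGramT tab f v)
    (hm : ∀ x ∈ L, 0 ≤ PE.ev f x.1) (hL : ∀ x ∈ L, ∀ B ∈ x.2, tri B.G 0 = true ∧ QPos B.G) :
    0 ≤ PE.ev f (rhsG tab L) := by
  induction L with
  | nil => simp [rhsG]
  | cons x L ih =>
    have e : rhsG tab (x :: L) = PE.add (PE.mul x.1 (sumG tab x.2)) (rhsG tab L) := rfl
    rw [e, PE.ev_add, PE.ev_mul]
    exact add_nonneg (mul_nonneg (hm x (by simp)) (sumG_nonneg x.2 h (hL x (by simp))))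
      (ih (fun y hy => hm y (by simp [hy])) fun y hy => hL y (by simp [hy]))

end

end

end Vale.Agent.P224.PO
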