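import Vale.Agent.P224.POS.Sub
import Vale.Agent.P224.PO.SosG
import Vale.Agent.P224.PO.RowsO

/-!
The substitution `a, d = (x ± y)/2`, `a', d' = (N ± w)/2` with `rr = ‖d‖` as the first variable:
Gram table and nonnegativity from a verified identity.
-/

namespace Vale.Agent.P224.PO

open Vale.Agent.P224.UE Vale.Agent.P224.POS
open scoped RealInnerProductSpace

set_option linter.unusedSimpArgs false

noncomputable section

/-- the table of inner products -/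
def tabH : List (List PE) :=
  [[.c 1, .c 0, .c 0, .c 0, .c 0, .c 0],
   [.c 0, .sub (.c 1) (.pow (.v 0) 2), .c 0, .v 1, .v 2, .v 4],
   [.c 0, .c 0, .pow (.v 0) 2, .sub (.c 0) (.v 2), .sub (.c 0) (.v 1), .v 5],
   [.c 0, .v 1, .sub (.c 0) (.v 2), .sub (.c 1) (.v 3), .c 0, .v 6],
   [.c 0, .v 2, .sub (.c 0) (.v 1), .c 0, .v 3, .v 7],
   [.c 0, .v 4, .v 5, .v 6, .v 7, .v 8]]

/-- the new data, the first one is `rr` -/
def vg (d : R9) (i : ℕ) : ℝ :=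
  ([rr (d 0), ndat d 1, ndat d 2, ndat d 3, ndat d 4, ndat d 5, ndat d 6, ndat d 7, ndat d 8] :
    List ℝ).getD i 0

lemma vg_ge (d : R9) (i : ℕ) (h : 9 ≤ i) : vg d i = 0 := by
  unfold vg
  rw [List.getD_eq_default _ _ (by simpa using h)]

lemma vg0 (d : R9) : vg d 0 = rr (d 0) := rfl
lemma vg1 (d : R9) : vg d 1 = cd (ndat d) 1 := rfl
lemma vg2 (d : R9) : vg d 2 = cd (ndat d) 2 := rfl
lemma vg3 (d : R9) : vg d 3 = cd (ndat d) 3 := rfl
lemma vg4 (d : R9) : vg d 4 = cd (ndat d) 4 := rfl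
lemma vg5 (d : R9) : vg d 5 = cd (ndat d) 5 := rfl
lemma vg6 (d : R9) : vg d 6 = cd (ndat d) 6 := rfl
lemma vg7 (d : R9) : vg d 7 = cd (ndat d) 7 := rfl
lemma vg8 (d : R9) : vg d 8 = cd (ndat d) 8 := rfl

/-- the pair data as polynomials of the new data -/
def sbH (i : ℕ) : PE :=
  match i with
  | 0 => PE.v 0
  | 1 => PE.mul (PE.c 2) (PE.sub (PE.v 1) (PE.v 2))
  | 2 => PE.mul (PE.c 2) (PE.add (PE.v 1) (PE.v 2))
  | 3 => PE.sub (PE.c 1) (PE.mul (PE.c 2) (PE.v 3))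
  | 4 => PE.add (PE.v 6) (PE.v 7)
  | 5 => PE.sub (PE.v 6) (PE.v 7)
  | 6 => PE.add (PE.v 4) (PE.v 5)
  | 7 => PE.sub (PE.v 4) (PE.v 5)
  | i => PE.v i

lemma ev_sbH (d : R9) (i : ℕ) : PE.ev (vg d) (sbH i) = vh d i := by
  match i with
  | 0 => simp [sbH, vg, vh]
  | 1 => simp [sbH, vg, vh, ndat]; ring
  | 2 => simp [sbH, vg, vh, ndat]; ring
  | 3 => simp [sbH, vg, vh, ndat]; ring
  | 4 => simp [sbH, vg, vh, ndat]; ring
  | 5 => simp [sbH, vg, vh, ndat]; ring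
  | 6 => simp [sbH, vg, vh, ndat]; ring
  | 7 => simp [sbH, vg, vh, ndat]; ring
  | 8 => simp [sbH, vg, vh, ndat]
  | (n + 9) =>
    rw [show sbH (n + 9) = PE.v (n + 9) from rfl, PE.ev_v, vg_ge _ _ (by omega),
      vh_ge _ _ (by omega)]

lemma ev_sb_sbH (d : R9) (P : PE) : PE.ev (vg d) (PE.sb sbH P) = PE.ev (vh d) P := by
  rw [PE.ev_sb]
  congr 1
  funext i
  exact ev_sbH d i

lemma grT_ge {k l : ℕ} (h : 6 ≤ k ∨ 6 ≤ l) : grT tabH k l = PE.c 0 := by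
  unfold grT
  by_cases hk : 6 ≤ k
  · rw [lk_ge _ _ k (by simpa [tabH] using hk)]
    rfl
  · have hl : 6 ≤ l := h.resolve_left hk
    have hk' : k < 6 := not_le.1 hk
    have h6 : ∀ i < 6, (lk (fun _ => ([] : List PE)) tabH i).length = 6 := by
      intro i hi
      interval_cases i <;> rfl
    rw [lk_ge _ _ l (by rw [h6 k hk']; exact hl)]

lemma ev_grT {d : R9} (hd : d 0 ≤ 1) (k l : ℕ) :
    PE.ev (vg d) (grT tabH k l) = PE.ev (cd (ndat d)) (gr k l) := by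
  by_cases h : 6 ≤ k ∨ 6 ≤ l
  · rw [grT_ge h, gr_ge h, PE.ev_c, PE.ev_c]
  · have hk : k < 6 := by omega
    have hl : l < 6 := by omega
    have h0 : rr (d 0) ^ 2 = cd (ndat d) 0 := rr_sq' hd
    interval_cases k <;> interval_cases l <;>
      simp only [grT, gr, tabH, grTab, lk_zero, lk_succ, PE.ev_c, PE.ev_v, PE.ev_sub, PE.ev_pow,
        vg0, vg1, vg2, vg3, vg4, vg5, vg6, vg7, vg8, h0]

/-- the multipliers `1`, `rr`, `25 - 36 E`, `rr (25 - 36 E)` -/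
def mulH (B1 Br S1 Sr : List BlkG) : List (PE × List BlkG) :=
  [(.c 1, B1), (.v 0, Br), (.sub (.c 25) (.mul (.c 36) (.v 8)), S1),
    (.mul (.v 0) (.sub (.c 25) (.mul (.c 36) (.v 8))), Sr)]

/-- tests for the positivity of the blocks -/
def GoodB (L : List BlkG) : Prop := ∀ B ∈ L, tri B.G 0 = true ∧ QPos B.G

section

variable {E : Type*} [NormedAddCommGroup E] [InnerProductSpace ℝ E]

theorem isGramT_dv {x N y w : E} (e : E) (hx : ‖x‖ = 1) (hN : ‖N‖ = 1) (hy : ‖y‖ = 1)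
    (hw : ‖w‖ = 1) (hxN : ⟪x, N⟫ = 0) (hyw : ⟪y, w⟫ = 0) (hs : ⟪x, y⟫ < 1) :
    IsGramT tabH (vg (dv x N y w e)) (vec5 ((1 / 2 : ℝ) • (x + y)) ((1 / 2 : ℝ) • (x - y))
      ((1 / 2 : ℝ) • (N + w)) ((1 / 2 : ℝ) • (N - w)) e) := by
  have h := isGram_dv e hx hN hy hw hxN hyw
  refine ⟨h.1, fun k l => ?_⟩
  have hd : dv x N y w e 0 ≤ 1 := le_of_lt hs
  rw [ev_grT hd, h.2]

/-- **Nonnegativity from a verified identity.** -/
theorem nonneg_of_chkH {P : PE} {B1 Br S1 Sr : List BlkG} {Ms : List ℕ} (k : Int) (hk : 0 ≤ k)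
    (hid : chk Ms (PE.sub (PE.sb sbH P) (PE.mul (PE.c k) (rhsG tabH (mulH B1 Br S1 Sr)))) = true)
    (h1 : GoodB B1) (h2 : GoodB Br) (h3 : GoodB S1) (h4 : GoodB Sr)
    {e x N y w : E} (he : ‖e‖ ^ 2 ≤ 25 / 36) (hx : ‖x‖ = 1) (hN : ‖N‖ = 1) (hy : ‖y‖ = 1)
    (hw : ‖w‖ = 1) (hxN : ⟪x, N⟫ = 0) (hyw : ⟪y, w⟫ = 0) (hs : ⟪x, y⟫ < 1) :
    0 ≤ PE.ev (vh (dv x N y w e)) P := by
  rw [← ev_sb_sbH, ev_eq_of_chk hid _ fun i hi => vg_ge _ _ (by omega), PE.ev_mul, PE.ev_c]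
  refine mul_nonneg (by exact_mod_cast hk) (rhsG_nonneg _ (isGramT_dv e hx hN hy hw hxN hyw hs)
    ?_ ?_)
  · have h8 : vg (dv x N y w e) 8 = ‖e‖ ^ 2 := real_inner_self_eq_norm_sq e
    have h0 : 0 ≤ vg (dv x N y w e) 0 := Real.sqrt_nonneg _
    have hE : 0 ≤ PE.ev (vg (dv x N y w e)) (.sub (.c 25) (.mul (.c 36) (.v 8))) := by
      rw [PE.ev_sub, PE.ev_mul, PE.ev_c, PE.ev_c, PE.ev_v, h8]
      push_cast
      linarith
    intro y hy
    simp only [mulH, List.mem_cons, List.not_mem_nil, or_false] at hy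
    rcases hy with rfl | rfl | rfl | rfl
    · simp
    · simpa using h0
    · exact hE
    · exact mul_nonneg h0 hE
  · intro y hy
    simp only [mulH, List.mem_cons, List.not_mem_nil, or_false] at hy
    rcases hy with rfl | rfl | rfl | rfl
    · exact h1
    · exact h2
    · exact h3
    · exact h4

end

end

end Vale.Agent.P224.PO
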